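import Crest.Agent.R176.StDef

/-! Row 176, part B, block CEN/PERM/PERF/FIN (helper370). -/

set_option autoImplicit false

namespace Crest.Agent.R176.Cen370

open scoped commutatorElement
open Crest.Agent.R176 St Matrix

variable {I J R : Type*} [Ring R]

/-! ### Column and row subgroups -/

section ColRow

variable [Fintype I] [DecidableEq I]

/-- `col z v = ∏ i, x (e i) z (v i)`, as a homomorphism. -/
noncomputable def col (e : I ↪ J) (z : J) (hz : ∀ i, e i ≠ z) :
    (I → Multiplicative R) →* St J R :=
  MonoidHom.noncommPiCoprod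
    (fun i => (⟨⟨fun r => x (e i) z (hz i) r.toAdd, x_zero _ _ _⟩,
      fun r s => x_add _ _ _ _ _⟩ : Multiplicative R →* St J R))
    (by
      intro i j hij r s
      exact x_commute _ _ _ _ _ _ (hz j).symm (hz i) _ _)

theorem col_single (e : I ↪ J) (z : J) (hz : ∀ i, e i ≠ z) (i : I) (r : Multiplicative R) :
    col e z hz (Pi.mulSingle i r) = x (e i) z (hz i) r.toAdd := by
  simp [col]

/-- `row z w = ∏ j, x z (e j) (w j)`, as a homomorphism. -/
noncomputable def row (e : I ↪ J) (z : J) (hz : ∀ i, e i ≠ z) :
    (I → Multiplicative R) →* St J R :=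
  MonoidHom.noncommPiCoprod
    (fun i => (⟨⟨fun r => x z (e i) (hz i).symm r.toAdd, x_zero _ _ _⟩,
      fun r s => x_add _ _ _ _ _⟩ : Multiplicative R →* St J R))
    (by
      intro i j hij r s
      exact x_commute _ _ _ _ _ _ (hz i) (hz j).symm _ _)

theorem row_single (e : I ↪ J) (z : J) (hz : ∀ i, e i ≠ z) (i : I) (r : Multiplicative R) :
    row e z hz (Pi.mulSingle i r) = x z (e i) (hz i).symm r.toAdd := by
  simp [row]

/-- action of a matrix on columns, as an endomorphism of the multiplicative group -/
def mulCol (M : Matrix I I R) : (I → Multiplicative R) →* (I → Multiplicative R) where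
  toFun v i := Multiplicative.ofAdd ((M *ᵥ fun j => (v j).toAdd) i)
  map_one' := by
    funext i
    show Multiplicative.ofAdd ((M *ᵥ fun _ => (0 : R)) i) = 1
    have : (M *ᵥ fun _ => (0 : R)) i = 0 := by
      simp [Matrix.mulVec, dotProduct]
    rw [this]; rfl
  map_mul' v w := by
    funext i
    show Multiplicative.ofAdd ((M *ᵥ ((fun j => (v j).toAdd) + fun j => (w j).toAdd)) i) = _
    rw [Matrix.mulVec_add]; rfl

/-- action of a matrix on rows -/
def mulRow (M : Matrix I I R) : (I → Multiplicative R) →* (I → Multiplicative R) where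
  toFun v i := Multiplicative.ofAdd (((fun j => (v j).toAdd) ᵥ* M) i)
  map_one' := by
    funext i
    show Multiplicative.ofAdd (((fun _ => (0 : R)) ᵥ* M) i) = 1
    have : ((fun _ => (0 : R)) ᵥ* M) i = 0 := by
      simp [Matrix.vecMul, dotProduct]
    rw [this]; rfl
  map_mul' v w := by
    funext i
    show Multiplicative.ofAdd ((((fun j => (v j).toAdd) + fun j => (w j).toAdd) ᵥ* M) i) = _
    rw [Matrix.add_vecMul]; rfl

theorem mulCol_mul (M N : Matrix I I R) (v : I → Multiplicative R) :
    mulCol (M * N) v = mulCol M (mulCol N v) := by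
  funext i
  show Multiplicative.ofAdd (((M * N) *ᵥ fun j => (v j).toAdd) i) =
    Multiplicative.ofAdd ((M *ᵥ (N *ᵥ fun j => (v j).toAdd)) i)
  rw [Matrix.mulVec_mulVec]

theorem mulRow_mul (M N : Matrix I I R) (v : I → Multiplicative R) :
    mulRow (M * N) v = mulRow N (mulRow M v) := by
  funext i
  show Multiplicative.ofAdd (((fun j => (v j).toAdd) ᵥ* (M * N)) i) =
    Multiplicative.ofAdd ((((fun j => (v j).toAdd) ᵥ* M) ᵥ* N) i)
  rw [Matrix.vecMul_vecMul]

theorem mulCol_one (v : I → Multiplicative R) : mulCol (1 : Matrix I I R) v = v := by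
  funext i
  show Multiplicative.ofAdd (((1 : Matrix I I R) *ᵥ fun j => (v j).toAdd) i) = v i
  rw [Matrix.one_mulVec]; rfl

theorem mulRow_one (v : I → Multiplicative R) : mulRow (1 : Matrix I I R) v = v := by
  funext i
  show Multiplicative.ofAdd (((fun j => (v j).toAdd) ᵥ* (1 : Matrix I I R)) i) = v i
  rw [Matrix.vecMul_one]; rfl

theorem mulCol_elem_single_same (i j : I) (hij : i ≠ j) (r : R) (s : Multiplicative R) :
    mulCol (1 + Matrix.single i j r) (Pi.mulSingle j s) =
      Pi.mulSingle i (Multiplicative.ofAdd (r * s.toAdd)) * Pi.mulSingle j s := by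
  funext k
  show Multiplicative.ofAdd (((1 + Matrix.single i j r) *ᵥ
    fun l => ((Pi.mulSingle j s : I → Multiplicative R) l).toAdd) k) = _
  have h1 : (fun l => ((Pi.mulSingle j s : I → Multiplicative R) l).toAdd) =
      Pi.single j s.toAdd := by
    funext l
    by_cases hl : l = j
    · subst hl; simp
    · simp [Pi.mulSingle_eq_of_ne hl, Pi.single_eq_of_ne hl]
  rw [h1, Matrix.add_mulVec, Matrix.one_mulVec]
  simp only [Pi.add_apply, Pi.mul_apply]
  have h2 : (Matrix.single i j r *ᵥ Pi.single j s.toAdd) k = (Pi.single i (r * s.toAdd) : I → R) k := by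
    rw [Matrix.mulVec_single]
    by_cases hk : k = i
    · subst hk; simp [Matrix.single]
    · simp [Matrix.single, hk, Ne.symm hk]
  rw [h2, add_comm, ofAdd_add]
  congr 1

theorem mulCol_elem_single_ne (i j k : I) (hkj : k ≠ j) (r : R)
    (s : Multiplicative R) :
    mulCol (1 + Matrix.single i j r) (Pi.mulSingle k s) = Pi.mulSingle k s := by
  funext l
  show Multiplicative.ofAdd (((1 + Matrix.single i j r) *ᵥ
    fun l => ((Pi.mulSingle k s : I → Multiplicative R) l).toAdd) l) = _
  have h1 : (fun l => ((Pi.mulSingle k s : I → Multiplicative R) l).toAdd) =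
      Pi.single k s.toAdd := by
    funext l
    by_cases hl : l = k
    · subst hl; simp
    · simp [Pi.mulSingle_eq_of_ne hl, Pi.single_eq_of_ne hl]
  rw [h1, Matrix.add_mulVec, Matrix.one_mulVec]
  simp only [Pi.add_apply]
  have h2 : (Matrix.single i j r *ᵥ Pi.single k s.toAdd) l = 0 := by
    rw [Matrix.mulVec_single]
    simp [Matrix.single, hkj.symm]
  rw [h2, add_zero]
  by_cases hk : l = k
  · subst hk; simp
  · simp [Pi.mulSingle_eq_of_ne hk, Pi.single_eq_of_ne hk]

theorem mulRow_elem_single_same (i j : I) (hij : i ≠ j) (r : R) (s : Multiplicative R) :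
    mulRow (1 + Matrix.single i j r) (Pi.mulSingle i s) =
      Pi.mulSingle i s * Pi.mulSingle j (Multiplicative.ofAdd (s.toAdd * r)) := by
  funext k
  show Multiplicative.ofAdd (((fun l => ((Pi.mulSingle i s : I → Multiplicative R) l).toAdd) ᵥ*
    (1 + Matrix.single i j r)) k) = _
  have h1 : (fun l => ((Pi.mulSingle i s : I → Multiplicative R) l).toAdd) =
      Pi.single i s.toAdd := by
    funext l
    by_cases hl : l = i
    · subst hl; simp
    · simp [Pi.mulSingle_eq_of_ne hl, Pi.single_eq_of_ne hl]
  rw [h1, Matrix.vecMul_add, Matrix.vecMul_one]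
  simp only [Pi.add_apply, Pi.mul_apply]
  have h2 : (Pi.single i s.toAdd ᵥ* Matrix.single i j r) k = (Pi.single j (s.toAdd * r) : I → R) k := by
    rw [Matrix.single_vecMul]
    by_cases hk : k = j
    · subst hk; simp [Matrix.single]
    · simp [Matrix.single, hk, Ne.symm hk, Pi.single_eq_of_ne hk]
  rw [h2, ofAdd_add]
  congr 1

theorem mulRow_elem_single_ne (i j k : I) (hki : k ≠ i) (r : R)
    (s : Multiplicative R) :
    mulRow (1 + Matrix.single i j r) (Pi.mulSingle k s) = Pi.mulSingle k s := by
  funext l
  show Multiplicative.ofAdd (((fun l => ((Pi.mulSingle k s : I → Multiplicative R) l).toAdd) ᵥ*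
    (1 + Matrix.single i j r)) l) = _
  have h1 : (fun l => ((Pi.mulSingle k s : I → Multiplicative R) l).toAdd) =
      Pi.single k s.toAdd := by
    funext l
    by_cases hl : l = k
    · subst hl; simp
    · simp [Pi.mulSingle_eq_of_ne hl, Pi.single_eq_of_ne hl]
  rw [h1, Matrix.vecMul_add, Matrix.vecMul_one]
  simp only [Pi.add_apply]
  have h2 : (Pi.single k s.toAdd ᵥ* Matrix.single i j r) l = 0 := by
    rw [Matrix.single_vecMul]
    simp [Matrix.single, hki.symm]
  rw [h2, add_zero]
  by_cases hk : l = k
  · subst hk; simp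
  · simp [Pi.mulSingle_eq_of_ne hk, Pi.single_eq_of_ne hk]

theorem conj_eq_of_comm {G : Type*} [Group G] {a b c : G} (h : ⁅a, b⁆ = c) :
    a * b * a⁻¹ = c * b := by
  rw [← h, commutatorElement_def]; group

/-- Conjugation of the column subgroup. -/
theorem conj_col (e : I ↪ J) (z : J) (hz : ∀ i, e i ≠ z) (g : St I R)
    (v : I → Multiplicative R) :
    mapI e g * col e z hz v * (mapI e g)⁻¹ = col e z hz (mulCol (toMat g).val v) := by
  induction g using St.induction generalizing v with
  | h1 => simp [mulCol_one]
  | hx i j h r g ih =>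
    rw [map_mul, map_mul, Units.val_mul, mulCol_mul, mapI_x, toMat_x, elem_val]
    have key : ∀ v : I → Multiplicative R,
        x (e i) (e j) (e.injective.ne h) r * col e z hz v * (x (e i) (e j) (e.injective.ne h) r)⁻¹ =
          col e z hz (mulCol (1 + Matrix.single i j r) v) := by
      intro v
      have : (MulAut.conj (x (e i) (e j) (e.injective.ne h) r)).toMonoidHom.comp (col e z hz) =
          (col e z hz).comp (mulCol (1 + Matrix.single i j r)) := by
        refine MonoidHom.pi_ext ?_
        intro k s
        simp only [MonoidHom.comp_apply, MulEquiv.coe_toMonoidHom, MulAut.conj_apply]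
        by_cases hk : k = j
        · subst hk
          rw [mulCol_elem_single_same _ _ h, map_mul, col_single, col_single, toAdd_ofAdd]
          exact conj_eq_of_comm (x_comm _ _ _ _ _ _ _ _)
        · rw [mulCol_elem_single_ne _ _ _ hk, col_single]
          rw [mul_inv_eq_iff_eq_mul]
          exact (x_commute _ _ _ _ _ _ (fun hh => hk (e.injective hh).symm) (hz i) _ _)
      exact DFunLike.congr_fun this v
    rw [_root_.mul_inv_rev]
    calc _ = x (e i) (e j) (e.injective.ne h) r *
          (mapI e g * col e z hz v * (mapI e g)⁻¹) * (x (e i) (e j) (e.injective.ne h) r)⁻¹ := by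
          simp only [mul_assoc]
      _ = _ := by rw [ih, key]

/-- Conjugation of the row subgroup. -/
theorem conj_row (e : I ↪ J) (z : J) (hz : ∀ i, e i ≠ z) (g : St I R)
    (v : I → Multiplicative R) :
    (mapI e g)⁻¹ * row e z hz v * (mapI e g) = row e z hz (mulRow (toMat g).val v) := by
  induction g using St.induction generalizing v with
  | h1 => simp [mulRow_one]
  | hx i j h r g ih =>
    rw [map_mul, map_mul, Units.val_mul, mulRow_mul, mapI_x, toMat_x, elem_val]
    have key : ∀ v : I → Multiplicative R,
        (x (e i) (e j) (e.injective.ne h) r)⁻¹ * row e z hz v * (x (e i) (e j) (e.injective.ne h) r) =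
          row e z hz (mulRow (1 + Matrix.single i j r) v) := by
      intro v
      have : (MulAut.conj (x (e i) (e j) (e.injective.ne h) r)⁻¹).toMonoidHom.comp (row e z hz) =
          (row e z hz).comp (mulRow (1 + Matrix.single i j r)) := by
        refine MonoidHom.pi_ext ?_
        intro k s
        simp only [MonoidHom.comp_apply, MulEquiv.coe_toMonoidHom, MulAut.conj_apply, inv_inv]
        by_cases hk : k = i
        · subst hk
          rw [mulRow_elem_single_same _ _ h, map_mul, row_single, row_single, toAdd_ofAdd]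
          have := x_comm (R := R) z (e k) (e j) (hz k).symm (e.injective.ne h) (hz j).symm
            s.toAdd r
          rw [← this, commutatorElement_def]
          have h2 := x_commute (R := R) z (e k) z (e j) (hz k).symm (hz j).symm (hz k) (hz j).symm
            s.toAdd (s.toAdd * r)
          have h3 : x (R := R) z (e j) (hz j).symm (s.toAdd * r) =
              x z (e k) (hz k).symm s.toAdd * x (e k) (e j) (e.injective.ne h) r *
                (x z (e k) (hz k).symm s.toAdd)⁻¹ * (x (e k) (e j) (e.injective.ne h) r)⁻¹ := by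
            rw [← this, commutatorElement_def]
          have h4 := x_commute (R := R) z (e j) (e k) (e j) (hz j).symm (e.injective.ne h)
            (e.injective.ne h).symm (hz j).symm (s.toAdd * r) r
          rw [← h3, h2.eq]
          have h5 : x (R := R) z (e k) (hz k).symm s.toAdd * x (e k) (e j) (e.injective.ne h) r =
              x z (e j) (hz j).symm (s.toAdd * r) * x (e k) (e j) (e.injective.ne h) r *
                x z (e k) (hz k).symm s.toAdd := by
            rw [h3]; group
          rw [mul_assoc, h5, h4.eq]; group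
        · rw [mulRow_elem_single_ne _ _ _ hk, row_single]
          rw [mul_assoc, inv_mul_eq_iff_eq_mul]
          exact (x_commute _ _ _ _ _ _ (fun hh => hk (e.injective hh)) (hz j).symm _ _)
      exact DFunLike.congr_fun this v
    rw [_root_.mul_inv_rev]
    calc _ = (mapI e g)⁻¹ * ((x (e i) (e j) (e.injective.ne h) r)⁻¹ * row e z hz v *
          (x (e i) (e j) (e.injective.ne h) r)) * mapI e g := by
          simp only [mul_assoc]
      _ = _ := by rw [key, ih]

/-- kernel elements commute with `x (e i) z`. -/
theorem ker_commute_col (e : I ↪ J) (z : J) (hz : ∀ i, e i ≠ z) {k : St I R}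
    (hk : toMat k = 1) (i : I) (r : R) : Commute (mapI e k) (x (e i) z (hz i) r) := by
  have := conj_col e z hz k (Pi.mulSingle i (Multiplicative.ofAdd r))
  rw [hk, Units.val_one, mulCol_one, col_single, toAdd_ofAdd, mul_inv_eq_iff_eq_mul] at this
  exact this

theorem ker_commute_row (e : I ↪ J) (z : J) (hz : ∀ i, e i ≠ z) {k : St I R}
    (hk : toMat k = 1) (i : I) (r : R) : Commute (mapI e k) (x z (e i) (hz i).symm r) := by
  have := conj_row e z hz k (Pi.mulSingle i (Multiplicative.ofAdd r))
  rw [hk, Units.val_one, mulRow_one, row_single, toAdd_ofAdd, mul_assoc,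
    inv_mul_eq_iff_eq_mul] at this
  exact this.symm

/-- The image of `ker (St I R → GL)` in `St J R` is central as soon as there is an index outside. -/
theorem ker_central (e : I ↪ J) (he : ∃ z, ∀ i, e i ≠ z) {k : St I R}
    (hk : toMat k = 1) : mapI e k ∈ Subgroup.center (St J R) := by
  classical
  obtain ⟨z, hz⟩ := he
  rw [Subgroup.mem_center_iff]
  intro g
  have hx : ∀ (a b : J) (h : a ≠ b) (r : R), Commute (x a b h r) (mapI e k) := by
    intro a b h r
    by_cases ha : ∃ i, e i = a
    · obtain ⟨i, rfl⟩ := ha
      by_cases hb : ∃ j, e j = b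
      · obtain ⟨j, rfl⟩ := hb
        have h1 := x_comm (R := R) (e i) z (e j) (hz i) (hz j).symm h r 1
        rw [mul_one] at h1
        rw [← h1, commutatorElement_def]
        have c1 := (ker_commute_col e z hz hk i r).symm
        have c2 := (ker_commute_row e z hz hk j (1 : R)).symm
        exact ((c1.mul_left c2).mul_left c1.inv_left).mul_left c2.inv_left
      · exact (ker_commute_col e b (fun i' hi' => hb ⟨i', hi'⟩) hk i r).symm
    · by_cases hb : ∃ j, e j = b
      · obtain ⟨j, rfl⟩ := hb
        exact (ker_commute_row e a (fun i' hi' => ha ⟨i', hi'⟩) hk j r).symm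
      · -- both outside
        have : ∀ g : St I R, Commute (x a b h r) (mapI e g) := by
          intro g
          induction g using St.induction with
          | h1 => rw [map_one]; exact Commute.one_right _
          | hx i j hij s g ih =>
            rw [map_mul, mapI_x]
            refine Commute.mul_right (x_commute _ _ _ _ _ _ ?_ ?_ _ _) ih
            · intro hh; exact hb ⟨i, hh.symm⟩
            · intro hh; exact ha ⟨j, hh.symm⟩
        exact this k
  induction g using St.induction with
  | h1 => simp
  | hx a b h r g ih =>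
    have := hx a b h r
    rw [mul_assoc, ih, ← mul_assoc, this.eq, mul_assoc]

end ColRow

/-! ### Permutations of indices -/

section Perm

/-- `w_ab = x_ab(1) x_ba(-1) x_ab(1)` -/
def wel (a b : J) (h : a ≠ b) : St J R := x a b h 1 * x b a h.symm (-1) * x a b h 1

theorem mapI_comp_apply {K : Type*} (e : I ↪ J) (f : J ↪ K) (g : St I R) :
    mapI f (mapI e g) = mapI (e.trans f) g := by
  have : (mapI (R := R) f).comp (mapI e) = mapI (e.trans f) := by
    apply hom_ext
    intro i j hij r
    simp
  exact DFunLike.congr_fun this g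

variable [DecidableEq J]

/-- In characteristic two, conjugation by `w_ab` is the index swap. -/
theorem conj_wel (h2 : (2 : R) = 0) (a b : J) (hab : a ≠ b) (hc : ∃ c : J, c ≠ a ∧ c ≠ b)
    (g : St J R) :
    wel a b hab * g * (wel a b hab)⁻¹ = mapI (Equiv.swap a b).toEmbedding g := by
  have neg1 : ∀ r : R, -r = r := by
    intro r
    have : r + r = 0 := by rw [← two_mul, h2, zero_mul]
    exact neg_eq_of_add_eq_zero_left this
  -- product formulas for conjugation
  have conj_right : ∀ (i j k : J) (hij : i ≠ j) (hjk : j ≠ k) (hik : i ≠ k) (r s : R),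
      x i j hij r * x j k hjk s * (x i j hij r)⁻¹ = x i k hik (r * s) * x j k hjk s := by
    intro i j k hij hjk hik r s
    exact conj_eq_of_comm (x_comm _ _ _ _ _ _ _ _)
  have conj_left : ∀ (i j k : J) (hij : i ≠ j) (hjk : j ≠ k) (hik : i ≠ k) (r s : R),
      x j k hjk s * x i j hij r * (x j k hjk s)⁻¹ = x i k hik (r * s) * x i j hij r := by
    intro i j k hij hjk hik r s
    have h := x_comm (R := R) i j k hij hjk hik r s
    have h' : ⁅x (R := R) j k hjk s, x i j hij r⁆ = x i k hik (r * s) := by
      rw [← commutatorElement_inv, h, ← x_neg, neg1]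
    exact conj_eq_of_comm h'
  have conj_triv : ∀ (i j k l : J) (hij : i ≠ j) (hkl : k ≠ l) (hjk : j ≠ k) (hil : i ≠ l)
      (r s : R), x i j hij r * x k l hkl s * (x i j hij r)⁻¹ = x k l hkl s := by
    intro i j k l hij hkl hjk hil r s
    rw [mul_inv_eq_iff_eq_mul]
    exact x_commute _ _ _ _ _ _ hjk hil _ _
  have comm_same_row : ∀ (i j k : J) (hij : i ≠ j) (hik : i ≠ k) (r s : R),
      x i j hij r * x i k hik s = x i k hik s * x i j hij r := by
    intro i j k hij hik r s
    exact (x_commute i j i k hij hik hij.symm hik r s).eq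
  have comm_same_col : ∀ (i j k : J) (hik : i ≠ k) (hjk : j ≠ k) (r s : R),
      x i k hik r * x j k hjk s = x j k hjk s * x i k hik r := by
    intro i j k hij hik r s
    exact (x_commute i k j k hij hik hik.symm hij r s).eq
  have xx : ∀ (i j : J) (hij : i ≠ j) (r : R), x i j hij r * x i j hij r = 1 := by
    intro i j hij r
    rw [← x_add]
    have : r + r = 0 := by rw [← two_mul, h2, zero_mul]
    rw [this, x_zero]
  set P : MulAut (St J R) := MulAut.conj (wel a b hab) with hP
  have hPx : ∀ g, P g = x a b hab 1 * (x b a hab.symm 1 * (x a b hab 1 * g * (x a b hab 1)⁻¹) *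
      (x b a hab.symm 1)⁻¹) * (x a b hab 1)⁻¹ := by
    intro g
    rw [hP, MulAut.conj_apply, wel, neg1]
    group
  -- case list
  have case_col : ∀ (c : J) (hca : c ≠ a) (hcb : c ≠ b) (r : R),
      P (x c a hca r) = x c b hcb r := by
    intro c hca hcb r
    rw [hPx, conj_left c a b hca hab hcb, mul_one]
    have e1 : x (R := R) b a hab.symm 1 * (x c b hcb r * x c a hca r) * (x b a hab.symm 1)⁻¹ =
        (x b a hab.symm 1 * x c b hcb r * (x b a hab.symm 1)⁻¹) *
        (x b a hab.symm 1 * x c a hca r * (x b a hab.symm 1)⁻¹) := by group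
    rw [e1, conj_left c b a hcb hab.symm hca, mul_one]
    rw [conj_triv b a c a hab.symm hca hca.symm hab.symm]
    rw [comm_same_row c a b hca hcb, mul_assoc (x c b hcb r), xx, mul_one]
    exact conj_triv a b c b hab hcb hcb.symm hab _ _
  have case_col' : ∀ (c : J) (hca : c ≠ a) (hcb : c ≠ b) (r : R),
      P (x c b hcb r) = x c a hca r := by
    intro c hca hcb r
    rw [hPx, conj_triv a b c b hab hcb hcb.symm hab]
    rw [conj_left c b a hcb hab.symm hca, mul_one]
    have e1 : x (R := R) a b hab 1 * (x c a hca r * x c b hcb r) * (x a b hab 1)⁻¹ =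
        (x a b hab 1 * x c a hca r * (x a b hab 1)⁻¹) *
        (x a b hab 1 * x c b hcb r * (x a b hab 1)⁻¹) := by group
    rw [e1, conj_left c a b hca hab hcb, mul_one]
    rw [conj_triv a b c b hab hcb hcb.symm hab]
    rw [comm_same_row c b a hcb hca, mul_assoc, xx, mul_one]
  have case_row : ∀ (c : J) (hca : c ≠ a) (hcb : c ≠ b) (r : R),
      P (x a c hca.symm r) = x b c hcb.symm r := by
    intro c hca hcb r
    rw [hPx, conj_triv a b a c hab hca.symm hab.symm hca.symm]
    rw [conj_right b a c hab.symm hca.symm hcb.symm, one_mul]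
    have e1 : x (R := R) a b hab 1 * (x b c hcb.symm r * x a c hca.symm r) * (x a b hab 1)⁻¹ =
        (x a b hab 1 * x b c hcb.symm r * (x a b hab 1)⁻¹) *
        (x a b hab 1 * x a c hca.symm r * (x a b hab 1)⁻¹) := by group
    rw [e1, conj_right a b c hab hcb.symm hca.symm, one_mul]
    rw [conj_triv a b a c hab hca.symm hab.symm hca.symm]
    rw [comm_same_col a b c hca.symm hcb.symm, mul_assoc, xx, mul_one]
  have case_row' : ∀ (c : J) (hca : c ≠ a) (hcb : c ≠ b) (r : R),
      P (x b c hcb.symm r) = x a c hca.symm r := by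
    intro c hca hcb r
    rw [hPx, conj_right a b c hab hcb.symm hca.symm, one_mul]
    have e1 : x (R := R) b a hab.symm 1 * (x a c hca.symm r * x b c hcb.symm r) *
        (x b a hab.symm 1)⁻¹ =
        (x b a hab.symm 1 * x a c hca.symm r * (x b a hab.symm 1)⁻¹) *
        (x b a hab.symm 1 * x b c hcb.symm r * (x b a hab.symm 1)⁻¹) := by group
    rw [e1, conj_right b a c hab.symm hca.symm hcb.symm, one_mul]
    rw [conj_triv b a b c hab.symm hcb.symm hab hcb.symm]
    rw [comm_same_col b a c hcb.symm hca.symm, mul_assoc (x a c hca.symm r), xx, mul_one]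
    exact conj_triv a b a c hab hca.symm hab.symm hca.symm _ _
  have case_out : ∀ (c d : J) (hcd : c ≠ d) (hca : c ≠ a) (hcb : c ≠ b) (hda : d ≠ a)
      (hdb : d ≠ b) (r : R), P (x c d hcd r) = x c d hcd r := by
    intro c d hcd hca hcb hda hdb r
    rw [hPx, conj_triv a b c d hab hcd hcb.symm hda.symm,
      conj_triv b a c d hab.symm hcd hca.symm hdb.symm,
      conj_triv a b c d hab hcd hcb.symm hda.symm]
  obtain ⟨c, hca, hcb⟩ := hc
  have case_ab : ∀ r : R, P (x a b hab r) = x b a hab.symm r := by
    intro r
    have h1 := x_comm (R := R) a c b hca.symm hcb hab r 1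
    rw [mul_one] at h1
    rw [← h1, map_commutatorElement, case_row c hca hcb, case_col' c hca hcb]
    rw [x_comm (R := R) b c a hcb.symm hca hab.symm, mul_one]
  have case_ba : ∀ r : R, P (x b a hab.symm r) = x a b hab r := by
    intro r
    have h1 := x_comm (R := R) b c a hcb.symm hca hab.symm r 1
    rw [mul_one] at h1
    rw [← h1, map_commutatorElement, case_row' c hca hcb, case_col c hca hcb]
    rw [x_comm (R := R) a c b hca.symm hcb hab, mul_one]
  have hfin : P.toMonoidHom = mapI (Equiv.swap a b).toEmbedding := by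
    apply hom_ext
    intro i j hij r
    rw [mapI_x]
    show P (x i j hij r) = _
    have xcongr : ∀ (i' j' : J) (h' : i' ≠ j'), i' = Equiv.swap a b i → j' = Equiv.swap a b j →
        P (x i j hij r) = x i' j' h' r → P (x i j hij r) =
          x ((Equiv.swap a b).toEmbedding i) ((Equiv.swap a b).toEmbedding j)
            ((Equiv.swap a b).toEmbedding.injective.ne hij) r := by
      intro i' j' h' hi hj hh
      subst hi; subst hj; exact hh
    by_cases hia : i = a
    · subst hia
      by_cases hjb : j = b
      · subst hjb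
        exact xcongr j i hab.symm (by simp) (by simp) (case_ab r)
      · exact xcongr b j (fun hh => hjb hh.symm) (by simp)
          (by rw [Equiv.swap_apply_of_ne_of_ne hij.symm hjb]) (case_row j hij.symm hjb r)
    · by_cases hib : i = b
      · subst hib
        by_cases hja : j = a
        · subst hja
          exact xcongr j i hab (by simp) (by simp) (case_ba r)
        · exact xcongr a j (fun hh => hja hh.symm) (by simp)
            (by rw [Equiv.swap_apply_of_ne_of_ne hja hij.symm]) (case_row' j hja hij.symm r)
      · by_cases hja : j = a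
        · subst hja
          exact xcongr i b hib (by rw [Equiv.swap_apply_of_ne_of_ne hia hib]) (by simp)
            (case_col i hia hib r)
        · by_cases hjb : j = b
          · subst hjb
            exact xcongr i a hia (by rw [Equiv.swap_apply_of_ne_of_ne hia hib]) (by simp)
              (case_col' i hia hib r)
          · exact xcongr i j hij (by rw [Equiv.swap_apply_of_ne_of_ne hia hib])
              (by rw [Equiv.swap_apply_of_ne_of_ne hja hjb]) (case_out i j hij hia hib hja hjb r)
  have := DFunLike.congr_fun hfin g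
  rw [← this]
  show _ = P g
  rw [hP, MulAut.conj_apply]

theorem mapI_swap_central (h2 : (2 : R) = 0) (a b : J) (hab : a ≠ b)
    (hc : ∃ c : J, c ≠ a ∧ c ≠ b) {g : St J R} (hg : g ∈ Subgroup.center (St J R)) :
    mapI (Equiv.swap a b).toEmbedding g = g := by
  rw [← conj_wel h2 a b hab hc g]
  rw [Subgroup.mem_center_iff] at hg
  rw [hg (wel a b hab)]; group

omit [DecidableEq J] in
theorem mapI_refl (g : St J R) : mapI (Function.Embedding.refl J) g = g := by
  have : mapI (R := R) (Function.Embedding.refl J) = MonoidHom.id _ := by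
    apply hom_ext
    intro i j hij r
    simp
  rw [this]; rfl

/-- central elements are fixed by all permutations of a finite index set (characteristic two) -/
theorem mapI_perm_central [Finite J] (h2 : (2 : R) = 0)
    (h3 : ∀ a b : J, ∃ c : J, c ≠ a ∧ c ≠ b) (σ : Equiv.Perm J) {g : St J R}
    (hg : g ∈ Subgroup.center (St J R)) : mapI σ.toEmbedding g = g := by
  induction σ using Equiv.Perm.swap_induction_on with
  | one => exact mapI_refl g
  | swap_mul f a b hab ih =>
    have : (Equiv.swap a b * f).toEmbedding = f.toEmbedding.trans (Equiv.swap a b).toEmbedding := by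
      ext i; rfl
    rw [this, ← mapI_comp_apply, ih]
    exact mapI_swap_central h2 a b hab (h3 a b) hg

/-- The image of a kernel element in a big Steinberg group does not depend on the embedding. -/
theorem mapI_ker_eq [Finite J] [Fintype I] [DecidableEq I] (h2 : (2 : R) = 0)
    (h3 : ∀ a b : J, ∃ c : J, c ≠ a ∧ c ≠ b) (e f : I ↪ J) (he : ∃ z, ∀ i, e i ≠ z)
    {k : St I R} (hk : toMat k = 1) : mapI e k = mapI f k := by
  classical
  haveI := Fintype.ofFinite J
  obtain ⟨σ, hσ⟩ : ∃ σ : Equiv.Perm J, ∀ i, σ (e i) = f i := by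
    let s := Set.range e
    let g : s ≃ Set.range f :=
      (Equiv.ofInjective e e.injective).symm.trans (Equiv.ofInjective f f.injective)
    refine ⟨g.extendSubtype, ?_⟩
    intro i
    have := g.extendSubtype_apply_of_mem (e i) ⟨i, rfl⟩
    rw [this]
    simp only [g, Equiv.trans_apply]
    have h1 : (Equiv.ofInjective e e.injective).symm ⟨e i, ⟨i, rfl⟩⟩ = i := by
      rw [Equiv.symm_apply_eq]; rfl
    rw [h1]; rfl
  have hc := ker_central e he hk
  have h1 := mapI_perm_central h2 h3 σ hc
  rw [mapI_comp_apply] at h1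
  rw [← h1]
  congr 2
  ext i; exact hσ i

end Perm

/-! ### Perfectness and finiteness -/

theorem commutator_eq_top (h3 : ∀ a b : I, ∃ c : I, c ≠ a ∧ c ≠ b) :
    commutator (St I R) = ⊤ := by
  rw [eq_top_iff, ← closure_x, Subgroup.closure_le]
  rintro _ ⟨i, j, h, r, rfl⟩
  obtain ⟨c, hci, hcj⟩ := h3 i j
  have h1 := x_comm (R := R) i c j hci.symm hcj h r 1
  rw [mul_one] at h1
  rw [SetLike.mem_coe, ← h1]
  exact Subgroup.commutator_mem_commutator (Subgroup.mem_top _) (Subgroup.mem_top _)

theorem finite_commutatorSet {G : Type*} [Group G] [(Subgroup.center G).FiniteIndex] :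
    Finite (commutatorSet G) := by
  have hfin : Finite (G ⧸ Subgroup.center G) := inferInstance
  have hsub : commutatorSet G ⊆ Set.range
      (fun p : (G ⧸ Subgroup.center G) × (G ⧸ Subgroup.center G) => ⁅p.1.out, p.2.out⁆) := by
    rintro _ ⟨a, b, rfl⟩
    refine ⟨(QuotientGroup.mk a, QuotientGroup.mk b), ?_⟩
    obtain ⟨⟨z, hz⟩, hz'⟩ := QuotientGroup.mk_out_eq_mul (Subgroup.center G) a
    obtain ⟨⟨w, hw⟩, hw'⟩ := QuotientGroup.mk_out_eq_mul (Subgroup.center G) b
    simp only at hz' hw' ⊢
    rw [hz', hw']
    rw [Subgroup.mem_center_iff] at hz hw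
    have h1 : ∀ g, Commute z g := fun g => (hz g).symm
    have h2 : ∀ g, Commute w g := fun g => (hw g).symm
    rw [commutatorElement_def, commutatorElement_def, _root_.mul_inv_rev, _root_.mul_inv_rev]
    have e1 : a * z * (b * w) * (z⁻¹ * a⁻¹) * (w⁻¹ * b⁻¹) =
        a * (z * (b * w * z⁻¹)) * (a⁻¹ * (w⁻¹ * b⁻¹)) := by group
    rw [e1, (h1 (b * w * z⁻¹)).eq]
    have e2 : a * (b * w * z⁻¹ * z) * (a⁻¹ * (w⁻¹ * b⁻¹)) = a * b * (w * (a⁻¹ * w⁻¹)) * b⁻¹ := by
      group
    rw [e2, (h2 (a⁻¹ * w⁻¹)).eq]; group
  exact ((Set.finite_range _).subset hsub).to_subtype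

/-- Schur: a Steinberg group over a finite ring with central kernel is finite. -/
theorem finite_of_central [Fintype I] [DecidableEq I] [Finite R]
    (h3 : ∀ a b : I, ∃ c : I, c ≠ a ∧ c ≠ b)
    (hc : ∀ k : St I R, toMat k = 1 → k ∈ Subgroup.center (St I R)) : Finite (St I R) := by
  have hker : (toMat : St I R →* _).ker ≤ Subgroup.center (St I R) := fun k hk => hc k hk
  haveI : Finite (Matrix I I R) := inferInstanceAs (Finite (I → I → R))
  haveI : Finite ((Matrix I I R)ˣ) := inferInstance
  haveI : (toMat : St I R →* (Matrix I I R)ˣ).ker.FiniteIndex := by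
    exact Subgroup.finiteIndex_ker _
  haveI : (Subgroup.center (St I R)).FiniteIndex := Subgroup.finiteIndex_of_le hker
  haveI : Finite (commutatorSet (St I R)) := finite_commutatorSet
  have : Finite (commutator (St I R)) := inferInstance
  rw [commutator_eq_top h3] at this
  exact (Subgroup.topEquiv (G := St I R)).toEquiv.finite_iff.mp this

/-- With injective stability for one extra index, the kernel is central. -/
theorem ker_central_of_stab [Fintype I] [DecidableEq I]
    (hst : Function.Injective (mapI (R := R) (Function.Embedding.some : I ↪ Option I)))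
    {k : St I R} (hk : toMat k = 1) : k ∈ Subgroup.center (St I R) := by
  rw [Subgroup.mem_center_iff]
  intro g
  apply hst
  have := ker_central (R := R) (Function.Embedding.some : I ↪ Option I)
    ⟨none, fun i => by simp⟩ hk
  rw [Subgroup.mem_center_iff] at this
  rw [map_mul, map_mul]
  exact this _

end Crest.Agent.R176.Cen370
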