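import Crest.Agent.R176.Cover294Uni

/-! Row 176, part B, block COVER (helper294): the block map
`Blk : St I (Matrix N N R) →* St (I × N) R`. -/

set_option autoImplicit false

namespace Crest.Agent.R176.Cover294

open St
open scoped commutatorElement

variable {I N R : Type*} [Ring R]

theorem pne {i j : I} (h : i ≠ j) (p q : N) : (i, p) ≠ (j, q) :=
  fun e => h (congrArg Prod.fst e)

theorem pne2 {p q : N} (i : I) (h : p ≠ q) : (i, p) ≠ (i, q) :=
  fun e => h (congrArg Prod.snd e)

/-- block product indexed by pairs -/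
theorem blkF_aux (i j : I) (h : i ≠ j) (a b : N × N → R) (pq pq' : N × N) :
    Commute (x (i, pq.1) (j, pq.2) (pne h _ _) (a pq))
      (x (i, pq'.1) (j, pq'.2) (pne h _ _) (b pq')) :=
  x_commute _ _ _ _ _ _ (pne h.symm _ _) (pne h _ _) _ _

theorem blkF_pw (s : Finset (N × N)) (i j : I) (h : i ≠ j) (a : N × N → R) :
    (s : Set (N × N)).Pairwise (Function.onFun Commute
      (fun pq => (x (i, pq.1) (j, pq.2) (pne h _ _) (a pq) : St (I × N) R))) :=
  fun _ _ _ _ _ => blkF_aux i j h a a _ _

/-- block product indexed by pairs -/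
def blkF (s : Finset (N × N)) (i j : I) (h : i ≠ j) (a : N × N → R) : St (I × N) R :=
  s.noncommProd (fun pq => x (i, pq.1) (j, pq.2) (pne h _ _) (a pq)) (blkF_pw s i j h a)

theorem blkF_add (s : Finset (N × N)) (i j : I) (h : i ≠ j) (a b : N × N → R) :
    blkF s i j h (a + b) = blkF s i j h a * blkF s i j h b := by
  have h1 := Finset.noncommProd_mul_distrib
    (fun pq : N × N => (x (i, pq.1) (j, pq.2) (pne h _ _) (a pq) : St (I × N) R))
    (fun pq : N × N => (x (i, pq.1) (j, pq.2) (pne h _ _) (b pq) : St (I × N) R))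
    (blkF_pw s i j h a) (blkF_pw s i j h b) (fun _ _ _ _ _ => blkF_aux i j h b a _ _)
  refine Eq.trans ?_ h1
  apply Finset.noncommProd_congr rfl
  intro pq _
  simp only [Pi.mul_apply, Pi.add_apply, x_add]

theorem blkF_mem (s : Finset (N × N)) (H : Subgroup (St (I × N) R)) (i j : I) (h : i ≠ j)
    (a : N × N → R)
    (hA : ∀ p q, a (p, q) ≠ 0 → x (i, p) (j, q) (pne h _ _) (a (p, q)) ∈ H) :
    blkF s i j h a ∈ H := by
  apply Subgroup.noncommProd_mem
  rintro ⟨p, q⟩ _
  by_cases h0 : a (p, q) = 0
  · simp only [h0, x_zero]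
    exact H.one_mem
  · exact hA _ _ h0

theorem blkF_one (s : Finset (N × N)) (i j : I) (h : i ≠ j) (a : N × N → R)
    (ha : ∀ pq ∈ s, a pq = 0) : blkF s i j h a = 1 := by
  have : blkF s i j h a ∈ (⊥ : Subgroup (St (I × N) R)) := by
    apply Subgroup.noncommProd_mem
    rintro pq hpq
    simp only [ha pq hpq, x_zero]
    exact Subgroup.one_mem _
  simpa using this

theorem blkF_single [DecidableEq N] (s : Finset (N × N)) (i j : I) (h : i ≠ j) (a : N × N → R)
    (p q : N) (hs : (p, q) ∈ s) (ha : ∀ pq ∈ s, pq ≠ (p, q) → a pq = 0) :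
    blkF s i j h a = x (i, p) (j, q) (pne h _ _) (a (p, q)) := by
  have h1 : blkF s i j h a = x (i, p) (j, q) (pne h _ _) (a (p, q)) *
      blkF (s.erase (p, q)) i j h a := by
    exact (Finset.mul_noncommProd_erase s hs
      (fun pq : N × N => (x (i, pq.1) (j, pq.2) (pne h _ _) (a pq) : St (I × N) R))
      (blkF_pw s i j h a)).symm
  rw [h1, blkF_one _ _ _ _ _ (fun pq hpq => ?_), mul_one]
  rw [Finset.mem_erase] at hpq
  exact ha pq hpq.2 hpq.1

variable [Fintype N]

/-- the block generator -/
def blk (i j : I) (h : i ≠ j) (A : Matrix N N R) : St (I × N) R :=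
  blkF Finset.univ i j h (fun pq => A pq.1 pq.2)

theorem blk_add (i j : I) (h : i ≠ j) (A B : Matrix N N R) :
    blk i j h (A + B) = blk i j h A * blk i j h B :=
  blkF_add _ i j h (fun pq => A pq.1 pq.2) (fun pq => B pq.1 pq.2)

theorem blk_mem (H : Subgroup (St (I × N) R)) (i j : I) (h : i ≠ j) (A : Matrix N N R)
    (hA : ∀ p q, A p q ≠ 0 → x (i, p) (j, q) (pne h _ _) (A p q) ∈ H) : blk i j h A ∈ H :=
  blkF_mem _ H i j h (fun pq => A pq.1 pq.2) hA

theorem blk_zero (i j : I) (h : i ≠ j) : blk i j h (0 : Matrix N N R) = 1 :=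
  blkF_one _ i j h _ (fun _ _ => rfl)

theorem blk_neg (i j : I) (h : i ≠ j) (A : Matrix N N R) :
    blk i j h (-A) = (blk i j h A)⁻¹ := by
  rw [eq_inv_iff_mul_eq_one, ← blk_add, neg_add_cancel, blk_zero]

theorem blk_sub (i j : I) (h : i ≠ j) (A B : Matrix N N R) :
    blk i j h (A - B) = blk i j h A * (blk i j h B)⁻¹ := by
  rw [sub_eq_add_neg, blk_add, blk_neg]

theorem blk_commute (i j k l : I) (hij : i ≠ j) (hkl : k ≠ l) (hjk : j ≠ k) (hil : i ≠ l)
    (A B : Matrix N N R) : Commute (blk i j hij A) (blk k l hkl B) := by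
  have h1 : ∀ (p q : N) (r : R), Commute (x (i, p) (j, q) (pne hij _ _) r) (blk k l hkl B) := by
    intro p q r
    have : blk k l hkl B ∈ Subgroup.centralizer {x (i, p) (j, q) (pne hij _ _) r} := by
      apply blk_mem
      intro p' q' _
      rw [Subgroup.mem_centralizer_singleton_iff]
      exact (x_commute _ _ _ _ _ _ (pne hjk _ _) (pne hil _ _) _ _).symm.eq
    rw [Subgroup.mem_centralizer_singleton_iff] at this
    exact this.symm
  have : blk i j hij A ∈ Subgroup.centralizer {blk k l hkl B} := by
    apply blk_mem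
    intro p' q' _
    rw [Subgroup.mem_centralizer_singleton_iff]
    exact (h1 _ _ _).eq
  rw [Subgroup.mem_centralizer_singleton_iff] at this
  exact this

variable [DecidableEq N]

theorem blk_single (i j : I) (h : i ≠ j) (p q : N) (r : R) :
    blk i j h (Matrix.single p q r) = x (i, p) (j, q) (pne h _ _) r := by
  have h2 := blkF_single (Finset.univ : Finset (N × N)) i j h
    (fun pq : N × N => (Matrix.single p q r : Matrix N N R) pq.1 pq.2) p q (Finset.mem_univ _)
    (by
      rintro ⟨p', q'⟩ _ hne
      change (Matrix.single p q r : Matrix N N R) p' q' = 0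
      rw [Matrix.single_apply]
      apply if_neg
      rintro ⟨rfl, rfl⟩
      exact hne rfl)
  refine h2.trans ?_
  change x (i, p) (j, q) _ ((Matrix.single p q r : Matrix N N R) p q) = _
  rw [Matrix.single_apply_same]

/-- To prove that a property holds for all block generators. -/
theorem blk_induction {p : Matrix N N R → Prop}
    (h0 : p 0) (hadd : ∀ A B, p A → p B → p (A + B)) (hs : ∀ u v r, p (Matrix.single u v r))
    (A : Matrix N N R) : p A := Matrix.induction_on' A h0 hadd hs

theorem comm_mul_left {G : Type*} [Group G] (a b c : G) :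
    ⁅a * b, c⁆ = a * ⁅b, c⁆ * a⁻¹ * ⁅a, c⁆ := by
  simp only [commutatorElement_def]; group

theorem comm_mul_right {G : Type*} [Group G] (a b c : G) :
    ⁅a, b * c⁆ = ⁅a, b⁆ * (b * ⁅a, c⁆ * b⁻¹) := by
  simp only [commutatorElement_def]; group

theorem blk_comm (i j k : I) (hij : i ≠ j) (hjk : j ≠ k) (hik : i ≠ k) (A B : Matrix N N R) :
    ⁅blk i j hij A, blk j k hjk B⁆ = blk i k hik (A * B) := by
  induction A using blk_induction with
  | h0 => rw [blk_zero, zero_mul, blk_zero, commutatorElement_one_left]
  | hadd A A' ih ih' =>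
    rw [blk_add, comm_mul_left, ih, ih', add_mul, blk_add]
    have h1 : blk i j hij A * blk i k hik (A' * B) * (blk i j hij A)⁻¹ = blk i k hik (A' * B) := by
      rw [(blk_commute i j i k hij hik hij.symm hik A (A' * B)).eq, mul_inv_cancel_right]
    rw [h1]
    exact (blk_commute i k i k hik hik hik.symm hik _ _).eq
  | hs p q r =>
    rw [blk_single]
    induction B using blk_induction with
    | h0 => rw [blk_zero, mul_zero, blk_zero, commutatorElement_one_right]
    | hadd B B' ih ih' =>
      rw [blk_add, comm_mul_right, ih, ih', mul_add, blk_add]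
      have h1 : blk j k hjk B * blk i k hik (Matrix.single p q r * B') * (blk j k hjk B)⁻¹
          = blk i k hik (Matrix.single p q r * B') := by
        rw [(blk_commute j k i k hjk hik hik.symm hjk _ _).eq, mul_inv_cancel_right]
      rw [h1]
    | hs q' s r' =>
      rw [blk_single]
      by_cases hq : q = q'
      · subst hq
        rw [Matrix.single_mul_single_same, blk_single]
        exact x_comm _ _ _ _ _ (pne hik _ _) _ _
      · rw [Matrix.single_mul_single_of_ne _ _ _ _ hq, blk_zero]
        exact x_triv _ _ _ _ _ _ (pne2 j hq) (pne hik _ _) _ _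

/-- The block map. -/
def Blk (I N R : Type*) [Ring R] [Fintype N] [DecidableEq N] :
    St I (Matrix N N R) →* St (I × N) R :=
  lift blk blk_add blk_comm (by
    intro i j k l hij hkl hjk hil A B
    exact commutatorElement_eq_one_iff_commute.mpr (blk_commute i j k l hij hkl hjk hil A B))

@[simp] theorem Blk_x (i j : I) (h : i ≠ j) (A : Matrix N N R) :
    Blk I N R (x i j h A) = blk i j h A := lift_x _ _ _ _ _ _ _ _

section Mat

variable [Fintype I] [DecidableEq I]

theorem toMat_blk (i j : I) (h : i ≠ j) (A : Matrix N N R) :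
    ((toMat (blk i j h A) : (Matrix (I × N) (I × N) R)ˣ) : Matrix (I × N) (I × N) R)
      = Matrix.compRingEquiv I N R (1 + Matrix.single i j A) := by
  induction A using blk_induction with
  | h0 => rw [blk_zero, Matrix.single_zero, add_zero, map_one, map_one, Units.val_one]
  | hadd A B ih ih' =>
    rw [blk_add, map_mul, Units.val_mul, ih, ih', ← map_mul]
    congr 1
    rw [mul_add, add_mul, add_mul, Matrix.single_mul_single_of_ne _ _ _ _ h.symm]
    rw [Matrix.one_mul, Matrix.one_mul, Matrix.mul_one, add_zero, add_assoc, ← Matrix.single_add]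
  | hs p q r =>
    rw [blk_single, toMat_x, elem_val, map_add, map_one]
    congr 1
    ext ⟨k, p'⟩ ⟨l, q'⟩
    simp only [Matrix.compRingEquiv_apply, Matrix.comp_apply, Matrix.single_apply,
      Prod.mk.injEq]
    by_cases h1 : i = k <;> by_cases h2 : j = l <;> simp [h1, h2, Matrix.single_apply]

theorem toMat_Blk (g : St I (Matrix N N R)) :
    ((toMat (Blk I N R g) : (Matrix (I × N) (I × N) R)ˣ) : Matrix (I × N) (I × N) R)
      = Matrix.compRingEquiv I N R (toMat g : Matrix I I (Matrix N N R)) := by
  have : (toMat.comp (Blk I N R))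
      = (Units.map (Matrix.compRingEquiv I N R).toRingHom.toMonoidHom).comp
        (toMat : St I (Matrix N N R) →* _) := by
    apply hom_ext
    intro i j h A
    apply Units.ext
    rw [MonoidHom.comp_apply, Blk_x, toMat_blk, MonoidHom.comp_apply, Units.coe_map, toMat_x,
      elem_val]
    rfl
  have h2 := congrArg (fun u : (Matrix (I × N) (I × N) R)ˣ => (u : Matrix (I × N) (I × N) R))
    (DFunLike.congr_fun this g)
  exact h2

theorem toMat_Blk_eq_one (g : St I (Matrix N N R)) (hg : toMat g = 1) :
    toMat (Blk I N R g) = 1 := by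
  apply Units.ext
  rw [toMat_Blk, hg, Units.val_one, map_one, Units.val_one]

/-- functoriality of `toMat` in the ring -/
theorem toMat_map {S : Type*} [Ring S] (f : R →+* S) (g : St I R) :
    ((toMat (map f g) : (Matrix I I S)ˣ) : Matrix I I S)
      = (toMat g : Matrix I I R).map f := by
  have : toMat.comp (map (I := I) f)
      = (Units.map (f.mapMatrix (m := I)).toMonoidHom).comp (toMat : St I R →* _) := by
    apply hom_ext
    intro i j h A
    apply Units.ext
    rw [MonoidHom.comp_apply, map_x, toMat_x, elem_val, MonoidHom.comp_apply, Units.coe_map,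
      toMat_x, elem_val]
    change _ = f.mapMatrix (1 + Matrix.single i j A)
    rw [map_add, map_one, RingHom.mapMatrix_apply, Matrix.map_single]
  have h2 := congrArg (fun u : (Matrix I I S)ˣ => (u : Matrix I I S)) (DFunLike.congr_fun this g)
  exact h2

theorem toMat_map_eq_one {S : Type*} [Ring S] (f : R →+* S) (g : St I R) (hg : toMat g = 1) :
    toMat (map f g) = 1 := by
  apply Units.ext
  rw [toMat_map, hg, Units.val_one, Units.val_one]
  have := map_one (f.mapMatrix (m := I))
  rwa [RingHom.mapMatrix_apply] at this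

end Mat

set_option linter.unusedVariables false in
/-- forces the equation lemmas to be generated in this module -/
theorem force_eqns_Blk : True := by
  have _ := @Crest.Agent.R176.Cover294.blk.congr_simp.{0,0,0}
  trivial

end Crest.Agent.R176.Cover294
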