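import Crest.Agent.R176.Cover294Gr

/-! Row 176, part B, block COVER (helper294): conjugation by block-diagonal elements;
lifts of conjugations by `GL_N(F_2)`. -/

set_option autoImplicit false

namespace Crest.Agent.R176.Cover294

open St
open scoped commutatorElement

variable {I N R : Type*} [Ring R] [Fintype N] [DecidableEq N]

theorem conj_blk_left (i j : I) (h : i ≠ j) (u v : N) (huv : u ≠ v) (c : R)
    (A : Matrix N N R) :
    x (i, u) (i, v) (pne2 i huv) c * blk i j h A * (x (i, u) (i, v) (pne2 i huv) c)⁻¹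
      = blk i j h ((1 + Matrix.single u v c) * A) := by
  induction A using blk_induction with
  | h0 => rw [blk_zero, mul_zero, blk_zero, mul_one, mul_inv_cancel]
  | hadd A B ih ih' =>
    rw [mul_add, blk_add, blk_add, ← ih, ← ih']
    group
  | hs p q r =>
    rw [blk_single]
    by_cases hp : v = p
    · subst hp
      rw [conj_right (i, u) (i, v) (j, q) _ _ (pne h _ _), add_mul, one_mul,
        Matrix.single_mul_single_same, add_comm, blk_add, blk_single, blk_single]
    · rw [conj_triv _ _ _ _ _ _ (pne2 i hp) (pne h _ _), add_mul, one_mul,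
        Matrix.single_mul_single_of_ne _ _ _ _ hp, add_zero, blk_single]

theorem conj_blk_right (i j : I) (h : i ≠ j) (u v : N) (huv : u ≠ v) (c : R)
    (A : Matrix N N R) :
    x (j, u) (j, v) (pne2 j huv) c * blk i j h A * (x (j, u) (j, v) (pne2 j huv) c)⁻¹
      = blk i j h (A * (1 - Matrix.single u v c)) := by
  induction A using blk_induction with
  | h0 => rw [blk_zero, zero_mul, blk_zero, mul_one, mul_inv_cancel]
  | hadd A B ih ih' =>
    rw [add_mul, blk_add, blk_add, ← ih, ← ih']
    group
  | hs p q r =>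
    rw [blk_single]
    by_cases hq : q = u
    · subst hq
      rw [conj_left (j, q) (j, v) (i, p) _ _ (pne h _ _), mul_sub, mul_one,
        Matrix.single_mul_single_same, sub_eq_add_neg, add_comm, blk_add, Matrix.single_neg,
        blk_single, blk_single]
    · rw [conj_triv _ _ _ _ _ _ (pne h.symm _ _) (pne2 j (Ne.symm hq)), mul_sub, mul_one,
        Matrix.single_mul_single_of_ne _ _ _ _ hq, sub_zero, blk_single]

theorem conj_blk_triv (i j k : I) (h : i ≠ j) (hki : k ≠ i) (hkj : k ≠ j) (u v : N)
    (huv : u ≠ v) (c : R) (A : Matrix N N R) :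
    x (k, u) (k, v) (pne2 k huv) c * blk i j h A * (x (k, u) (k, v) (pne2 k huv) c)⁻¹
      = blk i j h A := by
  induction A using blk_induction with
  | h0 => rw [blk_zero, mul_one, mul_inv_cancel]
  | hadd A B ih ih' =>
    rw [blk_add]
    have e : ∀ a b t : St (I × N) R, t * (a * b) * t⁻¹ = (t * a * t⁻¹) * (t * b * t⁻¹) := by
      intro a b t; group
    rw [e, ih, ih']
  | hs p q r =>
    rw [blk_single, conj_triv _ _ _ _ _ _ (pne hki _ _) (pne hkj _ _)]

theorem exists_lift_transvection [DecidableEq I] (u v : N) (huv : u ≠ v) (c : R)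
    (s : Finset I) :
    ∃ t : St (I × N) R, ∀ (i j : I) (h : i ≠ j) (A : Matrix N N R),
      t * blk i j h A * t⁻¹ = blk i j h ((if i ∈ s then 1 + Matrix.single u v c else 1) * A *
        (if j ∈ s then 1 - Matrix.single u v c else 1)) := by
  induction s using Finset.induction_on with
  | empty => exact ⟨1, fun i j h A => by simp⟩
  | insert k s hk ih =>
    obtain ⟨t, ht⟩ := ih
    refine ⟨x (k, u) (k, v) (pne2 k huv) c * t, fun i j h A => ?_⟩
    have e : x (k, u) (k, v) (pne2 k huv) c * t * blk i j h A *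
        (x (k, u) (k, v) (pne2 k huv) c * t)⁻¹ = x (k, u) (k, v) (pne2 k huv) c *
        (t * blk i j h A * t⁻¹) * (x (k, u) (k, v) (pne2 k huv) c)⁻¹ := by group
    rw [e, ht]
    by_cases hki : k = i
    · subst hki
      rw [conj_blk_left _ _ _ _ _ huv, if_neg hk, if_pos (Finset.mem_insert_self _ _), one_mul, ← mul_assoc]
      have : (j ∈ insert k s) ↔ j ∈ s := by
        rw [Finset.mem_insert]; exact ⟨fun hj => hj.resolve_left h.symm, Or.inr⟩
      simp only [this]
    · by_cases hkj : k = j
      · subst hkj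
        rw [conj_blk_right _ _ _ _ _ huv, if_neg hk, if_pos (Finset.mem_insert_self _ _), mul_one]
        have : (i ∈ insert k s) ↔ i ∈ s := by
          rw [Finset.mem_insert]; exact ⟨fun hj => hj.resolve_left h, Or.inr⟩
        simp only [this]
      · rw [conj_blk_triv i j k h hki hkj u v huv]
        have h1 : (i ∈ insert k s) ↔ i ∈ s := by
          rw [Finset.mem_insert]; exact ⟨fun hj => hj.resolve_left (Ne.symm hki), Or.inr⟩
        have h2 : (j ∈ insert k s) ↔ j ∈ s := by
          rw [Finset.mem_insert]; exact ⟨fun hj => hj.resolve_left (Ne.symm hkj), Or.inr⟩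
        simp only [h1, h2]

/-- conjugations by `GL_N(F_2)` lift -/
theorem exists_lift_conj [Fintype I] [DecidableEq I] [Algebra (ZMod 2) R]
    (M : Matrix N N (ZMod 2)) (hM : M.det ≠ 0) :
    ∃ Mi : Matrix N N (ZMod 2), M * Mi = 1 ∧ Mi * M = 1 ∧
    ∃ t : St (I × N) R, ∀ (i j : I) (h : i ≠ j) (A : Matrix N N R),
      t * blk i j h A * t⁻¹ = blk i j h (emb N R M * A * emb N R Mi) := by
  have key : ∀ a : ZMod 2, a ≠ 0 → a = 1 := by decide
  have : Fact (Nat.Prime 2) := ⟨Nat.prime_two⟩
  refine Matrix.diagonal_transvection_induction_of_det_ne_zero (fun M => 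
    ∃ Mi : Matrix N N (ZMod 2), M * Mi = 1 ∧ Mi * M = 1 ∧
    ∃ t : St (I × N) R, ∀ (i j : I) (h : i ≠ j) (A : Matrix N N R),
      t * blk i j h A * t⁻¹ = blk i j h (emb N R M * A * emb N R Mi)) M hM ?_ ?_ ?_
  · intro D hD
    have h1 : ∀ i, D i = 1 := by
      intro i
      rw [Matrix.det_diagonal, Finset.prod_ne_zero_iff] at hD
      have h2 := hD i (Finset.mem_univ i)
      exact key _ h2
    have h3 : Matrix.diagonal D = 1 := by
      rw [← Matrix.diagonal_one]
      congr 1
      funext i
      exact h1 i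
    rw [h3]
    exact ⟨1, one_mul _, one_mul _, 1, fun i j h A => by simp⟩
  · intro t
    obtain ⟨T, hT⟩ := exists_lift_transvection (I := I) (R := R) t.i t.j t.hij
      (algebraMap (ZMod 2) R t.c) Finset.univ
    have hsq : (Matrix.single t.i t.j t.c : Matrix N N (ZMod 2)) * Matrix.single t.i t.j t.c = 0 :=
      Matrix.single_mul_single_of_ne _ _ _ _ t.hij.symm _
    refine ⟨1 - Matrix.single t.i t.j t.c, ?_, ?_, T, fun i j h A => ?_⟩
    · change (1 + Matrix.single t.i t.j t.c) * _ = 1
      simp only [mul_sub, add_mul, hsq, mul_one, one_mul, add_zero, add_sub_cancel_right]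
    · change _ * (1 + Matrix.single t.i t.j t.c) = 1
      simp only [mul_add, sub_mul, hsq, mul_one, one_mul, sub_zero, sub_add_cancel]
    · rw [hT, if_pos (Finset.mem_univ _), if_pos (Finset.mem_univ _)]
      congr 3
      · change _ = emb N R (1 + Matrix.single t.i t.j t.c)
        rw [map_add, map_one]
        congr 1
        change _ = (Matrix.single t.i t.j t.c).map _
        rw [Matrix.map_single]
      · rw [map_sub, map_one]
        congr 1
        change _ = (Matrix.single t.i t.j t.c).map _
        rw [Matrix.map_single]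
  · intro A B hA hB ihA ihB
    obtain ⟨A', hA1, hA2, tA, hA3⟩ := ihA
    obtain ⟨B', hB1, hB2, tB, hB3⟩ := ihB
    refine ⟨B' * A', ?_, ?_, tA * tB, fun i j h C => ?_⟩
    · rw [mul_assoc, ← mul_assoc B, hB1, one_mul, hA1]
    · rw [mul_assoc, ← mul_assoc A', hA2, one_mul, hB2]
    · have e : tA * tB * blk i j h C * (tA * tB)⁻¹ = tA * (tB * blk i j h C * tB⁻¹) * tA⁻¹ := by
        group
      rw [e, hB3, hA3, map_mul, map_mul]
      simp only [mul_assoc]

/-- the lift on twisted covers -/
theorem exists_lift_twist [Fintype I] [DecidableEq I] [Algebra (ZMod 2) R]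
    (𝒜 : ℕ → Submodule (ZMod 2) R) [GradedAlgebra 𝒜] (u : (Matrix N N (ZMod 2))ˣ) :
    ∃ t : St (I × N) R, ∀ (F : MFam N) (g : St I R),
      t * Blk I N R (map (twist 𝒜 F) g) * t⁻¹ = Blk I N R (map (twist 𝒜 (conjFam F u)) g) := by
  have hdet : (u : Matrix N N (ZMod 2)).det ≠ 0 := by
    have := (Matrix.isUnit_iff_isUnit_det _).mp u.isUnit
    exact this.ne_zero
  obtain ⟨Mi, h1, h2, t, ht⟩ := exists_lift_conj (I := I) (R := R) (u : Matrix N N (ZMod 2)) hdet
  have hMi : Mi = (u⁻¹ : (Matrix N N (ZMod 2))ˣ) := by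
    rw [← Units.mul_right_inj u, Units.mul_inv]
    exact h1
  refine ⟨t, fun F g => ?_⟩
  induction g using St.induction with
  | h1 => simp
  | hx i j h r g ih =>
    rw [map_mul, map_mul, map_x, Blk_x, map_mul, map_mul, map_x, Blk_x, twist_conjFam, ← hMi,
      ← ht, ← ih]
    group

end Crest.Agent.R176.Cover294
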