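import Crest.Agent.R176.Cover294Upp

/-! Row 176, part B, block COVER (helper294): the cyclic cover kills every element of
`ker (St I R → GL)` with trivial degree-zero part, as soon as the cover is large enough. -/

set_option autoImplicit false

namespace Crest.Agent.R176.Cover294

open St
open scoped commutatorElement

/-- the cyclic family: powers of the cyclic shift of `Fin n` -/
def cycFam (n : ℕ) [NeZero n] : MFam (Fin n) where
  T d := Matrix.of fun p q => if (p.val + d) % n = q.val then 1 else 0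
  zero := by
    ext p q
    rw [Matrix.of_apply, Matrix.one_apply, add_zero, Nat.mod_eq_of_lt p.2]
    simp only [Fin.ext_iff]
  add a b := by
    ext p q
    have hn : 0 < n := Nat.pos_of_ne_zero (NeZero.ne n)
    rw [Matrix.mul_apply]
    rw [Finset.sum_eq_single (⟨(p.val + a) % n, Nat.mod_lt _ hn⟩ : Fin n)]
    · simp only [Matrix.of_apply]
      rw [if_true, one_mul, ← add_assoc]
      simp only [Nat.mod_add_mod]
    · intro r _ hr
      simp only [Matrix.of_apply]
      rw [if_neg, zero_mul]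
      intro h
      apply hr
      exact Fin.ext h.symm
    · intro h
      exact absurd (Finset.mem_univ _) h

/-- powers of the nilpotent shift of `Fin n` -/
def upFam (n : ℕ) : MFam (Fin n) where
  T d := Matrix.of fun p q => if p.val + d = q.val then 1 else 0
  zero := by
    ext p q
    rw [Matrix.of_apply, Matrix.one_apply, add_zero]
    simp only [Fin.ext_iff]
  add a b := by
    ext p q
    rw [Matrix.mul_apply]
    by_cases hpa : p.val + a < n
    · rw [Finset.sum_eq_single (⟨p.val + a, hpa⟩ : Fin n)]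
      · simp only [Matrix.of_apply]
        rw [if_true, one_mul, ← add_assoc]
      · intro r _ hr
        simp only [Matrix.of_apply]
        rw [if_neg, zero_mul]
        intro h
        apply hr
        exact Fin.ext h.symm
      · intro h
        exact absurd (Finset.mem_univ _) h
    · rw [Finset.sum_eq_zero]
      · simp only [Matrix.of_apply]
        rw [if_neg]
        have := q.2
        omega
      · intro r _
        simp only [Matrix.of_apply]
        rw [if_neg, zero_mul]
        have := r.2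
        omega

theorem cycFam_apply (n : ℕ) [NeZero n] (d : ℕ) (p q : Fin n) :
    (cycFam n).T d p q = if (p.val + d) % n = q.val then 1 else 0 := rfl

theorem upFam_apply (n : ℕ) (d : ℕ) (p q : Fin n) :
    (upFam n).T d p q = if p.val + d = q.val then 1 else 0 := rfl

theorem zeroFam_apply (n : ℕ) (d : ℕ) (p q : Fin n) :
    (zeroFam (Fin n)).T d p q = if d = 0 ∧ p = q then 1 else 0 := by
  change (if d = 0 then (1 : Matrix (Fin n) (Fin n) (ZMod 2)) else 0) p q = _
  by_cases hd : d = 0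
  · simp [hd, Matrix.one_apply]
  · simp [hd]

section

variable {I R : Type*} [Ring R] [Algebra (ZMod 2) R] (𝒜 : ℕ → Submodule (ZMod 2) R)
  [GradedAlgebra 𝒜]

/-- `HW 𝒜 D g`: `g` is a product of generators with homogeneous coefficients of total
degree `D`. -/
inductive HW : ℕ → St I R → Prop
  | one : HW 0 1
  | mul (D : ℕ) (g : St I R) (i j : I) (h : i ≠ j) (d : ℕ) (c : R) (hc : c ∈ 𝒜 d)
      (hg : HW D g) : HW (D + d) (g * x i j h c)

omit [GradedAlgebra 𝒜] in
theorem HW.mul' {D D' : ℕ} {g g' : St I R} (hg : HW 𝒜 D g) (hg' : HW 𝒜 D' g') :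
    HW 𝒜 (D + D') (g * g') := by
  induction hg' with
  | one => simpa using hg
  | mul D' g' i j h d c hc _ ih =>
    rw [← add_assoc, ← mul_assoc]
    exact HW.mul _ _ i j h d c hc ih

theorem exists_HW_x (i j : I) (h : i ≠ j) (r : R) : ∃ D, HW 𝒜 D (x i j h r) := by
  induction r using DirectSum.Decomposition.inductionOn 𝒜 with
  | zero => exact ⟨0, by rw [x_zero]; exact HW.one⟩
  | @homogeneous d m =>
    exact ⟨0 + d, by simpa using HW.mul 0 1 i j h d (m : R) m.2 (HW.one (𝒜 := 𝒜) (I := I))⟩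
  | add a b ha hb =>
    obtain ⟨D, hD⟩ := ha
    obtain ⟨D', hD'⟩ := hb
    exact ⟨D + D', by rw [x_add]; exact hD.mul' 𝒜 hD'⟩

theorem exists_HW (g : St I R) : ∃ D, HW 𝒜 D g := by
  induction g using St.induction with
  | h1 => exact ⟨0, HW.one⟩
  | hx i j h r g ih =>
    obtain ⟨D, hD⟩ := exists_HW_x 𝒜 i j h r
    obtain ⟨D', hD'⟩ := ih
    exact ⟨D + D', hD.mul' 𝒜 hD'⟩

/-- the wrap relation -/
def Wr (I : Type*) (n h : ℕ) : I × Fin n → I × Fin n → Prop :=
  fun s t => n ≤ s.2.val + h ∧ t.2.val < h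

omit [Algebra (ZMod 2) R] in
theorem Wr_mono (n : ℕ) {h h' : ℕ} (hh : h ≤ h') : Sub R (Wr I n h) ≤ Sub R (Wr I n h') := by
  apply Sub_mono
  rintro s t ⟨h1, h2⟩
  exact ⟨by omega, by omega⟩

/-- intermediate relation -/
def Wr' (n h : ℕ) (i j : I) (d : ℕ) : I × Fin n → I × Fin n → Prop :=
  fun s t => (n ≤ s.2.val + h ∨ (s.1 = i ∧ n ≤ s.2.val + h + d)) ∧
    (t.2.val < h ∨ (t.1 = j ∧ t.2.val < h + d))

omit [Algebra (ZMod 2) R] in
theorem x_mem_normalizer_Wr' (n h : ℕ) (i j : I) (hij : i ≠ j) (d : ℕ) (hn : 2 * (h + d) ≤ n)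
    (p q : Fin n) (hpq : p.val + d = q.val) (r : R) :
    x (i, p) (j, q) (pne hij _ _) r ∈
      Subgroup.normalizer (Sub R (Wr' n h i j d) : Set (St (I × Fin n) R)) := by
  have h1 : ∀ k, Wr' n h i j d (j, q) k → (i, p) ≠ k ∧ Wr' n h i j d (i, p) k := by
    rintro k ⟨ha, hb⟩
    have ha' : n ≤ q.val + h := by
      rcases ha with ha | ⟨ha, _⟩
      · exact ha
      · exact absurd ha.symm hij
    refine ⟨?_, Or.inr ⟨rfl, by change n ≤ p.val + h + d; omega⟩, hb⟩
    rintro rfl
    change (p.val < h ∨ (i = j ∧ p.val < h + d)) at hb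
    rcases hb with hb | ⟨hb, _⟩
    · omega
    · exact absurd hb hij
  have h2 : ∀ k, Wr' n h i j d k (i, p) → k ≠ (j, q) ∧ Wr' n h i j d k (j, q) := by
    rintro k ⟨ha, hb⟩
    have hb' : p.val < h := by
      rcases hb with hb | ⟨hb, _⟩
      · exact hb
      · exact absurd hb hij
    refine ⟨?_, ha, Or.inr ⟨rfl, by change q.val < h + d; omega⟩⟩
    rintro rfl
    change (n ≤ q.val + h ∨ (j = i ∧ n ≤ q.val + h + d)) at ha
    rcases ha with ha | ⟨ha, _⟩
    · omega
    · exact absurd ha.symm hij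
  rw [Subgroup.mem_normalizer_iff]
  intro g
  constructor
  · intro hg
    exact conj_mem_Sub _ h1 h2 r g hg
  · intro hg
    have := conj_mem_Sub' (pne hij p q) h1 h2 r _ hg
    have e : (x (i, p) (j, q) (pne hij p q) r)⁻¹ * (x (i, p) (j, q) (pne hij p q) r * g *
      (x (i, p) (j, q) (pne hij p q) r)⁻¹) * x (i, p) (j, q) (pne hij p q) r = g := by group
    rwa [e] at this

theorem conj_up (n h : ℕ) (i j : I) (hij : i ≠ j) (d : ℕ) (hn : 2 * (h + d) ≤ n)
    (c : R) (hc : c ∈ 𝒜 d) (z : St (I × Fin n) R) (hz : z ∈ Sub R (Wr I n h)) :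
    (blk i j hij (twist 𝒜 (upFam n) c))⁻¹ * z * blk i j hij (twist 𝒜 (upFam n) c)
      ∈ Sub R (Wr I n (h + d)) := by
  have h1 : blk i j hij (twist 𝒜 (upFam n) c) ∈
      Subgroup.normalizer (Sub R (Wr' n h i j d) : Set (St (I × Fin n) R)) := by
    apply blk_mem
    intro p q hpq
    refine x_mem_normalizer_Wr' n h i j hij d hn p q ?_ _
    rw [twist_apply_mem 𝒜 _ hc, upFam_apply] at hpq
    by_contra hne
    rw [if_neg hne, zero_smul] at hpq
    exact hpq rfl
  have h2 : z ∈ Sub R (Wr' n h i j d) := by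
    refine Sub_mono ?_ hz
    rintro s t ⟨ha, hb⟩
    exact ⟨Or.inl ha, Or.inl hb⟩
  have h3 := conj_normalizer h1 h2
  refine Sub_mono ?_ h3
  rintro s t ⟨ha, hb⟩
  constructor
  · rcases ha with ha | ⟨_, ha⟩ <;> omega
  · rcases hb with hb | ⟨_, hb⟩ <;> omega

/-- the wrap-around part of a homogeneous generator -/
theorem wrap_mem (n : ℕ) [NeZero n] (i j : I) (hij : i ≠ j) (d : ℕ) (hn : d ≤ n)
    (c : R) (hc : c ∈ 𝒜 d) :
    blk i j hij (twist 𝒜 (cycFam n) c - twist 𝒜 (upFam n) c) ∈ Sub R (Wr I n d) := by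
  apply blk_mem
  intro p q hpq
  apply x_mem_Sub
  rw [Matrix.sub_apply, twist_apply_mem 𝒜 _ hc, twist_apply_mem 𝒜 _ hc, cycFam_apply,
    upFam_apply] at hpq
  have hp := p.2
  have hq := q.2
  by_cases h1 : p.val + d < n
  · rw [Nat.mod_eq_of_lt h1, sub_self] at hpq
    exact absurd rfl hpq
  · have h2 : (p.val + d) % n = p.val + d - n := by
      rcases Nat.lt_or_ge (p.val + d) (2 * n) with h3 | h3
      · rw [Nat.mod_eq_sub_mod (by omega), Nat.mod_eq_of_lt (by omega)]
      · omega
    have h3 : ¬ (p.val + d = q.val) := by omega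
    rw [if_neg h3, zero_smul, sub_zero] at hpq
    have h4 : (p.val + d) % n = q.val := by
      by_contra hne
      rw [if_neg hne, zero_smul] at hpq
      exact hpq rfl
    constructor
    · change n ≤ p.val + d
      omega
    · change q.val < d
      omega

/-- structural part of the continuity lemma -/
theorem Blk_cyc (n : ℕ) [NeZero n] {D : ℕ} {g : St I R} (hg : HW 𝒜 D g) (hn : 2 * D ≤ n) :
    ∃ z ∈ Sub R (Wr I n D), Blk I (Fin n) R (map (twist 𝒜 (cycFam n)) g)
      = Blk I (Fin n) R (map (twist 𝒜 (upFam n)) g) * z := by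
  induction hg with
  | one => exact ⟨1, Subgroup.one_mem _, by simp⟩
  | mul D g i j h d c hc _ ih =>
    obtain ⟨z, hz, e⟩ := ih (by omega)
    rw [map_mul, map_mul, map_x, Blk_x, map_mul, map_mul, map_x, Blk_x, e]
    have h1 := conj_up 𝒜 n D i j h d hn c hc z hz
    have h2 := wrap_mem 𝒜 n i j h d (by omega) c hc
    refine ⟨((blk i j h (twist 𝒜 (upFam n) c))⁻¹ * z * blk i j h (twist 𝒜 (upFam n) c)) *
      blk i j h (twist 𝒜 (cycFam n) c - twist 𝒜 (upFam n) c),
      Subgroup.mul_mem _ h1 (Wr_mono n (by omega) h2), ?_⟩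
    have e2 : blk i j h (twist 𝒜 (cycFam n) c) = blk i j h (twist 𝒜 (upFam n) c) *
        blk i j h (twist 𝒜 (cycFam n) c - twist 𝒜 (upFam n) c) := by
      rw [← blk_add, add_sub_cancel]
    rw [e2]
    group

variable [Fintype I] [DecidableEq I]

/-- the nilpotent shift kills -/
theorem Blk_up_eq_one (n : ℕ) (g : St I R) (hg : toMat g = 1)
    (h0 : map (GradedRing.projZeroRingHom 𝒜) g = 1) :
    Blk I (Fin n) R (map (twist 𝒜 (upFam n)) g) = 1 := by
  have key : ∀ r p q, ¬ (p : Fin n).val < (q : Fin n).val →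
      twist 𝒜 (upFam n) r p q = twist 𝒜 (zeroFam (Fin n)) r p q := by
    intro r p q hpq
    induction r using DirectSum.Decomposition.inductionOn 𝒜 with
    | zero => rw [map_zero, map_zero]
    | @homogeneous d m =>
      rw [twist_apply_mem 𝒜 _ m.2, twist_apply_mem 𝒜 _ m.2, upFam_apply, zeroFam_apply]
      congr 1
      by_cases h1 : d = 0 ∧ p = q
      · rw [if_pos h1, if_pos]
        rw [h1.1, h1.2, add_zero]
      · rw [if_neg h1, if_neg]
        intro h2
        apply h1
        constructor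
        · omega
        · apply Fin.ext; omega
    | add a b ha hb => rw [map_add, map_add, Matrix.add_apply, Matrix.add_apply, ha, hb]
  have h0' : ∀ r p q, (p : Fin n).val ≠ (q : Fin n).val →
      twist 𝒜 (zeroFam (Fin n)) r p q = 0 := by
    intro r p q hpq
    rw [twist_zeroFam, Matrix.scalar_apply, Matrix.diagonal_apply_ne]
    intro h; exact hpq (congrArg Fin.val h)
  rw [Blk_eq_of_upper (fun p : Fin n => p.val) (twist 𝒜 (upFam n)) (twist 𝒜 (zeroFam (Fin n)))
    h0' key g hg]
  have h2 : twist 𝒜 (zeroFam (Fin n))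
      = (Matrix.scalar (Fin n)).comp (GradedRing.projZeroRingHom 𝒜) := by
    ext1 r
    exact twist_zeroFam 𝒜 r
  have h3 : map (I := I) (twist 𝒜 (zeroFam (Fin n))) g
      = map (Matrix.scalar (Fin n)) (map (GradedRing.projZeroRingHom 𝒜) g) := by
    rw [h2]
    have : map (I := I) ((Matrix.scalar (Fin n)).comp (GradedRing.projZeroRingHom 𝒜))
        = (map (Matrix.scalar (Fin n))).comp (map (GradedRing.projZeroRingHom 𝒜)) := by
      apply hom_ext
      intro i j h r
      simp
    rw [this]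
    rfl
  rw [h3, h0, map_one, map_one]

/-- **Continuity (C2).** For an element `g` of `ker (St I R → GL)` with trivial degree-zero
part, the cyclic cover of every order `n ≥ 2 D` kills `g`. -/
theorem Blk_cyc_eq_one (g : St I R) (hg : toMat g = 1)
    (h0 : map (GradedRing.projZeroRingHom 𝒜) g = 1) {D : ℕ} (hD : HW 𝒜 D g)
    (n : ℕ) [NeZero n] (hn : 2 * D ≤ n) :
    Blk I (Fin n) R (map (twist 𝒜 (cycFam n)) g) = 1 := by
  obtain ⟨z, hz, e⟩ := Blk_cyc 𝒜 n hD hn
  rw [Blk_up_eq_one 𝒜 n g hg h0, one_mul] at e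
  have hz1 : toMat z = 1 := by
    rw [← e]
    exact toMat_Blk_eq_one _ (toMat_map_eq_one _ g hg)
  rw [e]
  apply Sub_inj (P := Wr I n D) _ _ z hz hz1
  · rintro s t u ⟨h1, h2⟩ ⟨h3, h4⟩
    exact ⟨h1, h4⟩
  · rintro s ⟨h1, h2⟩
    omega

end

end Crest.Agent.R176.Cover294
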