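import Crest.Agent.R176.Cover294Blk

/-! Row 176, part B, block COVER (helper294): the ring homomorphisms
`c_d ↦ c_d T^d`, `R →+* Matrix N N R`, for a graded ring `R` and a family of matrices `T`. -/

set_option autoImplicit false

namespace Crest.Agent.R176.Cover294

open St
open scoped commutatorElement DirectSum

/-- a multiplicative family of matrices over `F_2` -/
structure MFam (N : Type*) [Fintype N] [DecidableEq N] where
  T : ℕ → Matrix N N (ZMod 2)
  zero : T 0 = 1
  add : ∀ a b, T (a + b) = T a * T b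

section

variable {R : Type*} [Ring R] [Algebra (ZMod 2) R] (𝒜 : ℕ → Submodule (ZMod 2) R)
  [GradedAlgebra 𝒜] {N : Type*} [Fintype N] [DecidableEq N]

/-- one homogeneous component of the twist -/
def twistAux (F : MFam N) (d : ℕ) : 𝒜 d →+ Matrix N N R where
  toFun c := Matrix.of fun p q => F.T d p q • (c : R)
  map_zero' := by ext p q; simp
  map_add' a b := by ext p q; simp

omit [GradedAlgebra 𝒜] in
theorem twistAux_apply (F : MFam N) (d : ℕ) (c : 𝒜 d) (p q : N) :
    twistAux 𝒜 F d c p q = F.T d p q • (c : R) := rfl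

/-- the ring homomorphism `c_d ↦ c_d T^d` -/
def twist (F : MFam N) : R →+* Matrix N N R :=
  (DirectSum.toSemiring (twistAux 𝒜 F)
    (by
      ext p q
      rw [twistAux_apply, F.zero, SetLike.coe_gOne, Matrix.one_apply, Matrix.one_apply]
      split_ifs <;> simp)
    (by
      intro a b c d
      ext p q
      rw [twistAux_apply, F.add, SetLike.coe_gMul, Matrix.mul_apply, Matrix.mul_apply,
        Finset.sum_smul]
      apply Finset.sum_congr rfl
      intro r _
      rw [twistAux_apply, twistAux_apply, smul_mul_smul_comm])).comp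
    (DirectSum.decomposeRingEquiv 𝒜).toRingHom

theorem twist_apply_mem (F : MFam N) {d : ℕ} {c : R} (hc : c ∈ 𝒜 d) (p q : N) :
    twist 𝒜 F c p q = F.T d p q • c := by
  have : twist 𝒜 F c = twistAux 𝒜 F d ⟨c, hc⟩ := by
    unfold twist
    rw [RingHom.comp_apply]
    change DirectSum.toSemiring _ _ _ (DirectSum.decompose 𝒜 c) = _
    rw [DirectSum.decompose_of_mem 𝒜 hc, DirectSum.toSemiring_of]
  rw [this, twistAux_apply]

/-- Two ring homs (or additive maps) out of a graded ring agree if they do on homogeneous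
elements. -/
theorem hom_eq_of_homog {S : Type*} [AddCommMonoid S] {f g : R →+ S}
    (h : ∀ d, ∀ c ∈ 𝒜 d, f c = g c) (r : R) : f r = g r := by
  induction r using DirectSum.Decomposition.inductionOn 𝒜 with
  | zero => rw [map_zero, map_zero]
  | @homogeneous i m => exact h i m m.2
  | add a b ha hb => rw [map_add, map_add, ha, hb]

/-- the trivial family -/
def oneFam (N : Type*) [Fintype N] [DecidableEq N] : MFam N where
  T _ := 1
  zero := rfl
  add _ _ := by rw [mul_one]

/-- the family projecting to degree zero -/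
def zeroFam (N : Type*) [Fintype N] [DecidableEq N] : MFam N where
  T d := if d = 0 then 1 else 0
  zero := rfl
  add a b := by
    by_cases ha : a = 0 <;> by_cases hb : b = 0 <;> simp [ha, hb]

theorem twist_oneFam (r : R) : twist 𝒜 (oneFam N) r = Matrix.scalar N r := by
  apply hom_eq_of_homog 𝒜 (f := (twist 𝒜 (oneFam N)).toAddMonoidHom)
    (g := (Matrix.scalar N).toAddMonoidHom)
  intro d c hc
  change twist 𝒜 (oneFam N) c = Matrix.scalar N c
  ext p q
  rw [twist_apply_mem 𝒜 _ hc, Matrix.scalar_apply, Matrix.diagonal_apply]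
  change (1 : Matrix N N (ZMod 2)) p q • c = _
  rw [Matrix.one_apply]
  split_ifs <;> simp

theorem twist_zeroFam (r : R) :
    twist 𝒜 (zeroFam N) r = Matrix.scalar N (GradedRing.projZeroRingHom 𝒜 r) := by
  apply hom_eq_of_homog 𝒜 (f := (twist 𝒜 (zeroFam N)).toAddMonoidHom)
    (g := ((Matrix.scalar N).comp (GradedRing.projZeroRingHom 𝒜)).toAddMonoidHom)
  intro d c hc
  change twist 𝒜 (zeroFam N) c = Matrix.scalar N (GradedRing.projZeroRingHom 𝒜 c)
  ext p q
  rw [twist_apply_mem 𝒜 _ hc, Matrix.scalar_apply, Matrix.diagonal_apply]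
  by_cases hd : d = 0
  · subst hd
    have h1 : GradedRing.projZeroRingHom 𝒜 c = c := by
      rw [GradedRing.projZeroRingHom_apply, DirectSum.decompose_of_mem_same 𝒜 hc]
    rw [h1]
    change (1 : Matrix N N (ZMod 2)) p q • c = _
    rw [Matrix.one_apply]
    split_ifs <;> simp
  · have h1 : GradedRing.projZeroRingHom 𝒜 c = 0 := by
      rw [GradedRing.projZeroRingHom_apply, DirectSum.decompose_of_mem_ne 𝒜 hc hd]
    rw [h1]
    have h2 : (zeroFam N).T d = 0 := by
      change (if d = 0 then (1 : Matrix N N (ZMod 2)) else 0) = 0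
      rw [if_neg hd]
    rw [h2]
    simp

/-- conjugate family -/
def conjFam (F : MFam N) (u : (Matrix N N (ZMod 2))ˣ) : MFam N where
  T d := u * F.T d * (u⁻¹ : (Matrix N N (ZMod 2))ˣ)
  zero := by rw [F.zero, mul_one, Units.mul_inv]
  add a b := by
    rw [F.add]
    simp only [mul_assoc, Units.inv_mul_cancel_left]

/-- coefficients `F_2 → R` -/
def emb (N R : Type*) [Fintype N] [DecidableEq N] [Ring R] [Algebra (ZMod 2) R] :
    Matrix N N (ZMod 2) →+* Matrix N N R := (algebraMap (ZMod 2) R).mapMatrix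

theorem twist_conjFam (F : MFam N) (u : (Matrix N N (ZMod 2))ˣ) (r : R) :
    twist 𝒜 (conjFam F u) r = emb N R u * twist 𝒜 F r * emb N R (u⁻¹ : (Matrix N N (ZMod 2))ˣ) := by
  apply hom_eq_of_homog 𝒜 (f := (twist 𝒜 (conjFam F u)).toAddMonoidHom)
    (g := ((AddMonoidHom.mulRight (emb N R (u⁻¹ : (Matrix N N (ZMod 2))ˣ))).comp
      (AddMonoidHom.mulLeft (emb N R u))).comp (twist 𝒜 F).toAddMonoidHom)
  intro d c hc
  change twist 𝒜 (conjFam F u) c
    = emb N R u * twist 𝒜 F c * emb N R (u⁻¹ : (Matrix N N (ZMod 2))ˣ)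
  ext p q
  rw [twist_apply_mem 𝒜 _ hc]
  change (((u : Matrix N N (ZMod 2)) * F.T d * (u⁻¹ : (Matrix N N (ZMod 2))ˣ)) p q) • c = _
  simp only [Matrix.mul_apply, Finset.sum_smul, Finset.sum_mul]
  apply Finset.sum_congr rfl
  intro s _
  apply Finset.sum_congr rfl
  intro t _
  rw [twist_apply_mem 𝒜 _ hc]
  change _ = algebraMap (ZMod 2) R ((u : Matrix N N (ZMod 2)) p t) * (F.T d t s • c) *
    algebraMap (ZMod 2) R (((u⁻¹ : (Matrix N N (ZMod 2))ˣ) : Matrix N N (ZMod 2)) s q)
  rw [← Algebra.commutes, ← Algebra.smul_def, ← Algebra.smul_def, smul_smul, smul_smul]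
  congr 1
  ring

end

end Crest.Agent.R176.Cover294
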