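import Crest.Agent.R176.Cover294Cyc
import Crest.Agent.R176.Cover294Conj
import Crest.Agent.R176.Cen370

/-! Row 176, part B, block COVER (helper294): elements of `ker (St I R → GL)` with trivial
degree-zero part have 2-power order stably. -/

set_option autoImplicit false

namespace Crest.Agent.R176.Cover294

open St
open scoped commutatorElement

section Pascal

/-- Pascal's matrix mod 2 -/
def pas (n : ℕ) : Matrix (Fin n) (Fin n) (ZMod 2) :=
  Matrix.of fun k j => ((k.val.choose j.val : ℕ) : ZMod 2)

theorem pas_apply (n : ℕ) (k j : Fin n) : pas n k j = ((k.val.choose j.val : ℕ) : ZMod 2) := rfl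

theorem pas_det (n : ℕ) : (pas n).det = 1 := by
  rw [Matrix.det_of_isLowerTriangular]
  · apply Finset.prod_eq_one
    intro i _
    rw [pas_apply, Nat.choose_self, Nat.cast_one]
  · intro i j hij
    have : i < j := hij
    rw [pas_apply, Nat.choose_eq_zero_of_lt this, Nat.cast_zero]

/-- Pascal's matrix as a unit -/
noncomputable def pasU (n : ℕ) : (Matrix (Fin n) (Fin n) (ZMod 2))ˣ :=
  ((Matrix.isUnit_iff_isUnit_det (pas n)).mpr (by rw [pas_det]; exact isUnit_one)).unit

theorem pasU_val (n : ℕ) : (pasU n : Matrix (Fin n) (Fin n) (ZMod 2)) = pas n := rfl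

/-- the Jordan block -/
def jor (n : ℕ) : Matrix (Fin n) (Fin n) (ZMod 2) := 1 + (upFam n).T 1

theorem two_zmod : (2 : ZMod 2) = 0 := by decide

theorem pas_cyc (a : ℕ) : pas (2 ^ a) * (cycFam (2 ^ a)).T 1 = jor (2 ^ a) * pas (2 ^ a) := by
  set n := 2 ^ a with hn
  have hn0 : 0 < n := by rw [hn]; positivity
  ext k q
  -- left side
  have hL : (pas n * (cycFam n).T 1) k q
      = if q.val = 0 then ((k.val.choose (n - 1) : ℕ) : ZMod 2)
        else ((k.val.choose (q.val - 1) : ℕ) : ZMod 2) := by
    rw [Matrix.mul_apply]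
    by_cases hq : q.val = 0
    · rw [if_pos hq, Finset.sum_eq_single (⟨n - 1, by omega⟩ : Fin n)]
      · rw [cycFam_apply, pas_apply]
        simp only
        rw [show n - 1 + 1 = n by omega, Nat.mod_self, if_pos hq.symm, mul_one]
      · intro r _ hr
        rw [cycFam_apply, if_neg, mul_zero]
        intro h
        apply hr
        apply Fin.ext
        simp only
        have hr2 := r.2
        by_contra hne
        rw [Nat.mod_eq_of_lt (by omega)] at h
        omega
      · intro h; exact absurd (Finset.mem_univ _) h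
    · rw [if_neg hq, Finset.sum_eq_single (⟨q.val - 1, by omega⟩ : Fin n)]
      · rw [cycFam_apply, pas_apply]
        simp only
        have hq2 := q.2
        rw [show q.val - 1 + 1 = q.val by omega, Nat.mod_eq_of_lt hq2, if_pos rfl, mul_one]
      · intro r _ hr
        rw [cycFam_apply, if_neg, mul_zero]
        intro h
        apply hr
        apply Fin.ext
        simp only
        have hr2 := r.2
        rcases Nat.lt_or_ge (r.val + 1) n with h1 | h1
        · rw [Nat.mod_eq_of_lt h1] at h
          omega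
        · have h2 : r.val + 1 = n := by omega
          rw [h2, Nat.mod_self] at h
          omega
      · intro h; exact absurd (Finset.mem_univ _) h
  -- right side
  have hR : (jor n * pas n) k q = ((k.val.choose q.val : ℕ) : ZMod 2) +
      if k.val + 1 < n then (((k.val + 1).choose q.val : ℕ) : ZMod 2) else 0 := by
    rw [jor, add_mul, one_mul, Matrix.add_apply, pas_apply, Matrix.mul_apply]
    congr 1
    by_cases hk : k.val + 1 < n
    · rw [if_pos hk, Finset.sum_eq_single (⟨k.val + 1, hk⟩ : Fin n)]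
      · rw [upFam_apply, pas_apply]
        simp only
        rw [if_true, one_mul]
      · intro r _ hr
        rw [upFam_apply, if_neg, zero_mul]
        intro h
        apply hr
        apply Fin.ext
        exact h.symm
      · intro h; exact absurd (Finset.mem_univ _) h
    · rw [if_neg hk]
      apply Finset.sum_eq_zero
      intro r _
      rw [upFam_apply, if_neg, zero_mul]
      have := r.2
      omega
  rw [hL, hR]
  have hk := k.2
  have hq := q.2
  by_cases hq0 : q.val = 0
  · rw [if_pos hq0, hq0, Nat.choose_zero_right]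
    by_cases hk1 : k.val + 1 < n
    · rw [if_pos hk1, Nat.choose_zero_right, Nat.choose_eq_zero_of_lt (by omega)]
      decide
    · rw [if_neg hk1, show k.val = n - 1 by omega, Nat.choose_self]
      decide
  · rw [if_neg hq0]
    obtain ⟨q', hq'⟩ : ∃ q', q.val = q' + 1 := ⟨q.val - 1, by omega⟩
    rw [hq', Nat.add_sub_cancel]
    by_cases hk1 : k.val + 1 < n
    · rw [if_pos hk1, Nat.choose_succ_succ, Nat.cast_add]
      have h2 : ∀ u v : ZMod 2, u = v + (u + v) := by decide
      exact h2 _ _
    · rw [if_neg hk1, add_zero]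
      have hkn : k.val + 1 = n := by omega
      have h3 : 2 ∣ n.choose (q' + 1) := by
        rw [hn]
        exact Nat.prime_two.dvd_choose_pow (by omega) (by rw [← hn]; omega)
      rw [← hkn, Nat.choose_succ_succ] at h3
      have h4 : (((k.val.choose q' + k.val.choose (q' + 1) : ℕ)) : ZMod 2) = 0 :=
        (ZMod.natCast_eq_zero_iff _ 2).mpr h3
      rw [Nat.cast_add] at h4
      have h2 : ∀ u v : ZMod 2, u + v = 0 → u = v := by decide
      exact h2 _ _ h4

theorem MFam.T_eq_pow {N : Type*} [Fintype N] [DecidableEq N] (F : MFam N) (d : ℕ) :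
    F.T d = F.T 1 ^ d := by
  induction d with
  | zero => rw [F.zero, pow_zero]
  | succ d ih => rw [F.add, ih, pow_succ]

theorem conjFam_T (a d : ℕ) :
    (conjFam (cycFam (2 ^ a)) (pasU (2 ^ a))).T d = jor (2 ^ a) ^ d := by
  have h1 : (conjFam (cycFam (2 ^ a)) (pasU (2 ^ a))).T 1 = jor (2 ^ a) := by
    change (pasU (2 ^ a)).val * (cycFam (2 ^ a)).T 1 * ((pasU (2 ^ a))⁻¹).val = _
    rw [Units.mul_inv_eq_iff_eq_mul, pasU_val, pas_cyc]
  rw [MFam.T_eq_pow, h1]

/-- powers of the Jordan block are upper unitriangular -/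
theorem jor_pow (n d : ℕ) (p q : Fin n) (h : ¬ p.val < q.val) :
    (jor n ^ d) p q = (1 : Matrix (Fin n) (Fin n) (ZMod 2)) p q := by
  induction d generalizing q with
  | zero => rw [pow_zero]
  | succ d ih =>
    rw [pow_succ, jor, mul_add, mul_one, Matrix.add_apply, ← jor, ih q h, Matrix.mul_apply,
      Finset.sum_eq_zero, add_zero]
    intro r _
    by_cases hr : r.val + 1 = q.val
    · rw [ih r (by omega), Matrix.one_apply_ne, zero_mul]
      intro hpr
      have := congrArg Fin.val hpr
      omega
    · rw [upFam_apply, if_neg hr, mul_zero]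

end Pascal

section Diag

variable {I N R : Type*} [Ring R] [Fintype N] [DecidableEq N]

/-- partial diagonal matrix -/
def dg (s : Finset N) (r : R) : Matrix N N R := Matrix.diagonal fun p => if p ∈ s then r else 0

omit [Fintype N] in
theorem dg_add (s : Finset N) (r r' : R) : dg s (r + r') = dg s r + dg s r' := by
  rw [dg, dg, dg, Matrix.diagonal_add]
  congr 1
  funext p
  split_ifs <;> simp

theorem dg_mul (s : Finset N) (r r' : R) : dg s (r * r') = dg s r * dg s r' := by
  rw [dg, dg, dg, Matrix.diagonal_mul_diagonal]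
  congr 1
  funext p
  split_ifs <;> simp

/-- partial diagonal embedding -/
def Dg (I R : Type*) [Ring R] (s : Finset N) : St I R →* St (I × N) R :=
  lift (fun i j h r => blk i j h (dg s r))
    (by intro i j h r r'; rw [dg_add, blk_add])
    (by intro i j k hij hjk hik r r'; rw [blk_comm i j k hij hjk hik, dg_mul])
    (by
      intro i j k l hij hkl hjk hil r r'
      exact commutatorElement_eq_one_iff_commute.mpr (blk_commute i j k l hij hkl hjk hil _ _))

@[simp] theorem Dg_x (s : Finset N) (i j : I) (h : i ≠ j) (r : R) :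
    Dg I R s (x i j h r) = blk i j h (dg s r) := lift_x _ _ _ _ _ _ _ _

theorem Dg_univ (g : St I R) :
    Dg I R (Finset.univ : Finset N) g = Blk I N R (map (Matrix.scalar N) g) := by
  have : Dg I R (Finset.univ : Finset N) = (Blk I N R).comp (map (Matrix.scalar N)) := by
    apply hom_ext
    intro i j h r
    rw [Dg_x, MonoidHom.comp_apply, map_x, Blk_x]
    congr 1
    rw [dg, Matrix.scalar_apply]
    congr 1
    funext p
    rw [if_pos (Finset.mem_univ p)]
  rw [this]
  rfl

theorem Dg_empty (g : St I R) : Dg I R (∅ : Finset N) g = 1 := by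
  have : Dg I R (∅ : Finset N) = 1 := by
    apply hom_ext
    intro i j h r
    rw [Dg_x, MonoidHom.one_apply]
    have : dg (∅ : Finset N) r = 0 := by
      ext p q
      simp [dg, Matrix.diagonal_apply]
    rw [this, blk_zero]
  rw [this, MonoidHom.one_apply]

/-- the embedding `i ↦ (i, p)` -/
def eN (I : Type*) (p : N) : I ↪ I × N := ⟨fun i => (i, p), fun _ _ h => congrArg Prod.fst h⟩

theorem blk_dg_commute (s : Finset N) (p : N) (hp : p ∉ s) (i j : I) (h : i ≠ j) (r : R)
    (g : St I R) : Commute (mapI (eN I p) g) (blk i j h (dg s r)) := by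
  have h1 : ∀ (k l : I) (hkl : k ≠ l) (c : R),
      Commute (x (k, p) (l, p) (pne hkl _ _) c) (blk i j h (dg s r)) := by
    intro k l hkl c
    have : blk i j h (dg s r) ∈ Subgroup.centralizer {x (k, p) (l, p) (pne hkl _ _) c} := by
      apply blk_mem
      intro u v huv
      rw [Subgroup.mem_centralizer_singleton_iff]
      have huv' : u = v ∧ u ∈ s := by
        rw [dg, Matrix.diagonal_apply] at huv
        by_cases h1 : u = v
        · rw [if_pos h1] at huv
          refine ⟨h1, ?_⟩
          by_contra h2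
          rw [if_neg h2] at huv
          exact huv rfl
        · rw [if_neg h1] at huv
          exact absurd rfl huv
      obtain ⟨rfl, hus⟩ := huv'
      have hpu : p ≠ u := by
        rintro rfl
        exact hp hus
      have h3 : ((l, p) : I × N) ≠ (i, u) := fun e => hpu (congrArg Prod.snd e)
      have h4 : ((k, p) : I × N) ≠ (j, u) := fun e => hpu (congrArg Prod.snd e)
      exact (x_commute _ _ _ _ _ _ h3 h4 _ _).symm.eq
    rw [Subgroup.mem_centralizer_singleton_iff] at this
    exact this.symm
  induction g using St.induction with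
  | h1 => rw [map_one]; exact Commute.one_left _
  | hx k l hkl c g ih =>
    rw [map_mul, mapI_x]
    exact (h1 k l hkl c).mul_left ih

theorem Dg_insert (s : Finset N) (p : N) (hp : p ∉ s) (g : St I R) :
    Dg I R (insert p s) g = mapI (eN I p) g * Dg I R s g := by
  induction g using St.induction with
  | h1 => simp
  | hx i j h r g ih =>
    rw [map_mul, ih, Dg_x, map_mul, map_mul, mapI_x, Dg_x]
    have h1 : dg (insert p s) r = Matrix.single p p r + dg s r := by
      ext u v
      rw [Matrix.add_apply, dg, dg, Matrix.diagonal_apply, Matrix.diagonal_apply,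
        Matrix.single_apply]
      by_cases huv : u = v
      · subst huv
        rw [if_pos rfl, if_pos rfl]
        by_cases hup : u = p
        · subst hup
          rw [if_pos (Finset.mem_insert_self _ _), if_pos ⟨rfl, rfl⟩, if_neg hp, add_zero]
        · have h2 : u ∈ insert p s ↔ u ∈ s := by
            rw [Finset.mem_insert]; exact ⟨fun h => h.resolve_left hup, Or.inr⟩
          rw [if_neg (show ¬ (p = u ∧ p = u) from fun h => hup h.1.symm), zero_add]
          simp only [h2]
      · rw [if_neg huv, if_neg huv, if_neg, add_zero]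
        rintro ⟨rfl, rfl⟩
        exact huv rfl
    rw [h1, blk_add, blk_single]
    have h2 := (blk_dg_commute s p hp i j h r g).eq
    change x (i, p) (j, p) _ r * blk i j h (dg s r) * (mapI (eN I p) g * Dg I R s g)
      = x (i, p) (j, p) _ r * mapI (eN I p) g * (blk i j h (dg s r) * Dg I R s g)
    simp only [mul_assoc]
    rw [← mul_assoc (blk i j h (dg s r)), ← h2, mul_assoc]

theorem Dg_pow (s : Finset N) (g : St I R) (z : St (I × N) R)
    (hz : ∀ p, mapI (eN I p) g = z) : Dg I R s g = z ^ s.card := by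
  induction s using Finset.induction_on with
  | empty => rw [Dg_empty, Finset.card_empty, pow_zero]
  | insert p s hp ih => rw [Dg_insert s p hp, ih, hz, Finset.card_insert_of_notMem hp, pow_succ']

end Diag

section Main

variable {I R : Type*} [Ring R] [Algebra (ZMod 2) R] (𝒜 : ℕ → Submodule (ZMod 2) R)
  [GradedAlgebra 𝒜] [Fintype I] [DecidableEq I]

theorem two_eq_zero (R : Type*) [Ring R] [Algebra (ZMod 2) R] : (2 : R) = 0 := by
  have h1 : algebraMap (ZMod 2) R 2 = 2 := map_ofNat _ 2
  rw [← h1, two_zmod, map_zero]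

/-- the diagonal image of `g` is killed by a large 2-power cover -/
theorem Blk_scalar_eq_one (g : St I R) (hg : toMat g = 1)
    (h0 : map (GradedRing.projZeroRingHom 𝒜) g = 1) {D : ℕ} (hD : HW 𝒜 D g)
    (a : ℕ) (ha : 2 * D ≤ 2 ^ a) :
    Blk I (Fin (2 ^ a)) R (map (Matrix.scalar (Fin (2 ^ a))) g) = 1 := by
  have h1 := Blk_cyc_eq_one 𝒜 g hg h0 hD (2 ^ a) ha
  obtain ⟨t, ht⟩ := exists_lift_twist (I := I) 𝒜 (pasU (2 ^ a))
  have h2 := ht (cycFam (2 ^ a)) g
  rw [h1, mul_one, mul_inv_cancel] at h2
  have h3 : ∀ r p q, ¬ (p : Fin (2 ^ a)).val < (q : Fin (2 ^ a)).val →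
      twist 𝒜 (conjFam (cycFam (2 ^ a)) (pasU (2 ^ a))) r p q
        = twist 𝒜 (oneFam (Fin (2 ^ a))) r p q := by
    intro r p q hpq
    induction r using DirectSum.Decomposition.inductionOn 𝒜 with
    | zero => rw [map_zero, map_zero]
    | @homogeneous d m =>
      rw [twist_apply_mem 𝒜 _ m.2, twist_apply_mem 𝒜 _ m.2, conjFam_T, jor_pow _ _ _ _ hpq]
      rfl
    | add a b ha hb => rw [map_add, map_add, Matrix.add_apply, Matrix.add_apply, ha, hb]
  have h4 : ∀ r p q, (p : Fin (2 ^ a)).val ≠ (q : Fin (2 ^ a)).val →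
      twist 𝒜 (oneFam (Fin (2 ^ a))) r p q = 0 := by
    intro r p q hpq
    rw [twist_oneFam, Matrix.scalar_apply, Matrix.diagonal_apply_ne]
    intro h; exact hpq (congrArg Fin.val h)
  rw [Blk_eq_of_upper (fun p : Fin (2 ^ a) => p.val) _ (twist 𝒜 (oneFam (Fin (2 ^ a))))
    h4 h3 g hg] at h2
  have h5 : twist 𝒜 (oneFam (Fin (2 ^ a))) = Matrix.scalar (Fin (2 ^ a)) := by
    ext1 r
    exact twist_oneFam 𝒜 r
  rw [h5] at h2
  exact h2.symm

theorem exists_third (I : Type*) [Nonempty I] (n : ℕ) (hn : 3 ≤ n) (a b : I × Fin n) :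
    ∃ c : I × Fin n, c ≠ a ∧ c ≠ b := by
  obtain ⟨i⟩ := ‹Nonempty I›
  have : ∃ p : Fin n, p ≠ a.2 ∧ p ≠ b.2 := by
    by_contra hcon
    push Not at hcon
    have h1 : (Finset.univ : Finset (Fin n)) ⊆ {a.2, b.2} := by
      intro p _
      rw [Finset.mem_insert, Finset.mem_singleton]
      by_cases hp : p = a.2
      · exact Or.inl hp
      · exact Or.inr (hcon p hp)
    have h2 := Finset.card_le_card h1
    rw [Finset.card_univ, Fintype.card_fin] at h2
    have h3 := Finset.card_le_two (a := a.2) (b := b.2)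
    omega
  obtain ⟨p, h1, h2⟩ := this
  exact ⟨(i, p), fun h => h1 (congrArg Prod.snd h), fun h => h2 (congrArg Prod.snd h)⟩

/-- all copies `i ↦ (i, p)` of an element of the kernel agree -/
theorem mapI_eN_eq [Nonempty I] (g : St I R) (hg : toMat g = 1) (n : ℕ) (hn : 3 ≤ n)
    (p q : Fin n) : mapI (R := R) (eN I p) g = mapI (eN I q) g := by
  obtain ⟨i⟩ := ‹Nonempty I›
  have : Nonempty I := ⟨i⟩
  apply Cen370.mapI_ker_eq (two_eq_zero R) (exists_third I n hn) _ _ _ hg
  have : ∃ c : Fin n, c ≠ p := by
    have : Nontrivial (Fin n) := Fin.nontrivial_iff_two_le.mpr (by omega)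
    exact exists_ne p
  obtain ⟨c, hc⟩ := this
  exact ⟨(i, c), fun j h => hc (congrArg Prod.snd h).symm⟩

/-- the scalar image is a power -/
theorem Blk_scalar_eq_pow [Nonempty I] (g : St I R) (hg : toMat g = 1) (n : ℕ) (hn : 3 ≤ n)
    (p : Fin n) :
    Blk I (Fin n) R (map (Matrix.scalar (Fin n)) g) = mapI (R := R) (eN I p) g ^ n := by
  rw [← Dg_univ, Dg_pow Finset.univ g (mapI (eN I p) g) (fun q => mapI_eN_eq g hg n hn q p),
    Finset.card_univ, Fintype.card_fin]

/-- **C3.** Elements of the kernel with trivial degree-zero part are stably of 2-power order. -/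
theorem two_power_torsion [Nonempty I] (g : St I R) (hg : toMat g = 1)
    (h0 : map (GradedRing.projZeroRingHom 𝒜) g = 1) {D : ℕ} (hD : HW 𝒜 D g)
    (a : ℕ) (ha : 2 * D ≤ 2 ^ a) (ha2 : 2 ≤ a) (p : Fin (2 ^ a)) :
    mapI (R := R) (eN I p) g ^ (2 ^ a) = 1 := by
  have h4 : 3 ≤ 2 ^ a := by
    calc 3 ≤ 2 ^ 2 := by norm_num
      _ ≤ 2 ^ a := Nat.pow_le_pow_right (by norm_num) ha2
  rw [← Blk_scalar_eq_pow g hg (2 ^ a) h4 p]
  exact Blk_scalar_eq_one 𝒜 g hg h0 hD a ha

/-- C3 assuming stability: under injectivity of all `mapI`, the element itself has 2-power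
order. -/
theorem two_power_torsion_of_inj [Nonempty I] (g : St I R) (hg : toMat g = 1)
    (h0 : map (GradedRing.projZeroRingHom 𝒜) g = 1)
    (hinj : ∀ a : ℕ, ∀ p : Fin (2 ^ a), Function.Injective (mapI (R := R) (eN I p))) :
    ∃ a : ℕ, g ^ (2 ^ a) = 1 := by
  obtain ⟨D, hD⟩ := exists_HW 𝒜 g
  have hlt : 2 * D + 2 < 2 ^ (2 * D + 2) := Nat.lt_two_pow_self
  refine ⟨2 * D + 2, ?_⟩
  have hpos : 0 < 2 ^ (2 * D + 2) := by positivity
  have h1 := two_power_torsion 𝒜 g hg h0 hD (2 * D + 2) (by omega) (by omega) ⟨0, hpos⟩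
  rw [← map_pow] at h1
  exact hinj _ _ (h1.trans (map_one _).symm)

end Main

end Crest.Agent.R176.Cover294
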