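import Crest.Agent.R176.StDef

/-! Row 176, part B, block COVER (helper294): unipotent subgroups of the Steinberg group
embed into matrices; normalisation lemmas. -/

set_option autoImplicit false

namespace Crest.Agent.R176.Cover294

open St
open scoped commutatorElement

variable {I R : Type*} [Ring R]

/-- conjugation formula, case `j = k` -/
theorem conj_right (i j l : I) (hij : i ≠ j) (hjl : j ≠ l) (hil : i ≠ l) (r s : R) :
    x i j hij r * x j l hjl s * (x i j hij r)⁻¹ = x i l hil (r * s) * x j l hjl s := by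
  rw [← x_comm i j l hij hjl hil r s, commutatorElement_def]
  group

/-- conjugation formula, case `i = l` -/
theorem conj_left (i j k : I) (hij : i ≠ j) (hki : k ≠ i) (hkj : k ≠ j) (r s : R) :
    x i j hij r * x k i hki s * (x i j hij r)⁻¹ = x k j hkj (-(s * r)) * x k i hki s := by
  rw [x_neg, ← x_comm k i j hki hij hkj s r, commutatorElement_def]
  group

theorem conj_triv (i j k l : I) (hij : i ≠ j) (hkl : k ≠ l) (hjk : j ≠ k) (hil : i ≠ l)
    (r s : R) : x i j hij r * x k l hkl s * (x i j hij r)⁻¹ = x k l hkl s := by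
  have := (x_commute i j k l hij hkl hjk hil r s).eq
  rw [this, mul_assoc, mul_inv_cancel, mul_one]

/-- generators of the subgroup attached to a set of pairs -/
def Gen (R : Type*) [Ring R] (P : I → I → Prop) : Set (St I R) :=
  {g | ∃ i j, ∃ h : i ≠ j, ∃ r, P i j ∧ g = x i j h r}

/-- the subgroup generated by the `x i j h r`, `P i j` -/
def Sub (R : Type*) [Ring R] (P : I → I → Prop) : Subgroup (St I R) :=
  Subgroup.closure (Gen R P)

theorem x_mem_Sub {P : I → I → Prop} {i j : I} (h : i ≠ j) (hP : P i j) (r : R) :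
    x i j h r ∈ Sub R P := Subgroup.subset_closure ⟨i, j, h, r, hP, rfl⟩

theorem Sub_mono {P Q : I → I → Prop} (h : ∀ i j, P i j → Q i j) : Sub R P ≤ Sub R Q := by
  apply Subgroup.closure_mono
  rintro _ ⟨i, j, hij, r, hP, rfl⟩
  exact ⟨i, j, hij, r, h i j hP, rfl⟩

/-- induction by left multiplication with generators -/
theorem Sub_induction {P : I → I → Prop} {p : ∀ g : St I R, g ∈ Sub R P → Prop}
    (h1 : p 1 (Sub R P).one_mem)
    (hx : ∀ i j h r g (hP : P i j) (hg : g ∈ Sub R P), p g hg →
      p (x i j h r * g) ((Sub R P).mul_mem (x_mem_Sub h hP r) hg)) (g : St I R)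
    (hg : g ∈ Sub R P) : p g hg := by
  have hg' : g ∈ Subgroup.closure (Gen R P) := hg
  suffices H : ∃ h : g ∈ Sub R P, p g h from H.2
  induction hg' using Subgroup.closure_induction_left with
  | one => exact ⟨_, h1⟩
  | mul_left a ha b hb ih =>
    obtain ⟨i, j, h, r, hP, rfl⟩ := ha
    obtain ⟨h1, h2⟩ := ih hb
    exact ⟨_, hx i j h r b hP h1 h2⟩
  | inv_mul_cancel a ha b hb ih =>
    obtain ⟨i, j, h, r, hP, rfl⟩ := ha
    obtain ⟨h1, h2⟩ := ih hb
    have h3 := hx i j h (-r) b hP h1 h2
    simp only [x_neg] at h3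
    exact ⟨_, h3⟩

/-- `x i j h r` normalises `Sub P` if `P` is stable -/
theorem conj_mem_Sub {P : I → I → Prop} {i j : I} (hij : i ≠ j)
    (h1 : ∀ k, P j k → i ≠ k ∧ P i k) (h2 : ∀ k, P k i → k ≠ j ∧ P k j) (r : R)
    (g : St I R) (hg : g ∈ Sub R P) : x i j hij r * g * (x i j hij r)⁻¹ ∈ Sub R P := by
  induction g, hg using Sub_induction with
  | h1 => simp
  | hx k l h s g hP hg ih =>
    have e : x i j hij r * (x k l h s * g) * (x i j hij r)⁻¹
        = (x i j hij r * x k l h s * (x i j hij r)⁻¹) * (x i j hij r * g * (x i j hij r)⁻¹) := by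
      group
    rw [e]
    refine (Sub R P).mul_mem ?_ ih
    by_cases hjk : j = k
    · subst hjk
      obtain ⟨hil, hPil⟩ := h1 l hP
      rw [conj_right i j l hij h hil]
      exact (Sub R P).mul_mem (x_mem_Sub _ hPil _) (x_mem_Sub _ hP _)
    · by_cases hil : i = l
      · subst hil
        obtain ⟨hkj, hPkj⟩ := h2 k hP
        rw [conj_left i j k hij h hkj]
        exact (Sub R P).mul_mem (x_mem_Sub _ hPkj _) (x_mem_Sub _ hP _)
      · rw [conj_triv i j k l hij h hjk hil]
        exact x_mem_Sub _ hP _

/-- same, with the inverse on the left -/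
theorem conj_mem_Sub' {P : I → I → Prop} {i j : I} (hij : i ≠ j)
    (h1 : ∀ k, P j k → i ≠ k ∧ P i k) (h2 : ∀ k, P k i → k ≠ j ∧ P k j) (r : R)
    (g : St I R) (hg : g ∈ Sub R P) : (x i j hij r)⁻¹ * g * x i j hij r ∈ Sub R P := by
  have := conj_mem_Sub hij h1 h2 (-r) g hg
  rwa [x_neg, inv_inv] at this

section Mat

variable [Fintype I] [DecidableEq I]

theorem toMat_x_mul_apply (i j : I) (h : i ≠ j) (r : R) (g : St I R) (k l : I) :
    (toMat (x i j h r * g) : Matrix I I R) k l
      = (toMat g : Matrix I I R) k l + (if k = i then r * (toMat g : Matrix I I R) j l else 0) := by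
  rw [map_mul, Units.val_mul, toMat_x, elem_val, add_mul, Matrix.one_mul, Matrix.add_apply]
  congr 1
  by_cases hk : k = i
  · subst hk; simp
  · rw [if_neg hk, Matrix.single_mul_apply_of_ne _ _ _ _ _ hk]

/-- matrices of elements of `Sub P`, `P` a strict order -/
theorem toMat_support {P : I → I → Prop} (htr : ∀ i j k, P i j → P j k → P i k)
    (hirr : ∀ i, ¬ P i i) (g : St I R) (hg : g ∈ Sub R P) :
    (∀ k l, k ≠ l → ¬ P k l → (toMat g : Matrix I I R) k l = 0) ∧
      ∀ k, (toMat g : Matrix I I R) k k = 1 := by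
  induction g, hg using Sub_induction with
  | h1 =>
    rw [map_one, Units.val_one]
    exact ⟨fun k l hkl _ => Matrix.one_apply_ne hkl, fun k => Matrix.one_apply_eq k⟩
  | hx i j h s g hP hg ih =>
    obtain ⟨ih1, ih2⟩ := ih
    constructor
    · intro k l hkl hPkl
      rw [toMat_x_mul_apply, ih1 k l hkl hPkl, zero_add]
      split_ifs with hki
      · subst hki
        have hjl : j ≠ l := by
          rintro rfl
          exact hPkl hP
        rw [ih1 j l hjl (fun hc => hPkl (htr _ _ _ hP hc)), mul_zero]
      · rfl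
    · intro k
      rw [toMat_x_mul_apply, ih2 k]
      split_ifs with hki
      · subst hki
        rw [ih1 j k h.symm (fun hc => hirr _ (htr _ _ _ hP hc)), mul_zero, add_zero]
      · rw [add_zero]

/-- **Unipotent subgroups embed into matrices.** -/
theorem Sub_inj {P : I → I → Prop} (htr : ∀ i j k, P i j → P j k → P i k)
    (hirr : ∀ i, ¬ P i i) (g : St I R) (hg : g ∈ Sub R P) (hM : toMat g = 1) : g = 1 := by
  classical
  obtain ⟨n, hn⟩ : ∃ n, n = (Finset.univ.filter fun p : I × I => P p.1 p.2).card := ⟨_, rfl⟩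
  induction n generalizing P g with
  | zero =>
    have hemp : ∀ i j, ¬ P i j := by
      intro i j hP
      have := Finset.card_eq_zero.mp hn.symm
      have h2 : (i, j) ∈ (Finset.univ.filter fun p : I × I => P p.1 p.2) := by simpa using hP
      rw [this] at h2
      exact absurd h2 (Finset.notMem_empty _)
    have : Sub R P = ⊥ := by
      rw [Sub, Subgroup.closure_eq_bot_iff]
      rintro _ ⟨i, j, h, r, hP, rfl⟩
      exact absurd hP (hemp i j)
    rw [this, Subgroup.mem_bot] at hg
    exact hg
  | succ n ih =>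
    -- choose an indecomposable pair
    have hne : (Finset.univ.filter fun p : I × I => P p.1 p.2).Nonempty := by
      rw [← Finset.card_pos, ← hn]; exact Nat.succ_pos n
    obtain ⟨⟨a, b⟩, hab, hmin⟩ := Finset.exists_min_image _
      (fun p : I × I => (Finset.univ.filter fun c => P p.1 c ∧ P c p.2).card) hne
    rw [Finset.mem_filter] at hab
    have hPab : P a b := hab.2
    have hindec : ∀ c, P a c → ¬ P c b := by
      intro c hac hcb
      have h1 := hmin (a, c) (by simpa using hac)
      have h2 : (Finset.univ.filter fun d => P a d ∧ P d c) ⊂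
          (Finset.univ.filter fun d => P a d ∧ P d b) := by
        rw [Finset.ssubset_iff_of_subset]
        · refine ⟨c, by simpa using ⟨hac, hcb⟩, ?_⟩
          simp only [Finset.mem_filter, Finset.mem_univ, true_and, not_and]
          exact fun _ => hirr c
        · intro d hd
          simp only [Finset.mem_filter, Finset.mem_univ, true_and] at hd ⊢
          exact ⟨hd.1, htr _ _ _ hd.2 hcb⟩
      exact absurd h1 (not_le.mpr (Finset.card_lt_card h2))
    have hane : a ≠ b := by
      rintro rfl
      exact hirr a hPab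
    let P' : I → I → Prop := fun i j => P i j ∧ ¬ (i = a ∧ j = b)
    have htr' : ∀ i j k, P' i j → P' j k → P' i k := by
      rintro i j k ⟨h1, _⟩ ⟨h3, _⟩
      refine ⟨htr _ _ _ h1 h3, ?_⟩
      rintro ⟨rfl, rfl⟩
      exact hindec j h1 h3
    have hirr' : ∀ i, ¬ P' i i := fun i h => hirr i h.1
    have hle : Sub R P' ≤ Sub R P := Sub_mono fun i j h => h.1
    -- decomposition
    have hdec : ∃ r : R, ∃ v ∈ Sub R P', g = x a b hane r * v := by
      clear hM
      induction g, hg using Sub_induction with
      | h1 => exact ⟨0, 1, (Sub R P').one_mem, by rw [x_zero, one_mul]⟩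
      | hx i j h s g hP hg ihg =>
        obtain ⟨r, v, hv, rfl⟩ := ihg
        by_cases hcase : i = a ∧ j = b
        · obtain ⟨rfl, rfl⟩ := hcase
          exact ⟨s + r, v, hv, by rw [x_add]; group⟩
        · refine ⟨r, ((x a b hane r)⁻¹ * x i j h s * x a b hane r) * v, ?_, by group⟩
          refine (Sub R P').mul_mem ?_ hv
          apply conj_mem_Sub' hane _ _ r _ (x_mem_Sub h ⟨hP, hcase⟩ s)
          · rintro k ⟨hbk, _⟩
            have hak := htr _ _ _ hPab hbk
            refine ⟨?_, hak, ?_⟩
            · rintro rfl; exact hirr _ hak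
            · rintro ⟨_, rfl⟩; exact hirr _ hbk
          · rintro k ⟨hka, _⟩
            have hkb := htr _ _ _ hka hPab
            refine ⟨?_, hkb, ?_⟩
            · rintro rfl; exact hirr _ hkb
            · rintro ⟨rfl, _⟩; exact hirr _ hka
    obtain ⟨r, v, hv, rfl⟩ := hdec
    obtain ⟨hs1, hs2⟩ := toMat_support htr' hirr' v hv
    have hr : r = 0 := by
      have h1 := toMat_x_mul_apply a b hane r v a b
      rw [hM, Units.val_one, Matrix.one_apply_ne hane, if_pos rfl, hs2 b, mul_one,
        hs1 a b hane (fun h => h.2 ⟨rfl, rfl⟩), zero_add] at h1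
      exact h1.symm
    subst hr
    rw [x_zero, one_mul] at hM ⊢
    apply ih htr' hirr' v hv hM
    have h3 : (Finset.univ.filter fun p : I × I => P' p.1 p.2)
        = (Finset.univ.filter fun p : I × I => P p.1 p.2).erase (a, b) := by
      ext ⟨i, j⟩
      simp only [P', Finset.mem_filter, Finset.mem_univ, true_and, Finset.mem_erase, ne_eq,
        Prod.mk.injEq]
      tauto
    have h4 := congrArg Finset.card h3
    rw [Finset.card_erase_of_mem (by simpa using hPab), ← hn, Nat.add_sub_cancel] at h4
    convert h4.symm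

/-- Two elements of a unipotent subgroup with the same matrix are equal. -/
theorem Sub_inj' {P : I → I → Prop} (htr : ∀ i j k, P i j → P j k → P i k)
    (hirr : ∀ i, ¬ P i i) (g h : St I R) (hg : g ∈ Sub R P) (hh : h ∈ Sub R P)
    (hM : toMat g = toMat h) : g = h := by
  have := Sub_inj htr hirr (g * h⁻¹) ((Sub R P).mul_mem hg ((Sub R P).inv_mem hh))
    (by rw [map_mul, map_inv, hM, mul_inv_cancel])
  exact mul_inv_eq_one.mp this

end Mat

end Crest.Agent.R176.Cover294
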