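import Crest.Agent.R176.Cover294Gr

/-! Row 176, part B, block COVER (helper294): if two ring homs `f, f₀ : R →+* Matrix N N S`
differ by strictly upper triangular matrices and `f₀` is diagonal then they induce the same map
on `K₂`. -/

set_option autoImplicit false

namespace Crest.Agent.R176.Cover294

open St
open scoped commutatorElement

variable {I N R S : Type*} [Ring R] [Ring S] [Fintype N] [DecidableEq N]

/-- the strictly upper relation -/
def Upp (I : Type*) {N : Type*} (pos : N → ℕ) : I × N → I × N → Prop := fun s t => pos s.2 < pos t.2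

omit [Fintype N] [DecidableEq N] in
theorem x_mem_normalizer_Upp (pos : N → ℕ) (i j : I) (h : i ≠ j) (p q : N) (hpq : pos p = pos q)
    (r : S) : x (i, p) (j, q) (pne h _ _) r ∈ Subgroup.normalizer (Sub S (Upp I pos)) := by
  have h1 : ∀ k, Upp I pos (j, q) k → (i, p) ≠ k ∧ Upp I pos (i, p) k := by
    intro k hk
    have hk' : pos q < pos k.2 := hk
    refine ⟨?_, ?_⟩
    · rintro rfl
      change pos q < pos p at hk'
      omega
    · change pos p < pos k.2
      omega
  have h2 : ∀ k, Upp I pos k (i, p) → k ≠ (j, q) ∧ Upp I pos k (j, q) := by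
    intro k hk
    have hk' : pos k.2 < pos p := hk
    refine ⟨?_, ?_⟩
    · rintro rfl
      change pos q < pos p at hk'
      omega
    · change pos k.2 < pos q
      omega
  rw [Subgroup.mem_normalizer_iff]
  intro g
  constructor
  · intro hg
    exact conj_mem_Sub _ h1 h2 r g hg
  · intro hg
    have := conj_mem_Sub' (pne h p q) h1 h2 r _ hg
    have e : (x (i, p) (j, q) (pne h p q) r)⁻¹ * (x (i, p) (j, q) (pne h p q) r * g *
      (x (i, p) (j, q) (pne h p q) r)⁻¹) * x (i, p) (j, q) (pne h p q) r = g := by group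
    rwa [e] at this

theorem Blk_diag_mem_normalizer (pos : N → ℕ) (f₀ : R →+* Matrix N N S)
    (h0 : ∀ r p q, pos p ≠ pos q → f₀ r p q = 0) (g : St I R) :
    Blk I N S (map f₀ g) ∈ Subgroup.normalizer (Sub S (Upp I pos)) := by
  induction g using St.induction with
  | h1 => rw [map_one, map_one]; exact Subgroup.one_mem _
  | hx i j h r g ih =>
    rw [map_mul, map_mul, map_x, Blk_x]
    refine Subgroup.mul_mem _ ?_ ih
    apply blk_mem
    intro p q hpq
    refine x_mem_normalizer_Upp pos i j h p q ?_ _
    by_contra hne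
    exact hpq (h0 r p q hne)

theorem conj_normalizer {G : Type*} [Group G] {H : Subgroup G} {a b : G}
    (ha : a ∈ Subgroup.normalizer (H : Set G)) (hb : b ∈ H) : a⁻¹ * b * a ∈ H := by
  have h1 := (Subgroup.normalizer (H : Set G)).inv_mem ha
  rw [Subgroup.mem_normalizer_iff] at h1
  have := (h1 b).mp hb
  rwa [inv_inv] at this

/-- structural part: the difference lies in the strictly upper unipotent group -/
theorem Blk_upper (pos : N → ℕ) (f f₀ : R →+* Matrix N N S)
    (h0 : ∀ r p q, pos p ≠ pos q → f₀ r p q = 0)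
    (h1 : ∀ r p q, ¬ pos p < pos q → f r p q = f₀ r p q) (g : St I R) :
    ∃ v ∈ Sub S (Upp I pos), Blk I N S (map f g) = Blk I N S (map f₀ g) * v := by
  induction g using St.induction with
  | h1 => exact ⟨1, Subgroup.one_mem _, by simp⟩
  | hx i j h r g ih =>
    obtain ⟨v, hv, e⟩ := ih
    rw [map_mul, map_mul, map_x, Blk_x, map_mul, map_mul, map_x, Blk_x]
    have hu : blk i j h (f r - f₀ r) ∈ Sub S (Upp I pos) := by
      apply blk_mem
      intro p q hpq
      apply x_mem_Sub
      by_contra hne
      apply hpq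
      rw [Matrix.sub_apply, h1 r p q hne, sub_self]
    have e2 : blk i j h (f r) = blk i j h (f₀ r) * blk i j h (f r - f₀ r) := by
      rw [← blk_add, add_sub_cancel]
    have hn := Blk_diag_mem_normalizer pos f₀ h0 g
    refine ⟨((Blk I N S (map f₀ g))⁻¹ * blk i j h (f r - f₀ r) * Blk I N S (map f₀ g)) * v,
      Subgroup.mul_mem _ (conj_normalizer hn hu) hv, ?_⟩
    rw [e2, e]
    group

/-- **Lemma U.** -/
theorem Blk_eq_of_upper [Fintype I] [DecidableEq I] (pos : N → ℕ) (f f₀ : R →+* Matrix N N S)
    (h0 : ∀ r p q, pos p ≠ pos q → f₀ r p q = 0)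
    (h1 : ∀ r p q, ¬ pos p < pos q → f r p q = f₀ r p q) (g : St I R) (hg : toMat g = 1) :
    Blk I N S (map f g) = Blk I N S (map f₀ g) := by
  obtain ⟨v, hv, e⟩ := Blk_upper pos f f₀ h0 h1 g
  have hv1 : toMat v = 1 := by
    have h2 := toMat_Blk_eq_one (map f g) (toMat_map_eq_one f g hg)
    rw [e, map_mul, toMat_Blk_eq_one (map f₀ g) (toMat_map_eq_one f₀ g hg), one_mul] at h2
    exact h2
  have : v = 1 := by
    apply Sub_inj (P := Upp I pos) _ _ v hv hv1
    · intro i j k hij hjk
      exact lt_trans (α := ℕ) hij hjk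
    · intro i hi
      exact lt_irrefl (α := ℕ) _ hi
  rw [e, this, mul_one]

end Crest.Agent.R176.Cover294
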