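import Mathlib

/-!
# R176, block (7b): the abstract cut lemma (helper660)

Let `A` be a `k`-algebra generated by letters `ι x`, `Ω` a set of letters.  A *segment* is a word
`ω :: v` with `ω ∈ Ω` and no letter of `v` in `Ω`.  Suppose (LEN) long words without a letter of
`Ω` vanish, and (KEY) for every segment `s` there is `a' ∈ A12'` (a submodule of another algebra
`A'`, `Φ : A' → A`) with `s₁ s s₂ = s₁ Φ(a') s₂` for all segments `s₁, s₂`.  Then `1 - B` is a unit
for every matrix `B` of size `n` whose entries are linear combinations of words of length `1`, `2`,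
provided `1 - B'` is a unit for all matrices `B'` with entries in `A12'`, of size `n * (1 + |Ω|)`.
Main result: `cut_lemma`.
-/

set_option autoImplicit false

namespace Crest.Agent.R176.Cut660

open Matrix Submodule

section units

variable {A : Type*} [Ring A]

/-- rectangular version of `1 - x y` unit iff `1 - y x` unit. -/
theorem isUnit_one_sub_mul_rect {F H : Type*} [Fintype F] [DecidableEq F] [Fintype H]
    [DecidableEq H] (X : Matrix F H A) (Y : Matrix H F A) (h : IsUnit (1 - Y * X)) :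
    IsUnit (1 - X * Y) := by
  obtain ⟨u, hu⟩ := h
  have h1 : (1 - Y * X) * (↑(u⁻¹) : Matrix H H A) = 1 := by rw [← hu]; simp
  have h2 : (↑(u⁻¹) : Matrix H H A) * (1 - Y * X) = 1 := by rw [← hu]; simp
  set U : Matrix H H A := ↑(u⁻¹) with hU
  have e1 : Y * X * U = U - 1 := by
    rw [Matrix.sub_mul, Matrix.one_mul] at h1
    rw [← h1]; abel
  have e2 : U * (Y * X) = U - 1 := by
    rw [Matrix.mul_sub, Matrix.mul_one] at h2
    rw [← h2]; abel
  refine ⟨⟨1 - X * Y, 1 + X * U * Y, ?_, ?_⟩, rfl⟩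
  · have : X * Y * (X * U * Y) = X * (U - 1) * Y := by
      rw [← e1]; simp only [Matrix.mul_assoc]
    rw [Matrix.sub_mul, Matrix.one_mul, Matrix.mul_add, Matrix.mul_one, this, Matrix.mul_sub,
      Matrix.sub_mul, Matrix.mul_one]
    abel
  · have : X * U * Y * (X * Y) = X * (U - 1) * Y := by
      rw [← e2]; simp only [Matrix.mul_assoc]
    rw [Matrix.mul_sub, Matrix.mul_one, Matrix.add_mul, Matrix.one_mul, this, Matrix.mul_sub,
      Matrix.sub_mul, Matrix.mul_one]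
    abel

/-- Schur complement: `1 - a - b c` is a unit as soon as the block matrix is. -/
theorem isUnit_schur {n m : Type*} [Fintype n] [DecidableEq n] [Fintype m] [DecidableEq m]
    (a : Matrix n n A) (b : Matrix n m A) (c : Matrix m n A)
    (h : IsUnit (1 - fromBlocks a b c 0)) : IsUnit (1 - (a + b * c)) := by
  obtain ⟨u, hu⟩ := h
  have h1 : (1 - fromBlocks a b c 0) * (↑(u⁻¹) : Matrix (n ⊕ m) (n ⊕ m) A) = 1 := by
    rw [← hu]; simp
  have h2 : (↑(u⁻¹) : Matrix (n ⊕ m) (n ⊕ m) A) * (1 - fromBlocks a b c 0) = 1 := by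
    rw [← hu]; simp
  have key : (1 : Matrix (n ⊕ m) (n ⊕ m) A) - fromBlocks a b c 0 =
      fromBlocks (1 - a) (-b) (-c) 1 := by
    rw [← fromBlocks_one, sub_eq_add_neg, fromBlocks_neg, fromBlocks_add]
    simp [sub_eq_add_neg]
  rw [key] at h1 h2
  set U : Matrix (n ⊕ m) (n ⊕ m) A := ↑(u⁻¹) with hU
  rw [← fromBlocks_toBlocks U, fromBlocks_multiply, ← fromBlocks_one, fromBlocks_inj] at h1 h2
  obtain ⟨h11, -, h13, -⟩ := h1
  obtain ⟨g11, g12, -, -⟩ := h2
  have e21 : U.toBlocks₂₁ = c * U.toBlocks₁₁ := by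
    rw [Matrix.one_mul, Matrix.neg_mul] at h13
    exact (neg_add_eq_zero.mp h13).symm
  have e12 : U.toBlocks₁₂ = U.toBlocks₁₁ * b := by
    rw [Matrix.mul_one, Matrix.mul_neg] at g12
    exact (neg_add_eq_zero.mp g12).symm
  refine ⟨⟨1 - (a + b * c), U.toBlocks₁₁, ?_, ?_⟩, rfl⟩
  · have : (1 - (a + b * c)) * U.toBlocks₁₁ = (1 - a) * U.toBlocks₁₁ + -b * (c * U.toBlocks₁₁) := by
      simp only [Matrix.sub_mul, Matrix.add_mul, Matrix.neg_mul, Matrix.mul_assoc, Matrix.one_mul]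
      abel
    rw [this, ← e21, h11]
  · have : U.toBlocks₁₁ * (1 - (a + b * c)) = U.toBlocks₁₁ * (1 - a) + (U.toBlocks₁₁ * b) * -c := by
      simp only [Matrix.mul_sub, Matrix.mul_add, Matrix.mul_neg, Matrix.mul_assoc, Matrix.mul_one]
      abel
    rw [this, ← e12, g11]

/-- the sandwich lemma: `D = V + G`, and `G` is killed inside. -/
theorem isUnit_sandwich (D V : A) (h1 : D * (D - V) * D = 0) (h2 : D * (D - V) * V = 0)
    (h3 : V * (D - V) * D = 0) (hV : IsUnit (1 - V)) : IsUnit (1 - D) := by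
  obtain ⟨u, hu⟩ := hV
  set U : A := ↑(u⁻¹) with hU
  have e1 : (1 - V) * U = 1 := by rw [← hu]; simp [hU]
  have e2 : U * (1 - V) = 1 := by rw [← hu]; simp [hU]
  have f1 : U = 1 + V * U := by
    have : U - V * U = 1 := by rw [← e1]; noncomm_ring
    rw [← this]; noncomm_ring
  have f2 : U = 1 + U * V := by
    have : U - U * V = 1 := by rw [← e2]; noncomm_ring
    rw [← this]; noncomm_ring
  have g1 : D * (D - V) * U * D = 0 := by
    calc D * (D - V) * U * D = D * (D - V) * (1 + V * U) * D := by rw [← f1]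
      _ = D * (D - V) * D + (D * (D - V) * V) * U * D := by noncomm_ring
      _ = 0 := by rw [h1, h2]; simp
  have g2 : D * U * (D - V) * D = 0 := by
    calc D * U * (D - V) * D = D * (1 + U * V) * (D - V) * D := by rw [← f2]
      _ = D * (D - V) * D + D * U * (V * (D - V) * D) := by noncomm_ring
      _ = 0 := by rw [h1, h3]; simp
  refine ⟨⟨1 - D, 1 + D + D * U * D, ?_, ?_⟩, rfl⟩
  · have : D * D * U * D = D * (U - 1) * D := by
      have : D * D * U * D = D * (V * U) * D + D * (D - V) * U * D := by noncomm_ring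
      rw [this, g1, add_zero]
      congr 2
      rw [eq_sub_iff_add_eq, add_comm]; exact f1.symm
    calc (1 - D) * (1 + D + D * U * D) = 1 - D * D + D * U * D - D * D * U * D := by noncomm_ring
      _ = 1 := by rw [this]; noncomm_ring
  · have : D * U * D * D = D * (U - 1) * D := by
      have : D * U * D * D = D * (U * V) * D + D * U * (D - V) * D := by noncomm_ring
      rw [this, g2, add_zero]
      congr 2
      rw [eq_sub_iff_add_eq, add_comm]; exact f2.symm
    calc (1 + D + D * U * D) * (1 - D) = 1 - D * D + D * U * D - D * U * D * D := by noncomm_ring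
      _ = 1 := by rw [this]; noncomm_ring

end units

section words

variable {k A L : Type*} [CommRing k] [Ring A] [Algebra k A]

/-- value of a word -/
def ev (ι : L → A) (w : List L) : A := (w.map ι).prod

@[simp] theorem ev_nil (ι : L → A) : ev ι [] = 1 := rfl

@[simp] theorem ev_cons (ι : L → A) (x : L) (w : List L) : ev ι (x :: w) = ι x * ev ι w := by
  simp [ev]

theorem ev_append (ι : L → A) (v w : List L) : ev ι (v ++ w) = ev ι v * ev ι w := by
  simp [ev]

variable (k) in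
/-- span of the words of length `j` without a letter in `Ω` -/
def Wj (ι : L → A) (Ω : L → Prop) (j : ℕ) : Submodule k A :=
  span k {a | ∃ v : List L, v.length = j ∧ (∀ x ∈ v, ¬ Ω x) ∧ a = ev ι v}

variable (k) in
/-- span of all words without a letter in `Ω` -/
def Wo (ι : L → A) (Ω : L → Prop) : Submodule k A :=
  span k {a | ∃ v : List L, (∀ x ∈ v, ¬ Ω x) ∧ a = ev ι v}

variable (k) in
/-- span of the segments -/
def Seg (ι : L → A) (Ω : L → Prop) : Submodule k A :=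
  span k {a | ∃ (ω : L) (v : List L), Ω ω ∧ (∀ x ∈ v, ¬ Ω x) ∧ a = ev ι (ω :: v)}

theorem Wj_le_Wo (ι : L → A) (Ω : L → Prop) (j : ℕ) : Wj k ι Ω j ≤ Wo k ι Ω := by
  apply span_mono
  rintro a ⟨v, -, h, rfl⟩
  exact ⟨v, h, rfl⟩

theorem one_mem_Wo (ι : L → A) (Ω : L → Prop) : (1 : A) ∈ Wo k ι Ω :=
  subset_span ⟨[], by simp, by simp⟩

theorem Wj_mul (ι : L → A) (Ω : L → Prop) (i j : ℕ) {a b : A} (ha : a ∈ Wj k ι Ω i)
    (hb : b ∈ Wj k ι Ω j) : a * b ∈ Wj k ι Ω (i + j) := by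
  have h : Wj k ι Ω i * Wj k ι Ω j ≤ Wj k ι Ω (i + j) := by
    rw [Wj, Wj, span_mul_span, span_le]
    rintro _ ⟨_, ⟨v, hv, hv', rfl⟩, _, ⟨w, hw, hw', rfl⟩, rfl⟩
    refine subset_span ⟨v ++ w, by simp [hv, hw], ?_, (ev_append _ _ _).symm⟩
    intro x hx
    rcases List.mem_append.1 hx with h | h
    · exact hv' x h
    · exact hw' x h
  exact h (mul_mem_mul ha hb)

theorem Wo_mul (ι : L → A) (Ω : L → Prop) {a b : A} (ha : a ∈ Wo k ι Ω)
    (hb : b ∈ Wo k ι Ω) : a * b ∈ Wo k ι Ω := by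
  have h : Wo k ι Ω * Wo k ι Ω ≤ Wo k ι Ω := by
    rw [Wo, span_mul_span, span_le]
    rintro _ ⟨_, ⟨v, hv', rfl⟩, _, ⟨w, hw', rfl⟩, rfl⟩
    refine subset_span ⟨v ++ w, ?_, (ev_append _ _ _).symm⟩
    intro x hx
    rcases List.mem_append.1 hx with h | h
    · exact hv' x h
    · exact hw' x h
  exact h (mul_mem_mul ha hb)

theorem span_mul_Wo (ι : L → A) (Ω : L → Prop) {a b : A} (ha : a ∈ span k (ι '' {x | Ω x}))
    (hb : b ∈ Wo k ι Ω) : a * b ∈ Seg k ι Ω := by
  have h : span k (ι '' {x | Ω x}) * Wo k ι Ω ≤ Seg k ι Ω := by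
    rw [Wo, span_mul_span, span_le]
    rintro _ ⟨_, ⟨x, hx, rfl⟩, _, ⟨w, hw', rfl⟩, rfl⟩
    exact subset_span ⟨x, w, hx, hw', by simp⟩
  exact h (mul_mem_mul ha hb)

/-- powers of a matrix with entries in `W_1` have entries in `W_j`. -/
theorem pow_mem_Wj {F : Type*} [Fintype F] [DecidableEq F] (ι : L → A) (Ω : L → Prop)
    (R : Matrix F F A) (hR : ∀ i j, R i j ∈ Wj k ι Ω 1) (m : ℕ) :
    ∀ i j, (R ^ m) i j ∈ Wj k ι Ω m := by
  induction m with
  | zero =>
    intro i j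
    rw [pow_zero, Matrix.one_apply]
    split_ifs
    · exact subset_span ⟨[], rfl, by simp, by simp⟩
    · exact zero_mem _
  | succ m ih =>
    intro i j
    rw [pow_succ, Matrix.mul_apply]
    exact sum_mem fun l _ => Wj_mul ι Ω m 1 (ih i l) (hR l j)

theorem Wj_eq_bot (ι : L → A) (Ω : L → Prop) (N : ℕ)
    (hlen : ∀ w : List L, N ≤ w.length → (∀ x ∈ w, ¬ Ω x) → ev ι w = 0) (j : ℕ) (hj : N ≤ j) :
    Wj k ι Ω j = ⊥ := by
  rw [Wj, span_eq_bot]
  rintro a ⟨v, hv, hv', rfl⟩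
  exact hlen v (hv ▸ hj) hv'

theorem span_image_le_Wj (ι : L → A) (Ω : L → Prop) :
    span k (ι '' {x | ¬ Ω x}) ≤ Wj k ι Ω 1 := by
  apply span_mono
  rintro _ ⟨x, hx, rfl⟩
  exact ⟨[x], rfl, by simpa using hx, by simp⟩

/-- every element of the span of the letters splits. -/
theorem exists_split (ι : L → A) (Ω : L → Prop) (a : A) (ha : a ∈ span k (Set.range ι)) :
    ∃ a₁ ∈ span k (ι '' {x | Ω x}), ∃ a₂ ∈ span k (ι '' {x | ¬ Ω x}), a₁ + a₂ = a := by
  rw [← mem_sup, ← span_union, ← Set.image_union]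
  have : ({x | Ω x} ∪ {x | ¬ Ω x} : Set L) = Set.univ := by
    ext x; simp [em]
  rwa [this, Set.image_univ]

end words

section main

variable {k A A' L : Type*} [CommRing k] [Ring A] [Algebra k A] [Ring A'] [Algebra k A']

/-- elements of degree two are `∑ y, b y * ι y`. -/
theorem exists_deg_two [Fintype L] (ι : L → A) (q : A)
    (hq : q ∈ span k (Set.range ι) * span k (Set.range ι)) :
    ∃ b : L → A, (∀ y, b y ∈ span k (Set.range ι)) ∧ q = ∑ y, b y * ι y := by
  induction hq using Submodule.mul_induction_on' with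
  | mem_mul_mem m hm n hn =>
    obtain ⟨c, hc⟩ := (mem_span_range_iff_exists_fun k).1 hn
    refine ⟨fun y => c y • m, fun y => Submodule.smul_mem _ _ hm, ?_⟩
    rw [← hc, Finset.mul_sum]
    refine Finset.sum_congr rfl fun y _ => ?_
    rw [smul_mul_assoc, mul_smul_comm]
  | add x _ y _ hx hy =>
    obtain ⟨b, hb, rfl⟩ := hx
    obtain ⟨b', hb', rfl⟩ := hy
    refine ⟨fun y => b y + b' y, fun y => add_mem (hb y) (hb' y), ?_⟩
    rw [← Finset.sum_add_distrib]
    exact Finset.sum_congr rfl fun y _ => (add_mul _ _ _).symm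

/-- a matrix `D` with entries in the span of the segments is invertible after `1 -`. -/
theorem isUnit_of_seg (ι : L → A) (Ω : L → Prop)
    (Φ : A' →ₐ[k] A) (A12' : Submodule k A')
    (hΦ : ∀ a' ∈ A12', Φ a' ∈ Seg k ι Ω ⊔ Seg k ι Ω * Seg k ι Ω)
    (hseg : ∀ (ω : L) (v : List L), Ω ω → (∀ x ∈ v, ¬ Ω x) → ∃ a' ∈ A12',
      ∀ (ω₁ : L) (v₁ : List L) (ω₂ : L) (v₂ : List L), Ω ω₁ → (∀ x ∈ v₁, ¬ Ω x) → Ω ω₂ →
        (∀ x ∈ v₂, ¬ Ω x) →
        ev ι (ω₁ :: v₁) * ev ι (ω :: v) * ev ι (ω₂ :: v₂) =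
          ev ι (ω₁ :: v₁) * Φ a' * ev ι (ω₂ :: v₂))
    {H : Type*} [Fintype H] [DecidableEq H]
    (hQ : ∀ B' : Matrix H H A', (∀ i j, B' i j ∈ A12') → IsUnit (1 - B'))
    (D : Matrix H H A) (hD : ∀ i j, D i j ∈ Seg k ι Ω) : IsUnit (1 - D) := by
  classical
  let Gset : Submodule k A :=
    { carrier := {g | ∀ s₁ ∈ Seg k ι Ω, ∀ s₂ ∈ Seg k ι Ω, s₁ * g * s₂ = 0}
      zero_mem' := by intro s₁ _ s₂ _; simp
      add_mem' := by
        intro a b ha hb s₁ h₁ s₂ h₂
        rw [mul_add, add_mul, ha s₁ h₁ s₂ h₂, hb s₁ h₁ s₂ h₂, add_zero]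
      smul_mem' := by
        intro c a ha s₁ h₁ s₂ h₂
        rw [mul_smul_comm, smul_mul_assoc, ha s₁ h₁ s₂ h₂, smul_zero] }
  have hG : ∀ g : A, (∀ (ω₁ : L) (v₁ : List L) (ω₂ : L) (v₂ : List L), Ω ω₁ → (∀ x ∈ v₁, ¬ Ω x) →
      Ω ω₂ → (∀ x ∈ v₂, ¬ Ω x) → ev ι (ω₁ :: v₁) * g * ev ι (ω₂ :: v₂) = 0) → g ∈ Gset := by
    intro g hg s₁ h₁ s₂ h₂
    induction h₁ using span_induction with
    | zero => simp
    | add a b _ _ ha hb => rw [add_mul, add_mul, ha, hb, add_zero]
    | smul c a _ ha => rw [smul_mul_assoc, smul_mul_assoc, ha, smul_zero]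
    | mem a ha =>
      obtain ⟨ω₁, v₁, a1, a2, rfl⟩ := ha
      induction h₂ using span_induction with
      | zero => simp
      | add a b _ _ ha hb => rw [mul_add, ha, hb, add_zero]
      | smul c a _ ha => rw [mul_smul_comm, ha, smul_zero]
      | mem a ha =>
        obtain ⟨ω₂, v₂, b1, b2, rfl⟩ := ha
        exact hg _ _ _ _ a1 a2 b1 b2
  have hdec : ∀ s ∈ Seg k ι Ω, ∃ a' ∈ A12', s - Φ a' ∈ Gset := by
    intro s hs
    induction hs using span_induction with
    | zero => exact ⟨0, zero_mem _, by simp⟩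
    | add a b _ _ ha hb =>
      obtain ⟨a', h1, h2⟩ := ha
      obtain ⟨b', h3, h4⟩ := hb
      refine ⟨a' + b', add_mem h1 h3, ?_⟩
      rw [map_add, add_sub_add_comm]
      exact add_mem h2 h4
    | smul c a _ ha =>
      obtain ⟨a', h1, h2⟩ := ha
      refine ⟨c • a', Submodule.smul_mem _ _ h1, ?_⟩
      rw [map_smul, ← smul_sub]
      exact Submodule.smul_mem _ _ h2
    | mem a ha =>
      obtain ⟨ω, v, a1, a2, rfl⟩ := ha
      obtain ⟨a', h1, h2⟩ := hseg ω v a1 a2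
      refine ⟨a', h1, hG _ ?_⟩
      intro ω₁ v₁ ω₂ v₂ b1 b2 b3 b4
      rw [mul_sub, sub_mul, h2 ω₁ v₁ ω₂ v₂ b1 b2 b3 b4, sub_self]
  -- killing by elements of `Seg + Seg * Seg`
  have hkillL : ∀ t ∈ Seg k ι Ω ⊔ Seg k ι Ω * Seg k ι Ω, ∀ g ∈ Gset, ∀ s ∈ Seg k ι Ω,
      t * g * s = 0 := by
    intro t ht g hg s hs
    obtain ⟨t1, ht1, t2, ht2, rfl⟩ := mem_sup.1 ht
    rw [add_mul, add_mul, hg t1 ht1 s hs, zero_add]
    clear ht
    induction ht2 using Submodule.mul_induction_on' with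
    | mem_mul_mem m _ n hn => rw [mul_assoc m n g, mul_assoc, hg n hn s hs, mul_zero]
    | add x _ y _ hx hy => rw [add_mul, add_mul, hx, hy, add_zero]
  have hkillR : ∀ t ∈ Seg k ι Ω ⊔ Seg k ι Ω * Seg k ι Ω, ∀ g ∈ Gset, ∀ s ∈ Seg k ι Ω,
      s * g * t = 0 := by
    intro t ht g hg s hs
    obtain ⟨t1, ht1, t2, ht2, rfl⟩ := mem_sup.1 ht
    rw [mul_add, hg s hs t1 ht1, zero_add]
    clear ht
    induction ht2 using Submodule.mul_induction_on' with
    | mem_mul_mem m hm n _ => rw [← mul_assoc, hg s hs m hm, zero_mul]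
    | add x _ y _ hx hy => rw [mul_add, hx, hy, add_zero]
  have hdec' := fun i j => hdec (D i j) (hD i j)
  choose B' hB'1 hB'3 using hdec'
  have hV : IsUnit (1 - (Matrix.of B').map Φ) := by
    have := (hQ (Matrix.of B') hB'1).map (RingHom.mapMatrix (m := H) (Φ : A' →+* A))
    rw [map_sub, map_one] at this
    exact this
  have hent : ∀ (X Z : Matrix H H A), (∀ i m l j, X i m * (D m l - Φ (B' m l)) * Z l j = 0) →
      X * (D - (Matrix.of B').map Φ) * Z = 0 := by
    intro X Z h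
    ext i j
    rw [Matrix.mul_apply, Matrix.zero_apply]
    refine Finset.sum_eq_zero fun l _ => ?_
    rw [Matrix.mul_apply, Finset.sum_mul]
    refine Finset.sum_eq_zero fun m _ => ?_
    exact h i m l j
  refine isUnit_sandwich D ((Matrix.of B').map Φ) (hent D D ?_) (hent D _ ?_) (hent _ D ?_) hV
  · intro i m l j
    exact hB'3 m l _ (hD i m) _ (hD l j)
  · intro i m l j
    exact hkillR _ (hΦ _ (hB'1 l j)) _ (hB'3 m l) _ (hD i m)
  · intro i m l j
    exact hkillL _ (hΦ _ (hB'1 i m)) _ (hB'3 m l) _ (hD l j)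

/-- **Abstract cut lemma.** -/
theorem cut_lemma [Fintype L] [DecidableEq L] (ι : L → A) (Ω : L → Prop) [DecidablePred Ω]
    (Φ : A' →ₐ[k] A) (A12' : Submodule k A')
    (hlen : ∃ N, ∀ w : List L, N ≤ w.length → (∀ x ∈ w, ¬ Ω x) → ev ι w = 0)
    (hΦ : ∀ a' ∈ A12', Φ a' ∈ Seg k ι Ω ⊔ Seg k ι Ω * Seg k ι Ω)
    (hseg : ∀ (ω : L) (v : List L), Ω ω → (∀ x ∈ v, ¬ Ω x) → ∃ a' ∈ A12',
      ∀ (ω₁ : L) (v₁ : List L) (ω₂ : L) (v₂ : List L), Ω ω₁ → (∀ x ∈ v₁, ¬ Ω x) → Ω ω₂ →
        (∀ x ∈ v₂, ¬ Ω x) →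
        ev ι (ω₁ :: v₁) * ev ι (ω :: v) * ev ι (ω₂ :: v₂) =
          ev ι (ω₁ :: v₁) * Φ a' * ev ι (ω₂ :: v₂))
    {n : Type*} [Fintype n] [DecidableEq n]
    (hQ : ∀ B' : Matrix (n ⊕ n × {x // Ω x}) (n ⊕ n × {x // Ω x}) A',
      (∀ i j, B' i j ∈ A12') → IsUnit (1 - B'))
    (B : Matrix n n A)
    (hB : ∀ i j, B i j ∈ span k (Set.range ι) ⊔ span k (Set.range ι) * span k (Set.range ι)) :
    IsUnit (1 - B) := by
  classical
  obtain ⟨N, hN⟩ := hlen
  -- decompose the entries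
  have h1 : ∀ i j, ∃ a ∈ span k (Set.range ι), ∃ b : L → A, (∀ y, b y ∈ span k (Set.range ι)) ∧
      B i j = a + ∑ y, b y * ι y := by
    intro i j
    obtain ⟨a, ha, q, hq, haq⟩ := mem_sup.1 (hB i j)
    obtain ⟨b, hb, rfl⟩ := exists_deg_two ι q hq
    exact ⟨a, ha, b, hb, haq.symm⟩
  choose a ha b hb hab using h1
  -- split into `Ω` and the rest
  have h2 : ∀ i j, ∃ a₁ ∈ span k (ι '' {x | Ω x}), ∃ a₂ ∈ span k (ι '' {x | ¬ Ω x}),
      a₁ + a₂ = a i j := fun i j => exists_split ι Ω _ (ha i j)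
  choose a₁ ha₁ a₂ ha₂ ha₁₂ using h2
  have h3 : ∀ i j y, ∃ b₁ ∈ span k (ι '' {x | Ω x}), ∃ b₂ ∈ span k (ι '' {x | ¬ Ω x}),
      b₁ + b₂ = b i j y := fun i j y => exists_split ι Ω _ (hb i j y)
  choose b₁ hb₁ b₂ hb₂ hb₁₂ using h3
  let am : Matrix n n A := Matrix.of a
  let bm : Matrix n (n × L) A := Matrix.of fun i p => b i p.1 p.2
  let cm : Matrix (n × L) n A := Matrix.of fun p j => if p.1 = j then ι p.2 else 0
  have hBm : B = am + bm * cm := by
    ext i j
    rw [hab i j, Matrix.add_apply, Matrix.mul_apply, Fintype.sum_prod_type]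
    congr 1
    rw [Finset.sum_comm]
    refine Finset.sum_congr rfl fun y _ => ?_
    simp only [bm, cm, Matrix.of_apply, mul_ite, mul_zero]
    rw [Finset.sum_ite_eq' Finset.univ j]
    simp
  rw [hBm]
  apply isUnit_schur
  let R : Matrix (n ⊕ n × L) (n ⊕ n × L) A := fromBlocks (Matrix.of a₂) (Matrix.of fun i p => b₂ i p.1 p.2)
    (Matrix.of fun p j => if Ω p.2 then 0 else (if p.1 = j then ι p.2 else 0)) 0
  let cΩ : Matrix (n × {x // Ω x}) n A := Matrix.of fun p j => if p.1 = j then ι p.2 else 0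
  let Pm : Matrix (n × L) (n × {x // Ω x}) A :=
    Matrix.of fun p q => if p.1 = q.1 ∧ p.2 = q.2 then 1 else 0
  let Y : Matrix (n ⊕ n × {x // Ω x}) (n ⊕ n × L) A :=
    fromBlocks (Matrix.of a₁) (Matrix.of fun i p => b₁ i p.1 p.2) cΩ 0
  let P : Matrix (n ⊕ n × L) (n ⊕ n × {x // Ω x}) A := fromBlocks 1 0 0 Pm
  have hsum : fromBlocks am bm cm 0 = R + P * Y := by
    have hPY : P * Y = fromBlocks (Matrix.of a₁) (Matrix.of fun i p => b₁ i p.1 p.2)
        (Pm * cΩ) 0 := by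
      simp only [P, Y, fromBlocks_multiply, Matrix.one_mul, Matrix.zero_mul, Matrix.mul_zero,
        add_zero, zero_add]
    rw [hPY]
    simp only [R, fromBlocks_add]
    rw [fromBlocks_inj]
    refine ⟨?_, ?_, ?_, ?_⟩
    · ext i j
      simp [am, ← ha₁₂ i j, add_comm]
    · ext i j
      simp [bm, ← hb₁₂ i j.1 j.2, add_comm]
    · ext p j
      rw [Matrix.add_apply, Matrix.mul_apply, Fintype.sum_prod_type]
      simp only [cm, cΩ, Pm, Matrix.of_apply, ite_mul, one_mul, zero_mul]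
      by_cases hp : Ω p.2
      · rw [if_pos hp, zero_add]
        rw [Finset.sum_eq_single p.1]
        · rw [Finset.sum_eq_single (⟨p.2, hp⟩ : {x // Ω x})]
          · simp
          · intro q _ hq
            rw [if_neg]
            rintro ⟨-, h⟩
            exact hq (Subtype.ext h.symm)
          · simp
        · intro q _ hq
          refine Finset.sum_eq_zero fun r _ => ?_
          rw [if_neg]
          rintro ⟨h, -⟩
          exact hq h.symm
        · simp
      · rw [if_neg hp]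
        symm
        rw [add_eq_left]
        refine Finset.sum_eq_zero fun q _ => Finset.sum_eq_zero fun r _ => ?_
        rw [if_neg]
        rintro ⟨-, h⟩
        exact hp (h ▸ r.2)
    · ext i j
      simp
  rw [hsum]
  have hR : ∀ i j, R i j ∈ Wj k ι Ω 1 := by
    rintro (i | p) (j | q)
    · exact span_image_le_Wj ι Ω (ha₂ i j)
    · exact span_image_le_Wj ι Ω (hb₂ i q.1 q.2)
    · simp only [R, fromBlocks_apply₂₁, Matrix.of_apply]
      split_ifs with h1 h2
      · exact zero_mem _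
      · exact subset_span ⟨[p.2], rfl, by simpa using h1, by simp⟩
      · exact zero_mem _
    · exact zero_mem _
  have hRN : R ^ N = 0 := by
    ext i j
    have := pow_mem_Wj ι Ω R hR N i j
    rw [Wj_eq_bot ι Ω N hN N le_rfl, mem_bot] at this
    exact this
  let T : Matrix (n ⊕ n × L) (n ⊕ n × L) A := ∑ m ∈ Finset.range N, R ^ m
  have hT1 : (1 - R) * T = 1 := by
    have := mul_neg_geom_sum R N
    rw [hRN, sub_zero] at this
    exact this
  have hT2 : T * (1 - R) = 1 := by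
    have := geom_sum_mul_neg R N
    rw [hRN, sub_zero] at this
    exact this
  have hTmem : ∀ i j, T i j ∈ Wo k ι Ω := by
    intro i j
    have : T i j = ∑ m ∈ Finset.range N, (R ^ m) i j := Matrix.sum_apply _ _ _ _
    rw [this]
    exact sum_mem fun m _ => Wj_le_Wo ι Ω m (pow_mem_Wj ι Ω R hR m i j)
  have hfac : 1 - (R + P * Y) = (1 - R) * (1 - T * P * Y) := by
    rw [mul_sub, mul_one, Matrix.mul_assoc T P Y, ← mul_assoc, hT1, one_mul]
    abel
  rw [hfac]
  refine IsUnit.mul ⟨⟨1 - R, T, hT1, hT2⟩, rfl⟩ ?_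
  apply isUnit_one_sub_mul_rect
  refine isUnit_of_seg ι Ω Φ A12' hΦ hseg hQ _ ?_
  have hPmem : ∀ i j, P i j ∈ Wo k ι Ω := by
    rintro (i | p) (j | q)
    · simp only [P, fromBlocks_apply₁₁, Matrix.one_apply]
      split_ifs
      · exact one_mem_Wo ι Ω
      · exact zero_mem _
    · exact zero_mem _
    · exact zero_mem _
    · simp only [P, Pm, fromBlocks_apply₂₂, Matrix.of_apply]
      split_ifs
      · exact one_mem_Wo ι Ω
      · exact zero_mem _
  have hTP : ∀ i j, (T * P) i j ∈ Wo k ι Ω := by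
    intro i j
    rw [Matrix.mul_apply]
    exact sum_mem fun l _ => Wo_mul ι Ω (hTmem i l) (hPmem l j)
  have hY : ∀ i j, Y i j ∈ span k (ι '' {x | Ω x}) := by
    rintro (i | p) (j | q)
    · exact ha₁ i j
    · exact hb₁ i q.1 q.2
    · simp only [Y, cΩ, fromBlocks_apply₂₁, Matrix.of_apply]
      split_ifs
      · exact subset_span ⟨p.2, p.2.2, rfl⟩
      · exact zero_mem _
    · exact zero_mem _
  intro i j
  rw [Matrix.mul_apply]
  exact sum_mem fun l _ => span_mul_Wo ι Ω (hY i l) (hTP l j)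

end main

end Crest.Agent.R176.Cut660
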