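import Crest.Agent.R176.Cut660

/-!
# R176, block (7a'): nilpotence for large label sets (helper660)

`nil_of_sq_zero` : a matrix over a commutative ring with `2 = 0`, all of whose entries have square
zero, satisfies `M ^ (2 * card n) = 0`.

`dens_lemma` : `ι : L → A` letters, `Xu, Xp` two classes of letters; letters of one class commute
and have square `0`, letters of different classes multiply to `0`.  If every word that is a
concatenation of at least `N` chunks of length at most `4 * card n`, each containing a letter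
outside `Xu ∪ Xp`, vanishes, then `1 - B` is a unit for every matrix `B` with entries in the span of
words of length `1` and `2`.

`chunk_run` : an `X`-run in a concatenation of chunks of length at most `g`, each containing a
non-`X` letter, has length at most `2 g`.
-/

set_option autoImplicit false

namespace Crest.Agent.R176.Cut660

open Matrix Submodule Polynomial

section comm

variable {S : Type*} [CommRing S]

/-- elements of square zero form an ideal in characteristic two -/
def sqIdeal (h2 : (2 : S) = 0) : Ideal S where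
  carrier := {s | s * s = 0}
  zero_mem' := by simp
  add_mem' := by
    intro a b ha hb
    have ha' : a * a = 0 := ha
    have hb' : b * b = 0 := hb
    show (a + b) * (a + b) = 0
    have : (a + b) * (a + b) = a * a + b * b + 2 * (a * b) := by ring
    rw [this, ha', hb', h2]; ring
  smul_mem' := by
    intro c a ha
    have ha' : a * a = 0 := ha
    show (c * a) * (c * a) = 0
    have : (c * a) * (c * a) = c * c * (a * a) := by ring
    rw [this, ha', mul_zero]

theorem mem_sqIdeal {h2 : (2 : S) = 0} {s : S} : s ∈ sqIdeal h2 ↔ s * s = 0 := Iff.rfl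

theorem nil_of_sq_zero (h2 : (2 : S) = 0) {n : Type*} [Fintype n] [DecidableEq n]
    (M : Matrix n n S) (hM : ∀ i j, M i j * M i j = 0) : M ^ (2 * Fintype.card n) = 0 := by
  have h0 : M.map (Ideal.Quotient.mk (sqIdeal h2)) = 0 := by
    ext i j
    rw [Matrix.map_apply, Matrix.zero_apply, Ideal.Quotient.eq_zero_iff_mem]
    exact hM i j
  have h1 : M.charpoly.map (Ideal.Quotient.mk (sqIdeal h2)) =
      (X ^ Fintype.card n : (S ⧸ sqIdeal h2)[X]) := by
    rw [← Matrix.charpoly_map, h0, Matrix.charpoly_zero]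
  set q : S[X] := X ^ Fintype.card n - M.charpoly with hq
  have hcoef : ∀ i, q.coeff i ∈ sqIdeal h2 := by
    intro i
    rw [← Ideal.Quotient.eq_zero_iff_mem, ← Polynomial.coeff_map, hq, Polynomial.map_sub, h1,
      Polynomial.map_pow, Polynomial.map_X, sub_self, Polynomial.coeff_zero]
  have h2' : (2 : S[X]) = 0 := by
    have : (2 : S[X]) = C (2 : S) := (map_ofNat C 2).symm
    rw [this, h2, C_0]
  have hqq : q * q = 0 := by
    rw [← mem_sqIdeal (h2 := h2')]
    rw [Polynomial.as_sum_support q]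
    refine Ideal.sum_mem _ fun i _ => ?_
    rw [mem_sqIdeal, Polynomial.monomial_mul_monomial, mem_sqIdeal.1 (hcoef i),
      Polynomial.monomial_zero_right]
  have hMq : M ^ Fintype.card n = aeval M q := by
    rw [hq, map_sub, Matrix.aeval_self_charpoly, sub_zero, map_pow, aeval_X]
  rw [two_mul, pow_add, hMq, ← map_mul, hqq, map_zero]

end comm

section letters

variable {k A L : Type*} [CommRing k] [Ring A] [Algebra k A]

theorem two_eq_zero_of (A : Type*) [Ring A] [Algebra k A] (h2 : (2 : k) = 0) : (2 : A) = 0 := by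
  have : (2 : A) = algebraMap k A 2 := (map_ofNat (algebraMap k A) 2).symm
  rw [this, h2, map_zero]

/-- a matrix with entries in the span of nonempty words in commuting letters of square zero. -/
theorem nil_letters (h2 : (2 : k) = 0) (ι : L → A) (X : Set L)
    (hc : ∀ x ∈ X, ∀ y ∈ X, ι x * ι y = ι y * ι x) (hs : ∀ x ∈ X, ι x * ι x = 0)
    {n : Type*} [Fintype n] [DecidableEq n] (M : Matrix n n A)
    (hM : ∀ i j, M i j ∈ span k {a | ∃ w : List L, w ≠ [] ∧ (∀ x ∈ w, x ∈ X) ∧ a = ev ι w}) :
    M ^ (2 * Fintype.card n) = 0 := by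
  let C : Subalgebra k A := Algebra.adjoin k (ι '' X)
  have hcomm : ∀ a ∈ ι '' X, ∀ b ∈ ι '' X, a * b = b * a := by
    rintro _ ⟨x, hx, rfl⟩ _ ⟨y, hy, rfl⟩
    exact hc x hx y hy
  have hmc := Algebra.isMulCommutative_adjoin k hcomm
  have hcm : ∀ a b : C, a * b = b * a := fun a b => hmc.is_comm.comm a b
  let _ : CommRing C := { C.toRing with mul_comm := hcm }
  have h2C : (2 : C) = 0 := two_eq_zero_of (k := k) C h2
  -- words lie in `C` and have square zero
  have hword : ∀ w : List L, (∀ x ∈ w, x ∈ X) → ev ι w ∈ C := by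
    intro w hw
    exact Subalgebra.list_prod_mem _ (by
      intro a ha
      obtain ⟨x, hx, rfl⟩ := List.mem_map.1 ha
      exact Algebra.subset_adjoin ⟨x, hw x hx, rfl⟩)
  have hent : ∀ a ∈ span k {a | ∃ w : List L, w ≠ [] ∧ (∀ x ∈ w, x ∈ X) ∧ a = ev ι w},
      ∃ c : C, (c : A) = a ∧ c * c = 0 := by
    intro a ha
    induction ha using span_induction with
    | zero => exact ⟨0, rfl, by simp⟩
    | add a b _ _ ha hb =>
      obtain ⟨c, rfl, hc'⟩ := ha
      obtain ⟨d, rfl, hd'⟩ := hb
      exact ⟨c + d, rfl, (mem_sqIdeal (h2 := h2C)).1 ((sqIdeal h2C).add_mem hc' hd')⟩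
    | smul r a _ ha =>
      obtain ⟨c, rfl, hc'⟩ := ha
      refine ⟨r • c, rfl, ?_⟩
      rw [smul_mul_smul_comm, hc', smul_zero]
    | mem a ha =>
      obtain ⟨w, hw, hw', rfl⟩ := ha
      cases w with
      | nil => exact absurd rfl hw
      | cons x w =>
        have hx : x ∈ X := hw' x (by simp)
        have hwX : ∀ y ∈ w, y ∈ X := fun y hy => hw' y (by simp [hy])
        let c : C := ⟨ι x, Algebra.subset_adjoin ⟨x, hx, rfl⟩⟩
        let d : C := ⟨ev ι w, hword w hwX⟩
        refine ⟨d * c, ?_, ?_⟩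
        · rw [ev_cons]
          have : d * c = c * d := mul_comm _ _
          rw [this]; rfl
        · have hcc : c * c = 0 := Subtype.ext (hs x hx)
          exact (mem_sqIdeal (h2 := h2C)).1
            ((sqIdeal h2C).mul_mem_left d ((mem_sqIdeal (h2 := h2C)).2 hcc))
  choose c hc1 hc2 using fun i j => hent (M i j) (hM i j)
  have hMc : M = (Matrix.of c).map (C.val : C →+* A) := by
    ext i j
    exact (hc1 i j).symm
  have hnil := nil_of_sq_zero h2C (Matrix.of c) hc2
  have hmap : ((Matrix.of c).map (C.val : C →+* A)) ^ (2 * Fintype.card n) =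
      RingHom.mapMatrix (C.val : C →+* A) ((Matrix.of c) ^ (2 * Fintype.card n)) := by
    rw [map_pow]; rfl
  rw [hMc, hmap, hnil, map_zero]

variable (k) in
/-- span of the words satisfying `P` -/
def WP (ι : L → A) (P : List L → Prop) : Submodule k A :=
  span k {a | ∃ w : List L, P w ∧ a = ev ι w}

theorem WP_mono {ι : L → A} {P Q : List L → Prop} (h : ∀ w, P w → Q w) : WP k ι P ≤ WP k ι Q :=
  span_mono fun _ ⟨w, hw, h'⟩ => ⟨w, h w hw, h'⟩

theorem WP_mul {ι : L → A} {P Q R : List L → Prop} (h : ∀ v w, P v → Q w → R (v ++ w)) {a b : A}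
    (ha : a ∈ WP k ι P) (hb : b ∈ WP k ι Q) : a * b ∈ WP k ι R := by
  have h' : WP k ι P * WP k ι Q ≤ WP k ι R := by
    rw [WP, WP, span_mul_span, span_le]
    rintro _ ⟨_, ⟨v, hv, rfl⟩, _, ⟨w, hw, rfl⟩, rfl⟩
    exact subset_span ⟨v ++ w, h v w hv hw, (ev_append _ _ _).symm⟩
  exact h' (mul_mem_mul ha hb)

theorem WP_mul_zero {ι : L → A} {P Q : List L → Prop}
    (h : ∀ v w, P v → Q w → ev ι v * ev ι w = 0) {a b : A}
    (ha : a ∈ WP k ι P) (hb : b ∈ WP k ι Q) : a * b = 0 := by
  have h' : WP k ι P * WP k ι Q = ⊥ := by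
    rw [WP, WP, span_mul_span, span_eq_bot]
    rintro _ ⟨_, ⟨v, hv, rfl⟩, _, ⟨w, hw, rfl⟩, rfl⟩
    exact h v w hv hw
  have := mul_mem_mul ha hb
  rw [h'] at this
  exact (mem_bot k).1 this

theorem WP_eq_zero {ι : L → A} {P : List L → Prop} (h : ∀ w, P w → ev ι w = 0) {a : A}
    (ha : a ∈ WP k ι P) : a = 0 := by
  have h' : WP k ι P = ⊥ := by
    rw [WP, span_eq_bot]
    rintro _ ⟨w, hw, rfl⟩
    exact h w hw
  rw [h'] at ha
  exact (mem_bot k).1 ha

theorem mat_mul_WP {ι : L → A} {P Q R : List L → Prop} (h : ∀ v w, P v → Q w → R (v ++ w))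
    {l m n : Type*} [Fintype m] (M : Matrix l m A) (N : Matrix m n A)
    (hM : ∀ i j, M i j ∈ WP k ι P) (hN : ∀ i j, N i j ∈ WP k ι Q) :
    ∀ i j, (M * N) i j ∈ WP k ι R := by
  intro i j
  rw [Matrix.mul_apply]
  exact sum_mem fun x _ => WP_mul h (hM i x) (hN x j)

/-- **nilpotence for large label sets** -/
theorem dens_lemma (h2 : (2 : k) = 0) (ι : L → A) (Xu Xp : Set L)
    (hcu : ∀ x ∈ Xu, ∀ y ∈ Xu, ι x * ι y = ι y * ι x) (hsu : ∀ x ∈ Xu, ι x * ι x = 0)
    (hcp : ∀ x ∈ Xp, ∀ y ∈ Xp, ι x * ι y = ι y * ι x) (hsp : ∀ x ∈ Xp, ι x * ι x = 0)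
    (hup : ∀ x ∈ Xu, ∀ y ∈ Xp, ι x * ι y = 0) (hpu : ∀ x ∈ Xp, ∀ y ∈ Xu, ι x * ι y = 0)
    {n : Type*} [Fintype n] [DecidableEq n]
    (hdens : ∃ N, ∀ cs : List (List L), N ≤ cs.length →
      (∀ c ∈ cs, c.length ≤ 4 * Fintype.card n ∧ ∃ x ∈ c, x ∉ Xu ∧ x ∉ Xp) →
      ev ι cs.flatten = 0)
    (B : Matrix n n A)
    (hB : ∀ i j, B i j ∈ span k (Set.range ι) ⊔ span k (Set.range ι) * span k (Set.range ι)) :
    IsUnit (1 - B) := by
  classical
  rcases isEmpty_or_nonempty n with hn | hn
  · exact isUnit_of_subsingleton _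
  have hcard : 0 < Fintype.card n := Fintype.card_pos
  set l := Fintype.card n with hl
  let Pu : List L → Prop := fun w => w ≠ [] ∧ (∀ x ∈ w, x ∈ Xu) ∧ w.length ≤ 2
  let Pp : List L → Prop := fun w => w ≠ [] ∧ (∀ x ∈ w, x ∈ Xp) ∧ w.length ≤ 2
  let Pr : List L → Prop := fun w => w.length ≤ 2 ∧ ∃ x ∈ w, x ∉ Xu ∧ x ∉ Xp
  have hle : span k (Set.range ι) ⊔ span k (Set.range ι) * span k (Set.range ι) ≤
      WP k ι Pu ⊔ WP k ι Pp ⊔ WP k ι Pr := by
    refine sup_le ?_ ?_
    · rw [span_le]
      rintro _ ⟨x, rfl⟩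
      by_cases h1 : x ∈ Xu
      · exact mem_sup_left (mem_sup_left (subset_span ⟨[x], ⟨by simp, by simpa using h1, by simp⟩,
          by simp⟩))
      by_cases h2 : x ∈ Xp
      · exact mem_sup_left (mem_sup_right (subset_span ⟨[x], ⟨by simp, by simpa using h2, by simp⟩,
          by simp⟩))
      exact mem_sup_right (subset_span ⟨[x], ⟨by simp, by simpa using ⟨h1, h2⟩⟩, by simp⟩)
    · rw [span_mul_span, span_le]
      rintro _ ⟨_, ⟨x, rfl⟩, _, ⟨y, rfl⟩, rfl⟩
      have hxy : ι x * ι y = ev ι [x, y] := by simp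
      show ι x * ι y ∈ _
      by_cases hx : x ∉ Xu ∧ x ∉ Xp
      · exact mem_sup_right (subset_span ⟨[x, y], ⟨by simp, x, by simp, hx⟩, hxy⟩)
      by_cases hy : y ∉ Xu ∧ y ∉ Xp
      · exact mem_sup_right (subset_span ⟨[x, y], ⟨by simp, y, by simp, hy⟩, hxy⟩)
      rw [← or_iff_not_and_not] at hx hy
      rcases hx with hx | hx <;> rcases hy with hy | hy
      · refine mem_sup_left (mem_sup_left (subset_span ⟨[x, y], ⟨by simp, ?_, by simp⟩, hxy⟩))
        intro z hz
        simp only [List.mem_cons, List.not_mem_nil, or_false] at hz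
        rcases hz with rfl | rfl <;> assumption
      · rw [hup x hx y hy]; exact zero_mem _
      · rw [hpu x hx y hy]; exact zero_mem _
      · refine mem_sup_left (mem_sup_right (subset_span ⟨[x, y], ⟨by simp, ?_, by simp⟩, hxy⟩))
        intro z hz
        simp only [List.mem_cons, List.not_mem_nil, or_false] at hz
        rcases hz with rfl | rfl <;> assumption
  have hdec : ∀ i j, ∃ a ∈ WP k ι Pu, ∃ b ∈ WP k ι Pp, ∃ c ∈ WP k ι Pr, B i j = a + b + c := by
    intro i j
    obtain ⟨ab, hab, c, hc, h⟩ := mem_sup.1 (hle (hB i j))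
    obtain ⟨a, ha, b, hb, rfl⟩ := mem_sup.1 hab
    exact ⟨a, ha, b, hb, c, hc, h.symm⟩
  choose a ha b hb c hc habc using hdec
  let Bu : Matrix n n A := Matrix.of a
  let Bp : Matrix n n A := Matrix.of b
  let Br : Matrix n n A := Matrix.of c
  have hBsum : B = Bu + Bp + Br := by
    ext i j; exact habc i j
  have hBu : Bu ^ (2 * l) = 0 := by
    refine nil_letters h2 ι Xu hcu hsu Bu ?_
    intro i j
    refine span_mono ?_ (ha i j)
    rintro x ⟨w, hw, rfl⟩
    exact ⟨w, hw.1, hw.2.1, rfl⟩
  have hBp : Bp ^ (2 * l) = 0 := by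
    refine nil_letters h2 ι Xp hcp hsp Bp ?_
    intro i j
    refine span_mono ?_ (hb i j)
    rintro x ⟨w, hw, rfl⟩
    exact ⟨w, hw.1, hw.2.1, rfl⟩
  -- mixed products vanish
  have hlast : ∀ (X Y : Set L), (∀ x ∈ X, ∀ y ∈ Y, ι x * ι y = 0) → ∀ v w : List L,
      v ≠ [] → (∀ x ∈ v, x ∈ X) → w ≠ [] → (∀ x ∈ w, x ∈ Y) → ev ι v * ev ι w = 0 := by
    intro X Y hXY v w hv hvX hw hwY
    rw [← List.dropLast_append_getLast hv, ev_append]
    cases w with
    | nil => exact absurd rfl hw
    | cons y w =>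
      rw [ev_cons, ev_cons, ev_nil, mul_one, mul_assoc, ← mul_assoc (ι _) (ι y),
        hXY _ (hvX _ (List.getLast_mem hv)) _ (hwY y (by simp)), zero_mul, mul_zero]
  have hBuBp : Bu * Bp = 0 := by
    ext i j
    rw [Matrix.mul_apply, Matrix.zero_apply]
    exact Finset.sum_eq_zero fun x _ => WP_mul_zero
      (fun v w hv hw => hlast Xu Xp hup v w hv.1 hv.2.1 hw.1 hw.2.1) (ha i x) (hb x j)
  have hBpBu : Bp * Bu = 0 := by
    ext i j
    rw [Matrix.mul_apply, Matrix.zero_apply]
    exact Finset.sum_eq_zero fun x _ => WP_mul_zero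
      (fun v w hv hw => hlast Xp Xu hpu v w hv.1 hv.2.1 hw.1 hw.2.1) (hb i x) (ha x j)
  set Xm : Matrix n n A := Bu + Bp with hXm
  have hpow : ∀ m : ℕ, Xm ^ (m + 1) = Bu ^ (m + 1) + Bp ^ (m + 1) := by
    intro m
    induction m with
    | zero => simp [hXm]
    | succ m ih =>
      rw [pow_succ, ih, hXm, add_mul, mul_add, mul_add, pow_succ Bu m, pow_succ Bp m,
        mul_assoc (Bu ^ m) Bu Bp, hBuBp, mul_assoc (Bp ^ m) Bp Bu, hBpBu, mul_zero, mul_zero,
        add_zero, zero_add, ← pow_succ, ← pow_succ, ← pow_succ, ← pow_succ]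
  have hXnil : Xm ^ (2 * l) = 0 := by
    obtain ⟨m, hm⟩ : ∃ m, 2 * l = m + 1 := ⟨2 * l - 1, by omega⟩
    rw [hm, hpow, ← hm, hBu, hBp, add_zero]
  let T : Matrix n n A := ∑ m ∈ Finset.range (2 * l), Xm ^ m
  have hT1 : (1 - Xm) * T = 1 := by
    have := mul_neg_geom_sum Xm (2 * l)
    rw [hXnil, sub_zero] at this
    exact this
  have hT2 : T * (1 - Xm) = 1 := by
    have := geom_sum_mul_neg Xm (2 * l)
    rw [hXnil, sub_zero] at this
    exact this
  -- lengths
  have hXent : ∀ i j, Xm i j ∈ WP k ι (fun w => w.length ≤ 2) := by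
    intro i j
    have h1 : a i j ∈ WP k ι (fun w => w.length ≤ 2) :=
      WP_mono (P := Pu) (fun w hw => hw.2.2) (ha i j)
    have h2 : b i j ∈ WP k ι (fun w => w.length ≤ 2) :=
      WP_mono (P := Pp) (fun w hw => hw.2.2) (hb i j)
    exact add_mem h1 h2
  have hXpow : ∀ m : ℕ, ∀ i j, (Xm ^ m) i j ∈ WP k ι (fun w => w.length ≤ 2 * m) := by
    intro m
    induction m with
    | zero =>
      intro i j
      rw [pow_zero, Matrix.one_apply]
      split_ifs
      · exact subset_span ⟨[], by simp, by simp⟩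
      · exact zero_mem _
    | succ m ih =>
      rw [pow_succ]
      refine mat_mul_WP ?_ _ _ ih hXent
      intro v w hv hw
      simp only [List.length_append]
      omega
  have hTent : ∀ i j, T i j ∈ WP k ι (fun w => w.length ≤ 4 * l - 2) := by
    intro i j
    have : T i j = ∑ m ∈ Finset.range (2 * l), (Xm ^ m) i j := Matrix.sum_apply _ _ _ _
    rw [this]
    refine sum_mem fun m hm => ?_
    refine WP_mono ?_ (hXpow m i j)
    intro w hw
    have := Finset.mem_range.1 hm
    omega
  let Pc : List L → Prop := fun w => w.length ≤ 4 * l ∧ ∃ x ∈ w, x ∉ Xu ∧ x ∉ Xp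
  have hTBr : ∀ i j, (T * Br) i j ∈ WP k ι Pc := by
    refine mat_mul_WP ?_ _ _ hTent hc
    rintro v w hv ⟨hw, x, hx, hx'⟩
    refine ⟨?_, x, by simp [hx], hx'⟩
    simp only [List.length_append]
    omega
  have hTBrpow : ∀ m : ℕ, ∀ i j, ((T * Br) ^ m) i j ∈ WP k ι (fun w => ∃ cs : List (List L),
      cs.length = m ∧ (∀ c ∈ cs, Pc c) ∧ w = cs.flatten) := by
    intro m
    induction m with
    | zero =>
      intro i j
      rw [pow_zero, Matrix.one_apply]
      split_ifs
      · exact subset_span ⟨[], ⟨[], rfl, by simp, by simp⟩, by simp⟩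
      · exact zero_mem _
    | succ m ih =>
      rw [pow_succ]
      refine mat_mul_WP ?_ _ _ ih hTBr
      rintro v w ⟨cs, h1, h2, rfl⟩ hw
      refine ⟨cs ++ [w], by simp [h1], ?_, by simp⟩
      intro c hc
      rcases List.mem_append.1 hc with h | h
      · exact h2 c h
      · rw [List.mem_singleton.1 h]; exact hw
  obtain ⟨N, hN⟩ := hdens
  have hnil : (T * Br) ^ N = 0 := by
    ext i j
    refine WP_eq_zero ?_ (hTBrpow N i j)
    rintro w ⟨cs, h1, h2, rfl⟩
    exact hN cs h1.ge h2
  have hfac : 1 - B = (1 - Xm) * (1 - T * Br) := by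
    rw [hBsum, mul_sub, mul_one, ← mul_assoc, hT1, one_mul]
    abel
  rw [hfac]
  exact IsUnit.mul ⟨⟨1 - Xm, T, hT1, hT2⟩, rfl⟩ (IsNilpotent.isUnit_one_sub ⟨N, hnil⟩)

end letters

section comb

variable {L : Type*}

/-- an `X`-prefix of a concatenation of chunks is shorter than the first chunk. -/
theorem prefix_run {X : L → Prop} {g : ℕ} (cs : List (List L))
    (hcs : ∀ c ∈ cs, c.length ≤ g ∧ ∃ x ∈ c, ¬ X x) (x v : List L) (hx : ∀ y ∈ x, X y)
    (h : x ++ v = cs.flatten) : x.length ≤ g := by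
  cases cs with
  | nil =>
    have := congrArg List.length h
    simp only [List.length_append, List.flatten_nil, List.length_nil] at this
    omega
  | cons c cs =>
    obtain ⟨h1, y, hy, hy'⟩ := hcs c (by simp)
    by_contra hlt
    rw [not_le] at hlt
    have hc : c.length ≤ x.length := by omega
    have hpre : c <+: x := by
      have h3 : c <+: x ++ v := ⟨cs.flatten, by rw [h]; simp⟩
      exact List.prefix_of_prefix_length_le h3 (List.prefix_append _ _) hc
    exact hy' (hx y (hpre.subset hy))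

/-- an `X`-run in a concatenation of chunks of length at most `g` has length at most `2 g`. -/
theorem chunk_run {X : L → Prop} {g : ℕ} (cs : List (List L))
    (hcs : ∀ c ∈ cs, c.length ≤ g ∧ ∃ x ∈ c, ¬ X x) (u x v : List L) (hx : ∀ y ∈ x, X y)
    (h : u ++ x ++ v = cs.flatten) : x.length ≤ 2 * g := by
  induction cs generalizing u with
  | nil =>
    have := congrArg List.length h
    simp only [List.length_append, List.flatten_nil, List.length_nil] at this
    omega
  | cons c cs ih =>
    have hc := hcs c (by simp)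
    have hcs' : ∀ c ∈ cs, c.length ≤ g ∧ ∃ x ∈ c, ¬ X x := fun d hd => hcs d (by simp [hd])
    rw [List.flatten_cons] at h
    by_cases hu : c.length ≤ u.length
    · have hpre : c <+: u := by
        have h3 : c <+: u ++ x ++ v := ⟨cs.flatten, h.symm⟩
        exact List.prefix_of_prefix_length_le h3 (by rw [List.append_assoc]; exact List.prefix_append _ _) hu
      obtain ⟨u', rfl⟩ := hpre
      rw [List.append_assoc, List.append_assoc] at h
      have h' := List.append_cancel_left h
      exact ih hcs' u' (by rw [List.append_assoc]; exact h')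
    · rw [not_le] at hu
      have hpre : u <+: c := by
        have h3 : u <+: c ++ cs.flatten := ⟨x ++ v, by rw [← h, List.append_assoc]⟩
        exact List.prefix_of_prefix_length_le h3 (List.prefix_append _ _) hu.le
      obtain ⟨c2, rfl⟩ := hpre
      rw [List.append_assoc, List.append_assoc] at h
      have h' := List.append_cancel_left h
      have hc2 : c2.length ≤ g := by
        have := hc.1
        rw [List.length_append] at this
        omega
      by_cases hxc : x.length ≤ c2.length
      · omega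
      · rw [not_le] at hxc
        have hpre2 : c2 <+: x := by
          have h3 : c2 <+: x ++ v := ⟨cs.flatten, h'.symm⟩
          exact List.prefix_of_prefix_length_le h3 (List.prefix_append _ _) hxc.le
        obtain ⟨x2, rfl⟩ := hpre2
        rw [List.append_assoc] at h'
        have h'' := List.append_cancel_left h'
        have := prefix_run cs hcs' x2 v (fun y hy => hx y (by simp [hy])) h''
        rw [List.length_append]
        omega

end comb

end Crest.Agent.R176.Cut660
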