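import Crest.Agent.R176.StDef

/-! Row 176, part B, block EXC (helper275), step (B): the symbols `[E_ij(w), H_ji(a)]`. -/

set_option autoImplicit false

namespace Crest.Agent.R176.Exc275

open St
open scoped commutatorElement

/-! ### group lemmas -/

section grp

variable {G : Type*} [Group G]

theorem yx_of_comm {x y e : G} (h : ⁅x, y⁆ = e) : y * x * y⁻¹ = e⁻¹ * x := by
  rw [← h, commutatorElement_def]; group

theorem yx_of_comm' {x y e : G} (h : ⁅x, y⁆ = e) : y⁻¹ * x * y = y⁻¹ * e * y * x := by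
  rw [← h, commutatorElement_def]; group

theorem conj_of_comm {x y e : G} (h : ⁅x, y⁆ = e) : x * y * x⁻¹ = e * y := by
  rw [← h, commutatorElement_def]; group

theorem comm_eq_one {x y : G} (h : Commute x y) : ⁅x, y⁆ = 1 :=
  commutatorElement_eq_one_iff_commute.mpr h

theorem comm_mul_left (a b c : G) : ⁅a * b, c⁆ = a * ⁅b, c⁆ * a⁻¹ * ⁅a, c⁆ := by
  simp only [commutatorElement_def]; group

theorem comm_mul_right (a b c : G) : ⁅a, b * c⁆ = ⁅a, b⁆ * (b * ⁅a, c⁆ * b⁻¹) := by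
  simp only [commutatorElement_def]; group

theorem comm_mul_left' {a b c : G} (h : Commute a ⁅b, c⁆) : ⁅a * b, c⁆ = ⁅b, c⁆ * ⁅a, c⁆ := by
  rw [comm_mul_left, h.eq, mul_inv_cancel_right]

theorem comm_mul_right' {a b c : G} (h : Commute b ⁅a, c⁆) : ⁅a, b * c⁆ = ⁅a, b⁆ * ⁅a, c⁆ := by
  rw [comm_mul_right, h.eq, mul_inv_cancel_right]

/-- If `g` commutes with `x` and `y` then it commutes with `[x,y]`. -/
theorem commute_comm {g x y : G} (h1 : Commute g x) (h2 : Commute g y) : Commute g ⁅x, y⁆ := by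
  rw [commutatorElement_def]
  exact ((h1.mul_right h2).mul_right h1.inv_right).mul_right h2.inv_right

/-- Hall-Witt identity in the special case needed. -/
theorem hallWitt {x y z c e : G} (hxz : Commute x z) (hc : ⁅y, z⁆ = c) (he : ⁅x, y⁆ = e)
    (hcy : Commute c y) (hcz : Commute c z) (hec : Commute e c) : ⁅e, z⁆ = ⁅x, c⁆ := by
  have h1 : y * z = c * z * y := by rw [← hc, commutatorElement_def]; group
  have h2 : x * y = e * y * x := by rw [← he, commutatorElement_def]; group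
  -- e z = [x,c] z e
  have key : e * z * e⁻¹ = ⁅x, c⁆ * z := by
    have e1 : e = x * y * x⁻¹ * y⁻¹ := by rw [← he, commutatorElement_def]
    -- y⁻¹ z y = z c⁻¹
    have e2 : y⁻¹ * z * y = z * c⁻¹ := by
      have : z * y = y * (z * c⁻¹) := by
        rw [← mul_assoc, h1, mul_assoc (c * z), ← hcy.inv_left.eq, ← mul_assoc, hcz.eq,
          mul_inv_cancel_right]
      rw [mul_assoc, this, inv_mul_cancel_left]
    have e3 : y * x⁻¹ * y⁻¹ = x⁻¹ * e := by
      have : y * x * y⁻¹ = e⁻¹ * x := yx_of_comm he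
      have h4 := congrArg (fun g => g⁻¹) this
      simp only [mul_inv_rev, inv_inv] at h4
      rw [← h4]; group
    have e4 : y * x⁻¹ * c⁻¹ * x * y⁻¹ = x⁻¹ * c⁻¹ * x := by
      have a1 : y * x⁻¹ * c⁻¹ * x * y⁻¹ =
          (y * x⁻¹ * y⁻¹) * (y * c⁻¹ * y⁻¹) * (y * x⁻¹ * y⁻¹)⁻¹ := by group
      rw [a1, e3, ← hcy.inv_left.eq, mul_inv_cancel_right, mul_inv_rev, inv_inv]
      rw [mul_assoc x⁻¹ e, hec.inv_right.eq]
      group
    calc e * z * e⁻¹ = x * y * x⁻¹ * (y⁻¹ * z * y) * x * y⁻¹ * x⁻¹ := by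
            rw [e1]; group
      _ = x * y * (x⁻¹ * z) * c⁻¹ * x * y⁻¹ * x⁻¹ := by rw [e2]; group
      _ = x * (y * z) * x⁻¹ * c⁻¹ * x * y⁻¹ * x⁻¹ := by rw [hxz.inv_left.eq]; group
      _ = x * c * z * (y * x⁻¹ * c⁻¹ * x * y⁻¹) * x⁻¹ := by rw [h1]; group
      _ = x * c * (z * x⁻¹) * c⁻¹ := by rw [e4]; group
      _ = x * c * x⁻¹ * (z * c⁻¹) := by rw [← hxz.inv_left.eq]; group
      _ = x * c * x⁻¹ * (c⁻¹ * z) := by rw [hcz.inv_left.eq]
      _ = ⁅x, c⁆ * z := by rw [commutatorElement_def]; group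
  rw [commutatorElement_def, key, mul_inv_cancel_right]

end grp

/-! ### the two families `H`, `E` -/

variable {I S Q : Type*} [Ring S] [Ring Q]

/-- Compatibility of the additive maps `h` (ring homomorphism on `A`) and `e`. -/
structure HE (A : AddSubgroup S) (h e : S →+ Q) : Prop where
  mul_mem : ∀ a ∈ A, ∀ b ∈ A, a * b ∈ A
  hh : ∀ a ∈ A, ∀ b ∈ A, h a * h b = h (a * b)
  he : ∀ a ∈ A, ∀ b ∈ A, h a * e b = 0
  eh : ∀ a ∈ A, ∀ b ∈ A, e a * h b = e (a * b)
  ee : ∀ a ∈ A, ∀ b ∈ A, e a * e b = 0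

/-- The additive subgroup generated by products. -/
def Sq (A : AddSubgroup S) : AddSubgroup S :=
  AddSubgroup.closure {w | ∃ a ∈ A, ∃ b ∈ A, w = a * b}

theorem mul_mem_Sq {A : AddSubgroup S} {a b : S} (ha : a ∈ A) (hb : b ∈ A) : a * b ∈ Sq A :=
  AddSubgroup.subset_closure ⟨a, ha, b, hb, rfl⟩

section DE

variable {A : AddSubgroup S} {h e : S →+ Q} (hHE : HE A h e)
include hHE

theorem HE.Sq_le : Sq A ≤ A := by
  rw [Sq, AddSubgroup.closure_le]
  rintro _ ⟨a, ha, b, hb, rfl⟩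
  exact hHE.mul_mem a ha b hb

theorem HE.comm_EH {i j k : I} (hij : i ≠ j) (hjk : j ≠ k) (hik : i ≠ k) {w a : S} (hw : w ∈ A)
    (ha : a ∈ A) : ⁅x i j hij (e w), x j k hjk (h a)⁆ = x i k hik (e (w * a)) := by
  rw [x_comm i j k hij hjk hik, hHE.eh w hw a ha]

theorem HE.comm_HH {i j k : I} (hij : i ≠ j) (hjk : j ≠ k) (hik : i ≠ k) {w a : S} (hw : w ∈ A)
    (ha : a ∈ A) : ⁅x i j hij (h w), x j k hjk (h a)⁆ = x i k hik (h (w * a)) := by
  rw [x_comm i j k hij hjk hik, hHE.hh w hw a ha]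

theorem HE.cHE {i j k : I} (hij : i ≠ j) (hjk : j ≠ k) (hik : i ≠ k) {w a : S} (hw : w ∈ A)
    (ha : a ∈ A) : Commute (x i j hij (h a)) (x j k hjk (e w)) := by
  rw [← commutatorElement_eq_one_iff_commute, x_comm i j k hij hjk hik, hHE.he a ha w hw, x_zero]

theorem HE.cEE {i j k : I} (hij : i ≠ j) (hjk : j ≠ k) (hik : i ≠ k) {w a : S} (hw : w ∈ A)
    (ha : a ∈ A) : Commute (x i j hij (e a)) (x j k hjk (e w)) := by
  rw [← commutatorElement_eq_one_iff_commute, x_comm i j k hij hjk hik, hHE.ee a ha w hw, x_zero]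

/-- opposite `E`'s commute for `w ∈ A²`. -/
theorem HE.cOpp (h3 : ∀ a b : I, ∃ d, d ≠ a ∧ d ≠ b) {i j : I} (hij : i ≠ j) {w w' : S}
    (hw : w ∈ Sq A) (hw' : w' ∈ A) :
    Commute (x i j hij (e w)) (x j i hij.symm (e w')) := by
  obtain ⟨k, hki, hkj⟩ := h3 i j
  induction hw using AddSubgroup.closure_induction with
  | mem w hw =>
    obtain ⟨b, hb, c, hc, rfl⟩ := hw
    rw [← hHE.comm_EH hki.symm hkj hij hb hc]
    apply Commute.symm
    apply commute_comm
    · exact hHE.cEE hij.symm hki.symm hkj.symm hb hw'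
    · exact (hHE.cHE hkj hij.symm hki hw' hc).symm
  | zero => rw [map_zero, x_zero]; exact Commute.one_left _
  | add a b _ _ iha ihb => rw [map_add, x_add]; exact iha.mul_left ihb
  | neg a _ iha => rw [map_neg, x_neg]; exact iha.inv_left

/-- All `E`'s commute (one of them from `A²`). -/
theorem HE.cE (h3 : ∀ a b : I, ∃ d, d ≠ a ∧ d ≠ b) {i j k l : I} (hij : i ≠ j) (hkl : k ≠ l)
    {w w' : S} (hw : w ∈ Sq A) (hw' : w' ∈ A) :
    Commute (x i j hij (e w)) (x k l hkl (e w')) := by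
  have hwA := hHE.Sq_le hw
  by_cases hjk : j = k
  · subst hjk
    by_cases hil : i = l
    · subst hil
      exact hHE.cOpp h3 hij hw hw'
    · exact hHE.cEE hij hkl hil hw' hwA
  · by_cases hil : i = l
    · subst hil
      exact (hHE.cEE hkl hij (fun hh => hjk hh.symm) hwA hw').symm
    · exact x_commute _ _ _ _ _ _ hjk hil _ _

/-- the symbol `D_ij(w,a) = [E_ij(w), H_ji(a)]` -/
abbrev D (h e : S →+ Q) (i j : I) (hij : i ≠ j) (w a : S) : St I Q :=
  ⁅x i j hij (e w), x j i hij.symm (h a)⁆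

/-- `D_ij(wb,a) = D_ik(w,ba)` -/
theorem HE.D_shift {i j k : I} (hij : i ≠ j) (hjk : j ≠ k) (hik : i ≠ k) {w b a : S}
    (hw : w ∈ A) (hb : b ∈ A) (ha : a ∈ A) :
    D h e i j hij (w * b) a = D h e i k hik w (b * a) := by
  apply hallWitt (x := x i k hik (e w)) (y := x k j hjk.symm (h b)) (z := x j i hij.symm (h a))
  · exact (hHE.cHE hij.symm hik hjk hw ha).symm
  · exact hHE.comm_HH hjk.symm hij.symm hik.symm hb ha
  · exact hHE.comm_EH hik hjk.symm hij hw hb
  · exact x_commute _ _ _ _ _ _ hik hjk.symm _ _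
  · exact x_commute _ _ _ _ _ _ hij hik.symm _ _
  · exact (hHE.cHE hik.symm hij hjk.symm (hHE.mul_mem w hw b hb) (hHE.mul_mem b hb a ha)).symm

/-- commutation with `E_ik`, `k ≠ j` -/
theorem HE.cED_row {i j k : I} (hij : i ≠ j) (hjk : j ≠ k) (hik : i ≠ k) {w a w' : S}
    (hw : w ∈ A) (ha : a ∈ A) (hw' : w' ∈ A) :
    Commute (x i k hik (e w')) (D h e i j hij w a) := by
  apply commute_comm
  · exact x_commute _ _ _ _ _ _ hik.symm hij _ _
  · exact (hHE.cHE hij.symm hik hjk hw' ha).symm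

end DE

theorem inv_conj_of_comm {G : Type*} [Group G] {X H c : G} (h : ⁅X, H⁆ = c) (hc : Commute c H) :
    H⁻¹ * X * H = c * X := by
  have h1 : X * H = c * H * X := by rw [← h, commutatorElement_def]; group
  rw [mul_assoc, h1, hc.eq]; group

theorem comm_inv_left' {G : Type*} [Group G] {a c : G} (h : Commute a ⁅a, c⁆) :
    ⁅a⁻¹, c⁆ = ⁅a, c⁆⁻¹ := by
  have h1 : ⁅a⁻¹, c⁆ = a⁻¹ * ⁅a, c⁆⁻¹ * a := by simp only [commutatorElement_def]; group
  rw [h1, h.inv_inv.eq, inv_mul_cancel_right]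

section DE2

variable {A : AddSubgroup S} {h e : S →+ Q} (hHE : HE A h e)
  (h4 : ∀ a b c : I, ∃ d, d ≠ a ∧ d ≠ b ∧ d ≠ c)
include hHE h4

/-- for `w ∈ A²`: `D_ij` does not depend on `j`, and commutes with `E_ij`. -/
theorem HE.D_indep {i j l : I} (hij : i ≠ j) (hil : i ≠ l) {w a : S}
    (hw : w ∈ Sq A) (ha : a ∈ A) :
    D h e i j hij w a = D h e i l hil w a ∧
      (∀ w' ∈ A, Commute (x i j hij (e w')) (D h e i j hij w a)) ∧
      (∀ w' ∈ A, Commute (x i l hil (e w')) (D h e i l hil w a)) := by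
  obtain ⟨k, hki, hkj, hkl⟩ := h4 i j l
  induction hw using AddSubgroup.closure_induction with
  | mem w hw =>
    obtain ⟨w1, hw1, b, hb, rfl⟩ := hw
    have e1 := hHE.D_shift hij hkj.symm hki.symm hw1 hb ha
    have e2 := hHE.D_shift hil hkl.symm hki.symm hw1 hb ha
    refine ⟨e1.trans e2.symm, fun w' hw' => ?_, fun w' hw' => ?_⟩
    · rw [e1]
      exact hHE.cED_row hki.symm hkj hij hw1 (hHE.mul_mem b hb a ha) hw'
    · rw [e2]
      exact hHE.cED_row hki.symm hkl hil hw1 (hHE.mul_mem b hb a ha) hw'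
  | zero =>
    have e0 : ∀ (j : I) (hij : i ≠ j), D h e i j hij 0 a = 1 := by
      intro j hij
      simp only [D, map_zero, x_zero, commutatorElement_one_left]
    rw [e0 j hij, e0 l hil]
    exact ⟨rfl, fun _ _ => Commute.one_right _, fun _ _ => Commute.one_right _⟩
  | add u v hu hv ihu ihv =>
    have huA := hHE.Sq_le hu
    obtain ⟨a1, a2, a3⟩ := ihu
    obtain ⟨b1, b2, b3⟩ := ihv
    have e1 : D h e i j hij (u + v) a = D h e i j hij v a * D h e i j hij u a := by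
      simp only [D, map_add, x_add]
      exact comm_mul_left' (b2 u huA)
    have e2 : D h e i l hil (u + v) a = D h e i l hil v a * D h e i l hil u a := by
      simp only [D, map_add, x_add]
      exact comm_mul_left' (b3 u huA)
    refine ⟨by rw [e1, e2, a1, b1], fun w' hw' => ?_, fun w' hw' => ?_⟩
    · rw [e1]; exact (b2 w' hw').mul_right (a2 w' hw')
    · rw [e2]; exact (b3 w' hw').mul_right (a3 w' hw')
  | neg u hu ihu =>
    have huA := hHE.Sq_le hu
    obtain ⟨a1, a2, a3⟩ := ihu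
    have e1 : D h e i j hij (-u) a = (D h e i j hij u a)⁻¹ := by
      simp only [D, map_neg, x_neg]
      exact comm_inv_left' (a2 u huA)
    have e2 : D h e i l hil (-u) a = (D h e i l hil u a)⁻¹ := by
      simp only [D, map_neg, x_neg]
      exact comm_inv_left' (a3 u huA)
    refine ⟨by rw [e1, e2, a1], fun w' hw' => ?_, fun w' hw' => ?_⟩
    · rw [e1]; exact (a2 w' hw').inv_right
    · rw [e2]; exact (a3 w' hw').inv_right

theorem HE.D_eq {i j l : I} (hij : i ≠ j) (hil : i ≠ l) {w a : S}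
    (hw : w ∈ Sq A) (ha : a ∈ A) : D h e i j hij w a = D h e i l hil w a :=
  (hHE.D_indep h4 hij hil hw ha).1

/-- `E_kl` commutes with `D_i(w,a)`, `w ∈ A²`. -/
theorem HE.cED {i j k l : I} (hij : i ≠ j) (hkl : k ≠ l) {w a w' : S}
    (hw : w ∈ Sq A) (ha : a ∈ A) (hw' : w' ∈ A) :
    Commute (x k l hkl (e w')) (D h e i j hij w a) := by
  obtain ⟨j', hi, hk, hl⟩ := h4 i k l
  rw [hHE.D_eq h4 hij hi.symm hw ha]
  have hwA := hHE.Sq_le hw
  by_cases hki : k = i
  · subst hki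
    exact hHE.cED_row hi.symm hl hkl hwA ha hw'
  · by_cases hli : l = i
    · subst hli
      apply commute_comm
      · exact hHE.cEE hkl hi.symm hk.symm hwA hw'
      · exact x_commute _ _ _ _ _ _ hi.symm hkl _ _
    · apply commute_comm
      · exact x_commute _ _ _ _ _ _ hli hk.symm _ _
      · exact x_commute _ _ _ _ _ _ hl.symm hki _ _

/-- `H_kl`, `k ≠ i`, commutes with `D_i(w,a)`, `w ∈ A²`. -/
theorem HE.cHD {i j k l : I} (hij : i ≠ j) (hkl : k ≠ l) (hki : k ≠ i) {w a b : S}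
    (hw : w ∈ Sq A) (ha : a ∈ A) (hb : b ∈ A) :
    Commute (x k l hkl (h b)) (D h e i j hij w a) := by
  obtain ⟨j', hi, hk, hl⟩ := h4 i k l
  rw [hHE.D_eq h4 hij hi.symm hw ha]
  have hwA := hHE.Sq_le hw
  by_cases hli : l = i
  · subst hli
    apply commute_comm
    · exact hHE.cHE hkl hi.symm hk.symm hwA hb
    · exact x_commute _ _ _ _ _ _ hi.symm hkl _ _
  · apply commute_comm
    · exact x_commute _ _ _ _ _ _ hli hk.symm _ _
    · exact x_commute _ _ _ _ _ _ hl.symm hki _ _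

/-- the `D`'s commute. -/
theorem HE.cDD {i j k l : I} (hij : i ≠ j) (hkl : k ≠ l) {w a w' a' : S}
    (hw : w ∈ Sq A) (ha : a ∈ A) (hw' : w' ∈ Sq A) (ha' : a' ∈ A) :
    Commute (D h e k l hkl w' a') (D h e i j hij w a) := by
  obtain ⟨l', hk, hi, -⟩ := h4 k i i
  rw [hHE.D_eq h4 hkl hk.symm hw' ha']
  apply Commute.symm
  apply commute_comm
  · exact (hHE.cED h4 hij hk.symm hw ha (hHE.Sq_le hw')).symm
  · exact (hHE.cHD h4 hij hk hi hw ha ha').symm

theorem HE.D_add_left {i j : I} (hij : i ≠ j) {w w' a : S}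
    (hw : w ∈ Sq A) (hw' : w' ∈ Sq A) (ha : a ∈ A) :
    D h e i j hij (w + w') a = D h e i j hij w a * D h e i j hij w' a := by
  have : D h e i j hij (w + w') a = D h e i j hij w' a * D h e i j hij w a := by
    simp only [D, map_add, x_add]
    exact comm_mul_left' (hHE.cED h4 hij hij hw' ha (hHE.Sq_le hw))
  rw [this, (hHE.cDD h4 hij hij hw ha hw' ha).eq]

theorem HE.D_add_right {i j : I} (hij : i ≠ j) {w a a' : S}
    (hw : w ∈ Sq A) (ha : a ∈ A) (ha' : a' ∈ A) :
    D h e i j hij w (a + a') = D h e i j hij w a * D h e i j hij w a' := by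
  simp only [D, map_add, x_add]
  exact comm_mul_right' (hHE.cHD h4 hij hij.symm hij.symm hw ha' ha)

theorem HE.D_bal {i j : I} (hij : i ≠ j) {w b a : S}
    (hw : w ∈ Sq A) (hb : b ∈ A) (ha : a ∈ A) :
    D h e i j hij (w * b) a = D h e i j hij w (b * a) := by
  obtain ⟨k, hki, hkj, -⟩ := h4 i j j
  rw [hHE.D_shift hij hkj.symm hki.symm (hHE.Sq_le hw) hb ha]
  exact hHE.D_eq h4 _ _ hw (hHE.mul_mem b hb a ha)

/-- the action of `H_il` on `D_i`. -/
theorem HE.actD {i j l : I} (hij : i ≠ j) (hil : i ≠ l) {w a b : S}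
    (hw : w ∈ Sq A) (ha : a ∈ A) (hb : b ∈ A) :
    (x i l hil (h b))⁻¹ * D h e i j hij w a * x i l hil (h b) =
      D h e i j hij w a * x i l hil (e (w * a * b)) := by
  obtain ⟨k, hki, hkl, -⟩ := h4 i l l
  have hwA := hHE.Sq_le hw
  rw [hHE.D_eq h4 hij hki.symm hw ha]
  have e1 : (x i l hil (h b))⁻¹ * D h e i k hki.symm w a * x i l hil (h b) =
      ⁅(x i l hil (h b))⁻¹ * x i k hki.symm (e w) * x i l hil (h b),
        (x i l hil (h b))⁻¹ * x k i hki (h a) * x i l hil (h b)⁆ := by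
    simp only [D, commutatorElement_def]; group
  have e2 : (x i l hil (h b))⁻¹ * x i k hki.symm (e w) * x i l hil (h b) =
      x i k hki.symm (e w) := by
    have : Commute (x i l hil (h b)) (x i k hki.symm (e w)) :=
      x_commute _ _ _ _ _ _ hil.symm hki.symm _ _
    rw [this.inv_left.eq, inv_mul_cancel_right]
  have e3 : (x i l hil (h b))⁻¹ * x k i hki (h a) * x i l hil (h b) =
      x k l hkl (h (a * b)) * x k i hki (h a) := by
    apply inv_conj_of_comm
    · exact hHE.comm_HH hki hil hkl ha hb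
    · exact x_commute _ _ _ _ _ _ hil.symm hkl _ _
  rw [e1, e2, e3, comm_mul_right, hHE.comm_EH hki.symm hkl hil hwA (hHE.mul_mem a ha b hb)]
  have hc := hHE.cHD h4 hki.symm hkl hki hw ha (hHE.mul_mem a ha b hb)
  change _ * (_ * D h e i k hki.symm w a * _) = _
  rw [hc.eq, mul_inv_cancel_right, mul_assoc w a b]
  have hwab : w * (a * b) ∈ A := hHE.mul_mem w hwA _ (hHE.mul_mem a ha b hb)
  exact (hHE.cED h4 hki.symm hil hw ha hwab).eq

/-- the action of `H_kl` on `E_ij`, `j ≠ k` -/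
theorem HE.actE_ne {i j k l : I} (hij : i ≠ j) (hkl : k ≠ l) (hjk : j ≠ k) {w b : S}
    (hw : w ∈ A) (hb : b ∈ A) :
    (x k l hkl (h b))⁻¹ * x i j hij (e w) * x k l hkl (h b) = x i j hij (e w) := by
  have : Commute (x k l hkl (h b)) (x i j hij (e w)) := by
    by_cases hil : i = l
    · subst hil
      exact hHE.cHE hkl hij hjk.symm hw hb
    · exact x_commute _ _ _ _ _ _ (fun hh => hil hh.symm) (fun hh => hjk hh.symm) _ _
  rw [this.inv_left.eq, inv_mul_cancel_right]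

omit h4 in
/-- the action of `H_kl` on `E_ik`, `i ≠ l` -/
theorem HE.actE_eq {i k l : I} (hik : i ≠ k) (hkl : k ≠ l) (hil : i ≠ l) {w b : S}
    (hw : w ∈ A) (hb : b ∈ A) :
    (x k l hkl (h b))⁻¹ * x i k hik (e w) * x k l hkl (h b) =
      x i l hil (e (w * b)) * x i k hik (e w) := by
  apply inv_conj_of_comm
  · exact hHE.comm_EH hik hkl hil hw hb
  · exact x_commute _ _ _ _ _ _ hkl.symm hil _ _

/-- the action of `H_ki` on `E_ik` -/
theorem HE.actE_opp {i k : I} (hik : i ≠ k) {w b : S}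
    (hw : w ∈ Sq A) (hb : b ∈ A) :
    (x k i hik.symm (h b))⁻¹ * x i k hik (e w) * x k i hik.symm (h b) =
      D h e i k hik w b * x i k hik (e w) := by
  apply inv_conj_of_comm
  · rfl
  · exact (hHE.cHD h4 hik hik.symm hik.symm hw hb hb).symm

end DE2

end Crest.Agent.R176.Exc275
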