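import Crest.Agent.R176.Exc275C

/-! Row 176, part B, block EXC (helper275): steps (A), (C). -/

set_option autoImplicit false

namespace Crest.Agent.R176.Exc275

open St Cover294
open scoped commutatorElement

variable {I S Q : Type} [Ring S] [Ring Q] [Fintype I] [DecidableEq I]

/-- Matrix of a word after a coefficient change `F`, multiplicative on `A`. -/
theorem toMat_ev_mul {A : AddSubgroup S} (hA : ∀ a ∈ A, ∀ b ∈ A, a * b ∈ A) (F : S →+ Q)
    (hF : ∀ a ∈ A, ∀ b ∈ A, F (a * b) = F a * F b) (l : List (StGen I S))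
    (hl : ∀ t ∈ l, t.2 ∈ A) :
    (∀ i j, (mt l - 1) i j ∈ A) ∧
      (toMat (ev (fun a => F a) l)).val = 1 + (mt l - 1).map F := by
  induction l with
  | nil =>
    refine ⟨fun i j => ?_, ?_⟩
    · rw [mt_nil, sub_self]; exact A.zero_mem
    · rw [mt_nil, sub_self, ev_nil, map_one, Units.val_one]
      ext i j
      simp
  | cons t l ih =>
    obtain ⟨ih1, ih2⟩ := ih (fun t' ht' => hl t' (List.mem_cons_of_mem _ ht'))
    have ht : t.2 ∈ A := hl t List.mem_cons_self
    obtain ⟨⟨⟨k, l'⟩, hkl⟩, a⟩ := t
    change a ∈ A at ht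
    change k ≠ l' at hkl
    have e1 : mt ((⟨(k, l'), hkl⟩, a) :: l) - 1 =
        (mt l - 1) + Matrix.single k l' a + Matrix.single k l' a * (mt l - 1) := by
      rw [mt_cons]
      noncomm_ring
    have e2 : ∀ i j, (Matrix.single k l' a * (mt l - 1)) i j =
        if i = k then a * (mt l - 1) l' j else 0 := by
      intro i j
      by_cases hi : i = k
      · subst hi
        rw [Matrix.single_mul_apply_same, if_pos rfl]
      · rw [Matrix.single_mul_apply_of_ne _ _ _ _ _ hi, if_neg hi]
    have e3 : ∀ i j, (Matrix.single k l' (F a) * (mt l - 1).map F) i j =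
        if i = k then F a * F ((mt l - 1) l' j) else 0 := by
      intro i j
      by_cases hi : i = k
      · subst hi
        rw [Matrix.single_mul_apply_same, if_pos rfl, Matrix.map_apply]
      · rw [Matrix.single_mul_apply_of_ne _ _ _ _ _ hi, if_neg hi]
    refine ⟨fun i j => ?_, ?_⟩
    · rw [e1, Matrix.add_apply, Matrix.add_apply, e2]
      refine A.add_mem (A.add_mem (ih1 i j) ?_) ?_
      · rw [Matrix.single_apply]
        split_ifs
        · exact ht
        · exact A.zero_mem
      · split_ifs
        · exact hA _ ht _ (ih1 _ _)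
        · exact A.zero_mem
    · rw [ev_cons, map_mul, Units.val_mul, ih2, toMat_x, elem_val, e1]
      have e4 : (1 + Matrix.single k l' (F a)) * (1 + (mt l - 1).map F) =
          1 + ((mt l - 1).map F + Matrix.single k l' (F a) +
            Matrix.single k l' (F a) * (mt l - 1).map F) := by
        noncomm_ring
      change (1 + Matrix.single k l' (F a)) * _ = _
      rw [e4]
      congr 1
      ext i j
      rw [Matrix.add_apply, Matrix.add_apply, e3, Matrix.map_apply, Matrix.map_apply,
        Matrix.add_apply, Matrix.add_apply, map_add, map_add, e2, Matrix.single_apply,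
        Matrix.single_apply]
      congr 1
      · congr 1
        split_ifs
        · rfl
        · rw [map_zero]
      · split_ifs
        · rw [hF _ ht _ (ih1 _ _)]
        · rw [map_zero]

theorem toMat_ev_eq_one {A : AddSubgroup S} (hA : ∀ a ∈ A, ∀ b ∈ A, a * b ∈ A) (F : S →+ Q)
    (hF : ∀ a ∈ A, ∀ b ∈ A, F (a * b) = F a * F b) (l : List (StGen I S))
    (hl : ∀ t ∈ l, t.2 ∈ A) (hm : mt l = 1) : toMat (ev (fun a => F a) l) = 1 := by
  apply Units.ext
  rw [(toMat_ev_mul hA F hF l hl).2, hm, sub_self, Units.val_one]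
  ext i j
  simp

/-- the additive map `a ↦ single s s (f a) + single s t (v a)` -/
def Fst (f v : S →+ S) (s t : Fin 2) : S →+ Matrix (Fin 2) (Fin 2) S where
  toFun a := Matrix.single s s (f a) + Matrix.single s t (v a)
  map_zero' := by simp
  map_add' a b := by
    rw [map_add, map_add, Matrix.single_add, Matrix.single_add]; abel

/-- the additive map `a ↦ single s s (f a)` -/
def Fs (f : S →+ S) (s : Fin 2) : S →+ Matrix (Fin 2) (Fin 2) S where
  toFun a := Matrix.single s s (f a)
  map_zero' := by simp
  map_add' a b := by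
    rw [map_add, Matrix.single_add]

/-- **(X2)** -/
theorem stepAC (I : Type) [Fintype I] [DecidableEq I] (S : Type) [Ring S] : StepAC I S := by
  intro A hA f v hf hv s t hst l hl hm
  let P : I × Fin 2 → I × Fin 2 → Prop := fun a b => a.2 = s ∧ b.2 = t
  have htr : ∀ i j k : I × Fin 2, P i j → P j k → P i k := by
    rintro i j k ⟨h1, h2⟩ ⟨h3, h4⟩
    exact absurd (h3.symm.trans h2) hst
  have hirr : ∀ i : I × Fin 2, ¬ P i i := by
    rintro i ⟨h1, h2⟩
    exact hst (h1.symm.trans h2)
  have hF1 : ∀ a ∈ A, ∀ b ∈ A, Fst f v s t (a * b) = Fst f v s t a * Fst f v s t b := by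
    intro a ha b hb
    change Matrix.single s s (f (a * b)) + Matrix.single s t (v (a * b)) =
      (Matrix.single s s (f a) + Matrix.single s t (v a)) *
      (Matrix.single s s (f b) + Matrix.single s t (v b))
    rw [hf a ha b hb, hv a ha b hb, mul_add, add_mul, add_mul, Matrix.single_mul_single_same,
      Matrix.single_mul_single_same, Matrix.single_mul_single_of_ne _ _ _ _ hst.symm,
      Matrix.single_mul_single_of_ne _ _ _ _ hst.symm, add_zero, add_zero]
  have hF2 : ∀ a ∈ A, ∀ b ∈ A, Fs f s (a * b) = Fs f s a * Fs f s b := by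
    intro a ha b hb
    change Matrix.single s s (f (a * b)) = Matrix.single s s (f a) * Matrix.single s s (f b)
    rw [hf a ha b hb, Matrix.single_mul_single_same]
  have m1 : toMat (Blk I (Fin 2) S (ev (fun a => Fst f v s t a) l)) = 1 :=
    toMat_Blk_eq_one _ (toMat_ev_eq_one hA (Fst f v s t) hF1 l hl hm)
  have m2 : toMat (Blk I (Fin 2) S (ev (fun a => Fs f s a) l)) = 1 :=
    toMat_Blk_eq_one _ (toMat_ev_eq_one hA (Fs f s) hF2 l hl hm)
  have hmem : ∀ l : List (StGen I S), Blk I (Fin 2) S (ev (fun a => Fst f v s t a) l) *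
      (Blk I (Fin 2) S (ev (fun a => Fs f s a) l))⁻¹ ∈ Sub S P := by
    intro l
    induction l with
    | nil => simp
    | cons u l ih =>
      obtain ⟨⟨⟨k, l'⟩, hkl⟩, a⟩ := u
      change k ≠ l' at hkl
      rw [ev_cons, ev_cons, map_mul, map_mul, Blk_x, Blk_x]
      change blk k l' hkl (Matrix.single s s (f a) + Matrix.single s t (v a)) * _ *
        (blk k l' hkl (Matrix.single s s (f a)) * _)⁻¹ ∈ _
      rw [blk_add, blk_single, blk_single]
      have hV : (x (k, s) (l', t) (pne hkl _ _) (v a) : St (I × Fin 2) S) ∈ Sub S P :=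
        x_mem_Sub _ ⟨rfl, rfl⟩ _
      have e1 : ∀ (X Y B C : St (I × Fin 2) S), X * Y * B * (X * C)⁻¹ =
          (X * (Y * (B * C⁻¹)) * X⁻¹) := by
        intro X Y B C; group
      rw [e1]
      apply conj_mem_Sub
      · rintro k' ⟨-, h2⟩
        refine ⟨?_, rfl, h2⟩
        rintro rfl
        exact hst h2
      · rintro k' ⟨-, h2⟩
        exact absurd h2 hst
      · exact (Sub S P).mul_mem hV ih
  have := Sub_inj htr hirr _ (hmem l) (by rw [map_mul, map_inv, m1, m2, inv_one, mul_one])
  exact mul_inv_eq_one.mp this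

end Crest.Agent.R176.Exc275
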