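import Crest.Agent.R176.Exc275A

/-! Row 176, part B, block EXC (helper275), step (B), conclusion. -/

set_option autoImplicit false

namespace Crest.Agent.R176.Exc275

open St
open scoped commutatorElement IsMulCommutative

/-- Extension property ("finite presentation in high degrees"): every map `f`, additive in both
variables on `W × A` and balanced over `A`, with values in a commutative group, is induced by an
additive map on `A'`. -/
def FP (S : Type) [Ring S] (W A A' : AddSubgroup S) : Prop :=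
  ∀ (M : Type) [CommGroup M] (f : S → S → M),
    (∀ w ∈ W, ∀ w' ∈ W, ∀ a ∈ A, f (w + w') a = f w a * f w' a) →
    (∀ w ∈ W, ∀ a ∈ A, ∀ a' ∈ A, f w (a + a') = f w a * f w a') →
    (∀ w ∈ W, ∀ b ∈ A, ∀ a ∈ A, f (w * b) a = f w (b * a)) →
    ∃ g : S → M, (∀ u ∈ A', ∀ u' ∈ A', g (u + u') = g u * g u') ∧
      (∀ w ∈ A', ∀ a ∈ A', g (w * a) = f w a) ∧
      (∀ P : S → M → Prop, P 0 1 → (∀ w ∈ W, ∀ a ∈ A, P (w * a) (f w a)) →
        (∀ u m u' m', P u m → P u' m' → P (u + u') (m * m')) → ∀ u ∈ A', P u (g u))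

variable {I S Q : Type} [Ring S] [Ring Q]

/-- evaluation of a word, coefficients mapped by `f` -/
def ev (f : S → Q) (l : List (StGen I S)) : St I Q :=
  (l.map fun t => x t.1.1.1 t.1.1.2 t.1.2 (f t.2)).prod

@[simp] theorem ev_nil (f : S → Q) : ev (I := I) f [] = 1 := rfl

@[simp] theorem ev_cons (f : S → Q) (t : StGen I S) (l : List (StGen I S)) :
    ev f (t :: l) = x t.1.1.1 t.1.1.2 t.1.2 (f t.2) * ev f l := by
  simp [ev]

@[simp] theorem ev_append (f : S → Q) (l l' : List (StGen I S)) :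
    ev f (l ++ l') = ev f l * ev f l' := by
  simp [ev]

/-- the matrix of a word -/
def mt [Fintype I] [DecidableEq I] (l : List (StGen I S)) : Matrix I I S :=
  (l.map fun t => (1 + Matrix.single t.1.1.1 t.1.1.2 t.2 : Matrix I I S)).prod

@[simp] theorem mt_nil [Fintype I] [DecidableEq I] : mt ([] : List (StGen I S)) = 1 := rfl

@[simp] theorem mt_cons [Fintype I] [DecidableEq I] (t : StGen I S) (l : List (StGen I S)) :
    mt (t :: l) = (1 + Matrix.single t.1.1.1 t.1.1.2 t.2) * mt l := by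
  simp [mt]

@[simp] theorem mt_append [Fintype I] [DecidableEq I] (l l' : List (StGen I S)) :
    mt (l ++ l') = mt l * mt l' := by
  simp [mt]

section T

variable {A : AddSubgroup S} {h e : S →+ Q} 

/-- generators of the commutative subgroup `T` -/
def Tset (I : Type) (A : AddSubgroup S) (h e : S →+ Q) : Set (St I Q) :=
  {g | (∃ i j, ∃ hij : i ≠ j, ∃ w ∈ Sq A, g = x i j hij (e w)) ∨
    (∃ i j, ∃ hij : i ≠ j, ∃ w ∈ Sq A, ∃ a ∈ A, g = D h e i j hij w a)}

/-- the commutative subgroup `T` -/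
def T (I : Type) (A : AddSubgroup S) (h e : S →+ Q) : Subgroup (St I Q) :=
  Subgroup.closure (Tset I A h e)

theorem E_mem_T {i j : I} (hij : i ≠ j) {w : S} (hw : w ∈ Sq A) :
    x i j hij (e w) ∈ T I A h e := Subgroup.subset_closure (Or.inl ⟨i, j, hij, w, hw, rfl⟩)

theorem D_mem_T {i j : I} (hij : i ≠ j) {w a : S} (hw : w ∈ Sq A) (ha : a ∈ A) :
    D h e i j hij w a ∈ T I A h e :=
  Subgroup.subset_closure (Or.inr ⟨i, j, hij, w, hw, a, ha, rfl⟩)

theorem h3_of_h4 (h4 : ∀ a b c : I, ∃ d, d ≠ a ∧ d ≠ b ∧ d ≠ c) :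
    ∀ a b : I, ∃ d, d ≠ a ∧ d ≠ b := by
  intro a b
  obtain ⟨d, h1, h2, -⟩ := h4 a b b
  exact ⟨d, h1, h2⟩

theorem HE.T_comm (hHE : HE A h e) (h4 : ∀ a b c : I, ∃ d, d ≠ a ∧ d ≠ b ∧ d ≠ c) :
    IsMulCommutative (T I A h e) := by
  apply Subgroup.isMulCommutative_closure
  rintro g (⟨i, j, hij, w, hw, rfl⟩ | ⟨i, j, hij, w, hw, a, ha, rfl⟩) g'
    (⟨k, l, hkl, w', hw', rfl⟩ | ⟨k, l, hkl, w', hw', a', ha', rfl⟩)
  · exact (hHE.cE (h3_of_h4 h4) hij hkl hw (hHE.Sq_le hw')).eq
  · exact (hHE.cED h4 hkl hij hw' ha' (hHE.Sq_le hw)).eq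
  · exact (hHE.cED h4 hij hkl hw ha (hHE.Sq_le hw')).symm.eq
  · exact (hHE.cDD h4 hkl hij hw' ha' hw ha).eq

theorem HE.Sq_mul (hHE : HE A h e) {w a : S} (hw : w ∈ Sq A) (ha : a ∈ A) : w * a ∈ Sq A :=
  mul_mem_Sq (hHE.Sq_le hw) ha

/-- conjugation by `H_kl(b)⁻¹` preserves `T`. -/
theorem HE.conj_T (hHE : HE A h e) (h4 : ∀ a b c : I, ∃ d, d ≠ a ∧ d ≠ b ∧ d ≠ c)
    {k l : I} (hkl : k ≠ l) {b : S} (hb : b ∈ A) (g : St I Q) (hg : g ∈ T I A h e) :
    (x k l hkl (h b))⁻¹ * g * x k l hkl (h b) ∈ T I A h e := by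
  induction hg using Subgroup.closure_induction with
  | mem g hg =>
    rcases hg with (⟨i, j, hij, w, hw, rfl⟩ | ⟨i, j, hij, w, hw, a, ha, rfl⟩)
    · by_cases hjk : j = k
      · subst hjk
        by_cases hil : i = l
        · subst hil
          rw [hHE.actE_opp h4 hij hw hb]
          exact (T I A h e).mul_mem (D_mem_T hij hw hb) (E_mem_T hij hw)
        · rw [hHE.actE_eq hij hkl hil (hHE.Sq_le hw) hb]
          exact (T I A h e).mul_mem (E_mem_T hil (hHE.Sq_mul hw hb)) (E_mem_T hij hw)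
      · rw [hHE.actE_ne h4 hij hkl hjk (hHE.Sq_le hw) hb]
        exact E_mem_T hij hw
    · by_cases hik : i = k
      · subst hik
        rw [hHE.actD h4 hij hkl hw ha hb]
        exact (T I A h e).mul_mem (D_mem_T hij hw ha)
          (E_mem_T hkl (hHE.Sq_mul (hHE.Sq_mul hw ha) hb))
      · have := hHE.cHD h4 hij hkl (fun hh => hik hh.symm) hw ha hb
        rw [this.inv_left.eq, inv_mul_cancel_right]
        exact D_mem_T hij hw ha
  | one => simp
  | mul a c _ _ iha ihc =>
    have : (x k l hkl (h b))⁻¹ * (a * c) * x k l hkl (h b) =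
        ((x k l hkl (h b))⁻¹ * a * x k l hkl (h b)) * ((x k l hkl (h b))⁻¹ * c * x k l hkl (h b)) := by
      group
    rw [this]
    exact (T I A h e).mul_mem iha ihc
  | inv a _ iha =>
    have : (x k l hkl (h b))⁻¹ * a⁻¹ * x k l hkl (h b) =
        ((x k l hkl (h b))⁻¹ * a * x k l hkl (h b))⁻¹ := by
      group
    rw [this]
    exact (T I A h e).inv_mem iha

/-- conjugation by `g⁻¹` as an endomorphism of a subgroup stable under it -/
def conjHom {G : Type} [Group G] (T : Subgroup G) (y : G) (hy : ∀ g ∈ T, y⁻¹ * g * y ∈ T) :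
    T →* T where
  toFun t := ⟨y⁻¹ * t * y, hy t t.2⟩
  map_one' := Subtype.ext (by simp)
  map_mul' a b := Subtype.ext (by simp only [Subgroup.coe_mul]; group)

end T

section tau

variable {A W A' : AddSubgroup S} {h e : S →+ Q}

open Classical in
/-- Existence of the family `τ_ij`. -/
theorem HE.exists_tau (hHE : HE A h e) (h4 : ∀ a b c : I, ∃ d, d ≠ a ∧ d ≠ b ∧ d ≠ c)
    (hW : W ≤ Sq A) (hA'W : A' ≤ W) (hA'A : ∀ u ∈ A', ∀ a ∈ A', u * a ∈ A')
    (hFP : FP S W A A') :
    ∃ τ : I → I → S → T I A h e,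
      (∀ i j, ∀ u ∈ A', ∀ u' ∈ A', τ i j (u + u') = τ i j u * τ i j u') ∧
      (∀ i j (hij : i ≠ j), ∀ u ∈ A', (τ i j u : St I Q) = x i j hij (e u)) ∧
      (∀ i j k l (hkl : k ≠ l), ∀ u ∈ A', ∀ b ∈ A',
        (x k l hkl (h b))⁻¹ * (τ i j u : St I Q) * x k l hkl (h b) =
          τ i j u * (if j = k then (τ i l (u * b) : St I Q) else 1)) := by
  have : IsMulCommutative (T I A h e) := hHE.T_comm h4
  have hex : ∀ i : I, ∃ j, i ≠ j := fun i => by
    obtain ⟨d, h1, -⟩ := h4 i i i
    exact ⟨d, h1.symm⟩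
  choose o ho using hex
  -- the maps `f_i`
  let f : I → S → S → T I A h e := fun i w a =>
    if hwa : w ∈ Sq A ∧ a ∈ A then ⟨D h e i (o i) (ho i) w a, D_mem_T (ho i) hwa.1 hwa.2⟩ else 1
  have hf : ∀ i w a, w ∈ Sq A → a ∈ A → ((f i w a : T I A h e) : St I Q) =
      D h e i (o i) (ho i) w a := by
    intro i w a hw ha
    simp only [f]
    rw [dif_pos ⟨hw, ha⟩]
  have hFPi : ∀ i : I, ∃ g : S → T I A h e, (∀ u ∈ A', ∀ u' ∈ A', g (u + u') = g u * g u') ∧
      (∀ w ∈ A', ∀ a ∈ A', g (w * a) = f i w a) ∧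
      (∀ P : S → T I A h e → Prop, P 0 1 → (∀ w ∈ W, ∀ a ∈ A, P (w * a) (f i w a)) →
        (∀ u m u' m', P u m → P u' m' → P (u + u') (m * m')) → ∀ u ∈ A', P u (g u)) := by
    intro i
    apply hFP (T I A h e) (f i)
    · intro w hw w' hw' a ha
      apply Subtype.ext
      rw [Subgroup.coe_mul, hf i _ _ (hW hw) ha, hf i _ _ (hW hw') ha,
        hf i _ _ ((Sq A).add_mem (hW hw) (hW hw')) ha]
      exact hHE.D_add_left h4 (ho i) (hW hw) (hW hw') ha
    · intro w hw a ha a' ha'
      apply Subtype.ext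
      rw [Subgroup.coe_mul, hf i _ _ (hW hw) ha, hf i _ _ (hW hw) ha',
        hf i _ _ (hW hw) (A.add_mem ha ha')]
      exact hHE.D_add_right h4 (ho i) (hW hw) ha ha'
    · intro w hw b hb a ha
      apply Subtype.ext
      rw [hf i _ _ (hHE.Sq_mul (hW hw) hb) ha, hf i _ _ (hW hw) (hHE.mul_mem b hb a ha)]
      exact hHE.D_bal h4 (ho i) (hW hw) hb ha
  choose g hg1 hg2 hg3 using hFPi
  let τ : I → I → S → T I A h e := fun i j u =>
    if hij : i = j then g i u else if hu : u ∈ A' then ⟨x i j hij (e u), E_mem_T hij (hW (hA'W hu))⟩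
      else 1
  have hτ0 : ∀ i u, τ i i u = g i u := by
    intro i u; simp [τ]
  have hτ1 : ∀ i j (hij : i ≠ j), ∀ u ∈ A', (τ i j u : St I Q) = x i j hij (e u) := by
    intro i j hij u hu
    simp only [τ]
    rw [dif_neg hij, dif_pos hu]
  refine ⟨τ, ?_, hτ1, ?_⟩
  · intro i j u hu u' hu'
    by_cases hij : i = j
    · subst hij
      rw [hτ0, hτ0, hτ0, hg1 i u hu u' hu']
    · apply Subtype.ext
      rw [Subgroup.coe_mul, hτ1 i j hij u hu, hτ1 i j hij u' hu',
        hτ1 i j hij _ (A'.add_mem hu hu'), map_add, x_add]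
  · intro i j k l hkl u hu b hb'
    have hb : b ∈ A := hHE.Sq_le (hW (hA'W hb'))
    have huS : u ∈ Sq A := hW (hA'W hu)
    have huA : u ∈ A := hHE.Sq_le huS
    have hub : u * b ∈ A' := hA'A u hu b hb'
    by_cases hij : i = j
    · subst hij
      rw [hτ0]
      by_cases hik : i = k
      · subst hik
        rw [if_pos rfl, hτ1 i l hkl _ hub]
        -- induction property (iii)
        have := hg3 i (fun u m => u ∈ Sq A ∧ (x i l hkl (h b))⁻¹ * (m : St I Q) * x i l hkl (h b) =
          m * x i l hkl (e (u * b))) ?_ ?_ ?_ u hu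
        · exact this.2
        · refine ⟨(Sq A).zero_mem, ?_⟩
          rw [zero_mul, map_zero, x_zero, Subgroup.coe_one]
          group
        · intro w hw a ha
          refine ⟨hHE.Sq_mul (hW hw) ha, ?_⟩
          rw [hf i w a (hW hw) ha]
          exact hHE.actD h4 (ho i) hkl (hW hw) ha hb
        · rintro u m u' m' ⟨hu1, e1⟩ ⟨hu2, e2⟩
          refine ⟨(Sq A).add_mem hu1 hu2, ?_⟩
          rw [Subgroup.coe_mul, add_mul, map_add, x_add]
          have e3 : (x i l hkl (h b))⁻¹ * ((m : St I Q) * m') * x i l hkl (h b) =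
              ((x i l hkl (h b))⁻¹ * (m : St I Q) * x i l hkl (h b)) *
              ((x i l hkl (h b))⁻¹ * (m' : St I Q) * x i l hkl (h b)) := by group
          rw [e3, e1, e2]
          have hcm : Commute (x i l hkl (e (u * b))) (m' : St I Q) := by
            have h1 : x i l hkl (e (u * b)) ∈ T I A h e := E_mem_T hkl (hHE.Sq_mul hu1 hb)
            have h2 := mul_comm (⟨_, h1⟩ : T I A h e) m'
            exact congrArg Subtype.val h2
          calc (m : St I Q) * x i l hkl (e (u * b)) * (m' * x i l hkl (e (u' * b)))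
              = m * (x i l hkl (e (u * b)) * m') * x i l hkl (e (u' * b)) := by group
            _ = m * (m' * x i l hkl (e (u * b))) * x i l hkl (e (u' * b)) := by rw [hcm.eq]
            _ = m * m' * (x i l hkl (e (u * b)) * x i l hkl (e (u' * b))) := by group
      · rw [if_neg hik, mul_one]
        have := hg3 i (fun _ m => (x k l hkl (h b))⁻¹ * (m : St I Q) * x k l hkl (h b) = m)
          ?_ ?_ ?_ u hu
        · exact this
        · rw [Subgroup.coe_one]; group
        · intro w hw a ha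
          rw [hf i w a (hW hw) ha]
          have := hHE.cHD h4 (ho i) hkl (fun hh => hik hh.symm) (hW hw) ha hb
          rw [this.inv_left.eq, inv_mul_cancel_right]
        · intro u m u' m' e1 e2
          rw [Subgroup.coe_mul]
          have e3 : (x k l hkl (h b))⁻¹ * ((m : St I Q) * m') * x k l hkl (h b) =
              ((x k l hkl (h b))⁻¹ * (m : St I Q) * x k l hkl (h b)) *
              ((x k l hkl (h b))⁻¹ * (m' : St I Q) * x k l hkl (h b)) := by group
          rw [e3, e1, e2]
    · rw [hτ1 i j hij u hu]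
      by_cases hjk : j = k
      · subst hjk
        rw [if_pos rfl]
        by_cases hil : i = l
        · subst hil
          rw [hτ0, hg2 i u hu b hb', hf i u b huS hb, hHE.actE_opp h4 hij huS hb,
            hHE.D_eq h4 hij (ho i) huS hb]
          exact ((hHE.cED h4 (ho i) hij huS hb huA).eq).symm
        · rw [hτ1 i l hil _ hub, hHE.actE_eq hij hkl hil huA hb]
          exact (x_commute _ _ _ _ _ _ (fun hh => hil hh.symm) hij _ _).eq
      · rw [if_neg hjk, mul_one]
        exact hHE.actE_ne h4 hij hkl hjk huA hb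

/-- **Step (B).** -/
theorem HE.stepB [Fintype I] [DecidableEq I] (hHE : HE A h e)
    (h4 : ∀ a b c : I, ∃ d, d ≠ a ∧ d ≠ b ∧ d ≠ c)
    (hW : W ≤ Sq A) (hA'W : A' ≤ W) (hA'A : ∀ u ∈ A', ∀ a ∈ A', u * a ∈ A')
    (hFP : FP S W A A') (l : List (StGen I S)) (hl : ∀ t ∈ l, t.2 ∈ A') (hm : mt l = 1) :
    ev (fun a => h a + e a) l = ev h l := by
  classical
  obtain ⟨τ, hτ1, hτ2, hτ3⟩ := hHE.exists_tau h4 hW hA'W hA'A hFP
  have : IsMulCommutative (T I A h e) := hHE.T_comm h4
  have hA'A0 : A' ≤ A := fun u hu => hHE.Sq_le (hW (hA'W hu))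
  have hτ0 : ∀ i j, τ i j 0 = 1 := by
    intro i j
    have := hτ1 i j 0 A'.zero_mem 0 A'.zero_mem
    rw [add_zero] at this
    exact left_eq_mul.mp this
  let Tau : Matrix I I S → T I A h e := fun M => ∏ i, ∏ j, τ i j (M i j)
  have hTau0 : Tau 0 = 1 := by
    simp only [Tau, Matrix.zero_apply, hτ0, Finset.prod_const_one]
  have hTau_add : ∀ M N : Matrix I I S, (∀ i j, M i j ∈ A') → (∀ i j, N i j ∈ A') →
      Tau (M + N) = Tau M * Tau N := by
    intro M N hM hN
    simp only [Tau, ← Finset.prod_mul_distrib]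
    exact Finset.prod_congr rfl fun i _ => Finset.prod_congr rfl fun j _ =>
      hτ1 i j _ (hM i j) _ (hN i j)
  have hTau_single : ∀ i j (hij : i ≠ j), ∀ u ∈ A',
      (Tau (Matrix.single i j u) : St I Q) = x i j hij (e u) := by
    intro i j hij u hu
    rw [← hτ2 i j hij u hu]
    congr 1
    simp only [Tau]
    rw [Finset.prod_eq_single i, Finset.prod_eq_single j]
    · rw [Matrix.single_apply_same]
    · intro j' _ hj'
      rw [Matrix.single_apply_of_ne, hτ0]
      rintro ⟨-, rfl⟩; exact hj' rfl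
    · intro hh; exact absurd (Finset.mem_univ _) hh
    · intro i' _ hi'
      apply Finset.prod_eq_one
      intro j' _
      rw [Matrix.single_apply_of_ne, hτ0]
      rintro ⟨rfl, -⟩; exact hi' rfl
    · intro hh; exact absurd (Finset.mem_univ _) hh
  -- the action
  have hact : ∀ (k l : I) (hkl : k ≠ l), ∀ b ∈ A', ∀ M : Matrix I I S, (∀ i j, M i j ∈ A') →
      (x k l hkl (h b))⁻¹ * (Tau M : St I Q) * x k l hkl (h b) =
        Tau (M * (1 + Matrix.single k l b)) := by
    intro k l hkl b hb M hM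
    let c : T I A h e →* T I A h e := conjHom (T I A h e) (x k l hkl (h b))
      (hHE.conj_T h4 hkl (hA'A0 hb))
    have hc : ∀ t : T I A h e, (c t : St I Q) = (x k l hkl (h b))⁻¹ * (t : St I Q) *
      x k l hkl (h b) := fun t => rfl
    rw [← hc]
    congr 1
    have h1 : ∀ i j, c (τ i j (M i j)) = τ i j (M i j) *
        (if j = k then τ i l (M i j * b) else 1) := by
      intro i j
      apply Subtype.ext
      rw [hc, hτ3 i j k l hkl _ (hM i j) b hb, Subgroup.coe_mul]
      split_ifs <;> rfl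
    have hN : ∀ i j, (M * Matrix.single k l b) i j ∈ A' := by
      intro i j
      by_cases hj : j = l
      · subst hj
        rw [Matrix.mul_single_apply_same]
        exact hA'A _ (hM _ _) _ hb
      · rw [Matrix.mul_single_apply_of_ne (hbj := hj)]
        exact A'.zero_mem
    rw [mul_add, mul_one, hTau_add _ _ hM hN]
    have h2 : c (Tau M) = Tau M * ∏ i, τ i l (M i k * b) := by
      simp only [Tau]
      rw [map_prod, ← Finset.prod_mul_distrib]
      refine Finset.prod_congr rfl fun i _ => ?_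
      rw [map_prod, Finset.prod_congr rfl (fun j _ => h1 i j), Finset.prod_mul_distrib]
      congr 1
      rw [Finset.prod_ite_eq' Finset.univ k, if_pos (Finset.mem_univ _)]
    rw [h2]
    congr 1
    simp only [Tau]
    refine Finset.prod_congr rfl fun i _ => ?_
    rw [Finset.prod_eq_single l]
    · rw [Matrix.mul_single_apply_same]
    · intro j _ hj
      rw [Matrix.mul_single_apply_of_ne (hbj := hj), hτ0]
    · intro hh; exact absurd (Finset.mem_univ _) hh
  -- induction on the word, from the right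
  have key : ∀ l : List (StGen I S), (∀ t ∈ l, t.2 ∈ A') → 
      (∀ i j, (mt l - 1) i j ∈ A') ∧
      ev (fun a => h a + e a) l = ev h l * Tau (mt l - 1) := by
    intro l
    induction l using List.reverseRecOn with
    | nil =>
      intro _
      refine ⟨fun i j => ?_, ?_⟩
      · rw [mt_nil, sub_self]; exact A'.zero_mem
      · rw [mt_nil, sub_self, hTau0]; simp
    | append_singleton l t ih =>
      intro hl
      obtain ⟨ih1, ih2⟩ := ih (fun t ht => hl t (List.mem_append_left _ ht))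
      have ht : t.2 ∈ A' := hl t (List.mem_append_right _ (List.mem_singleton.mpr rfl))
      obtain ⟨⟨⟨k, l'⟩, hkl⟩, a⟩ := t
      change a ∈ A' at ht
      change k ≠ l' at hkl
      have e1 : mt (l ++ [(⟨(k, l'), hkl⟩, a)]) - 1 =
          (mt l - 1) * (1 + Matrix.single k l' a) + Matrix.single k l' a := by
        rw [mt_append, mt_cons, mt_nil, mul_one]
        noncomm_ring
      have hm1 : ∀ i j, ((mt l - 1) * (1 + Matrix.single k l' a)) i j ∈ A' := by
        intro i j
        rw [mul_add, mul_one, Matrix.add_apply]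
        apply A'.add_mem (ih1 i j)
        by_cases hj : j = l'
        · subst hj
          rw [Matrix.mul_single_apply_same]
          exact hA'A _ (ih1 _ _) _ ht
        · rw [Matrix.mul_single_apply_of_ne (hbj := hj)]
          exact A'.zero_mem
      have hm2 : ∀ i j, (Matrix.single k l' a) i j ∈ A' := by
        intro i j
        rw [Matrix.single_apply]
        split_ifs
        · exact ht
        · exact A'.zero_mem
      refine ⟨fun i j => ?_, ?_⟩
      · rw [e1, Matrix.add_apply]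
        exact A'.add_mem (hm1 i j) (hm2 i j)
      · rw [e1, hTau_add _ _ hm1 hm2, Subgroup.coe_mul, hTau_single k l' hkl a ht,
          ← hact k l' hkl a ht _ ih1, ev_append, ev_append, ih2]
        simp only [ev_cons, ev_nil, mul_one, x_add]
        group
  have := (key l hl).2
  rw [hm, sub_self, hTau0, Subgroup.coe_one, mul_one] at this
  exact this

end tau

end Crest.Agent.R176.Exc275
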