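import Crest.Agent.R176.Exc275B
import Crest.Agent.R176.Cover294Two

/-! Row 176, part B, block EXC (helper275): multiplier pairs and the glue of steps (A), (B), (C). -/

set_option autoImplicit false

namespace Crest.Agent.R176.Exc275

open St Cover294
open scoped commutatorElement

/-- A multiplier pair `(L, R)` on the (non-unital) ring `A ⊆ S`: `L a = T a`, `R a = a T⁻¹`. -/
structure Mult {S : Type} [Ring S] (A : AddSubgroup S) (L R : S →+ S) : Prop where
  mul_mem : ∀ a ∈ A, ∀ b ∈ A, a * b ∈ A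
  L_mem : ∀ a ∈ A, L a ∈ A
  R_mem : ∀ a ∈ A, R a ∈ A
  L_mul : ∀ a ∈ A, ∀ b ∈ A, L (a * b) = L a * b
  R_mul : ∀ a ∈ A, ∀ b ∈ A, R (a * b) = a * R b
  RL : ∀ a ∈ A, ∀ b ∈ A, R a * L b = a * b
  LR : ∀ a ∈ A, L (R a) = R (L a)

/-- (X2): moving only `q` does not change the value of a word with trivial matrix. -/
def StepAC (I : Type) [Fintype I] [DecidableEq I] (S : Type) [Ring S] : Prop :=
  ∀ (A : AddSubgroup S), (∀ a ∈ A, ∀ b ∈ A, a * b ∈ A) → ∀ (f v : S →+ S),
    (∀ a ∈ A, ∀ b ∈ A, f (a * b) = f a * f b) → (∀ a ∈ A, ∀ b ∈ A, v (a * b) = f a * v b) →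
    ∀ (s t : Fin 2), s ≠ t → ∀ (l : List (StGen I S)), (∀ t ∈ l, t.2 ∈ A) → mt l = 1 →
      Blk I (Fin 2) S (ev (fun a => Matrix.single s s (f a) + Matrix.single s t (v a)) l) =
        Blk I (Fin 2) S (ev (fun a => Matrix.single s s (f a)) l)

section

variable {S : Type} [Ring S]

/-- `a ↦ p₀ a q₁` -/
def hmap (R : S →+ S) : S →+ Matrix (Fin 2) (Fin 2) S where
  toFun a := Matrix.single 0 0 a + Matrix.single 0 1 (R a)
  map_zero' := by simp
  map_add' a b := by
    rw [map_add, Matrix.single_add, Matrix.single_add]; abel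

/-- `a ↦ δ a q₁` -/
def emap (L R : S →+ S) : S →+ Matrix (Fin 2) (Fin 2) S where
  toFun a := Matrix.single 0 0 a + Matrix.single 0 1 (R a) +
    (Matrix.single 1 1 (L (R a)) + Matrix.single 1 0 (L a))
  map_zero' := by simp
  map_add' a b := by
    simp only [map_add, Matrix.single_add]; abel

theorem hmap_apply (R : S →+ S) (a : S) : hmap R a = !![a, R a; 0, 0] := by
  ext i j
  fin_cases i <;> fin_cases j <;> simp [hmap, Matrix.single]

theorem emap_apply (L R : S →+ S) (a : S) : emap L R a = !![a, R a; L a, L (R a)] := by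
  ext i j
  fin_cases i <;> fin_cases j <;> simp [emap, Matrix.single]

variable {A : AddSubgroup S} {L R : S →+ S}

theorem Mult.hE (hM : Mult A L R) (h2 : ∀ a : S, a + a = 0) : HE A (hmap R) (emap L R) where
  mul_mem := hM.mul_mem
  hh a ha b hb := by
    rw [hmap_apply, hmap_apply, hmap_apply, hM.R_mul a ha b hb]
    ext i j
    fin_cases i <;> fin_cases j <;> simp [Matrix.mul_apply, Fin.sum_univ_two]
  he a ha b hb := by
    rw [hmap_apply, emap_apply]
    ext i j
    fin_cases i <;> fin_cases j <;> simp [Matrix.mul_apply, Fin.sum_univ_two]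
    · rw [hM.RL a ha b hb, h2]
    · rw [hM.RL a ha _ (hM.R_mem b hb), h2]
  eh a ha b hb := by
    rw [hmap_apply, emap_apply, emap_apply]
    ext i j
    fin_cases i <;> fin_cases j <;> simp [Matrix.mul_apply, Fin.sum_univ_two]
    · rw [hM.R_mul a ha b hb]
    · rw [hM.L_mul a ha b hb]
    · rw [hM.R_mul a ha b hb, hM.L_mul a ha _ (hM.R_mem b hb)]
  ee a ha b hb := by
    rw [emap_apply, emap_apply]
    have h1 : L (R a) * L b = L a * b := by
      rw [← hM.L_mul _ (hM.R_mem a ha) _ (hM.L_mem b hb), hM.RL a ha b hb, hM.L_mul a ha b hb]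
    have h3 : L (R a) * L (R b) = L a * R b := by
      rw [← hM.L_mul _ (hM.R_mem a ha) _ (hM.L_mem _ (hM.R_mem b hb)),
        hM.RL a ha _ (hM.R_mem b hb), hM.L_mul a ha _ (hM.R_mem b hb)]
    ext i j
    fin_cases i <;> fin_cases j <;> simp [Matrix.mul_apply, Fin.sum_univ_two]
    · rw [hM.RL a ha b hb, h2]
    · rw [hM.RL a ha _ (hM.R_mem b hb), h2]
    · rw [h1, h2]
    · rw [h3, h2]

variable {I : Type}

/-- The block map on diagonal words. -/
theorem Blk_ev_single (s : Fin 2) (f : S → S) (l : List (StGen I S)) :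
    Blk I (Fin 2) S (ev (fun a => Matrix.single s s (f a)) l) =
      mapI (eN I s) (ev f l) := by
  induction l with
  | nil => simp
  | cons t l ih =>
    rw [ev_cons, ev_cons, map_mul, map_mul, ih, Blk_x, mapI_x, blk_single]
    rfl

/-- **Glue of (A), (B), (C).** -/
theorem Mult.main [Fintype I] [DecidableEq I] (hM : Mult A L R) (h2 : ∀ a : S, a + a = 0)
    (hAC : StepAC I S) (h4 : ∀ a b c : I, ∃ d, d ≠ a ∧ d ≠ b ∧ d ≠ c) {W A' : AddSubgroup S}
    (hW : W ≤ Sq A) (hA'W : A' ≤ W) (hA'A : ∀ u ∈ A', ∀ a ∈ A', u * a ∈ A')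
    (hFP : FP S W A A') (l : List (StGen I S)) (hl : ∀ t ∈ l, t.2 ∈ A') (hm : mt l = 1) :
    mapI (eN I (0 : Fin 2)) (ev (fun a => a) l) =
      mapI (eN I (1 : Fin 2)) (ev (fun a => L (R a)) l) := by
  have hHE := hM.hE h2
  have hA'A0 : A' ≤ A := fun u hu => hHE.Sq_le (hW (hA'W hu))
  have hl' : ∀ t ∈ l, t.2 ∈ A := fun t ht => hA'A0 (hl t ht)
  -- step (A)
  have e1 := hAC A hM.mul_mem (AddMonoidHom.id S) R (fun _ _ _ _ => rfl)
    (fun a ha b hb => hM.R_mul a ha b hb) 0 1 (by decide) l hl' hm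
  -- step (B)
  have e2 := hHE.stepB h4 hW hA'W hA'A hFP l hl hm
  -- step (C)
  have e3 := hAC A hM.mul_mem (L.comp R) L
    (fun a ha b hb => by
      simp only [AddMonoidHom.comp_apply]
      rw [hM.R_mul a ha b hb, ← hM.L_mul _ (hM.R_mem a ha) _ (hM.L_mem _ (hM.R_mem b hb)),
        hM.RL a ha _ (hM.R_mem b hb)])
    (fun a ha b hb => by
      simp only [AddMonoidHom.comp_apply]
      rw [← hM.L_mul _ (hM.R_mem a ha) _ (hM.L_mem b hb), hM.RL a ha b hb]) 1 0 (by decide) l hl' hm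
  have f1 : ev (fun a => Matrix.single (0 : Fin 2) (0 : Fin 2) (AddMonoidHom.id S a) +
      Matrix.single (0 : Fin 2) (1 : Fin 2) (R a)) l = ev (hmap R) l := rfl
  have f2 : (fun a => hmap R a + emap L R a) =
      fun a => Matrix.single (1 : Fin 2) (1 : Fin 2) ((L.comp R) a) +
        Matrix.single (1 : Fin 2) (0 : Fin 2) (L a) := by
    funext a
    have h5 : emap L R a = hmap R a + (Matrix.single 1 1 (L (R a)) + Matrix.single 1 0 (L a)) := rfl
    have h3 : ∀ M : Matrix (Fin 2) (Fin 2) S, M + M = 0 := by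
      intro M; ext i j; exact h2 _
    rw [h5, ← add_assoc, h3, zero_add]
    rfl
  rw [f1] at e1
  rw [f2] at e2
  rw [e2, e1] at e3
  have g1 := Blk_ev_single (I := I) (0 : Fin 2) (fun a : S => a) l
  have g2 := Blk_ev_single (I := I) (1 : Fin 2) (fun a : S => L (R a)) l
  rw [← g1, ← g2]
  exact e3

end

end Crest.Agent.R176.Exc275
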