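import Crest.Agent.R176.Exc275C
import Crest.Agent.R176.Fpt396
import Crest.Agent.R176.Tits370

/-! Row 176, part B, block EXC (helper275): `FP` for matrices over `J m`; words of phantoms; final
form of EXC modulo (X2) and (X3). -/

set_option autoImplicit false

namespace Crest.Agent.R176.Exc275

open St Cover294 Fpt396 QAlg206
open scoped commutatorElement

section FPT

variable {L : Type} {step : L → L → Option (L × L)} {n : Type} [Fintype n] [DecidableEq n]

theorem MJ_le_Sq (m : ℕ) : MJ n step (2 * m) ≤ Sq (MJ n step m) := by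
  intro U hU
  rw [two_mul] at hU
  refine MJ_induction (P := fun U => U ∈ Sq (MJ n step m)) (AddSubgroup.zero_mem _)
    (fun u v _ _ h h' => AddSubgroup.add_mem _ h h') (fun u v hu hv => mul_mem_Sq hu hv) hU

theorem FP_MJ {m : ℕ} (hm : 1 ≤ m) :
    FP (Matrix n n (QQ step)) (MJ n step (2 * m)) (MJ n step m) (MJ n step (8 * m)) := by
  intro M _ f hf1 hf2 hf3
  have hle : MJ n step (2 * m) ≤ MJ n step m := MJ_anti (by omega)
  obtain ⟨τ, hτ⟩ := exists_tau_matrix (T := Additive M) (m := 2 * m) (by omega)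
    (D := fun U V => Additive.ofMul (f U V)) (n := n) (step := step)
    { addl := fun u u' v hu hu' hv => by
        rw [hf1 u hu u' hu' v (hle hv)]; rfl
      addr := fun u v v' hu hv hv' => by
        rw [hf2 u hu v (hle hv) v' (hle hv')]; rfl
      bal := fun u b v hu hb hv => by
        rw [hf3 u hu b (hle hb) v (hle hv)] }
  refine ⟨fun u => (τ u).toMul, ?_, ?_, ?_⟩
  · intro u _ u' _
    show (τ (u + u')).toMul = _
    rw [map_add]; rfl
  · intro w hw a ha
    show (τ (w * a)).toMul = _
    rw [hτ (8 * m) (8 * m) (by omega) (by omega) (by omega) w hw a ha]; rfl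
  · intro P h0 hmul hadd u hu
    have h8 : 8 * m = 4 * m + 4 * m := by ring
    rw [h8] at hu
    refine MJ_induction (P := fun u => P u (τ u).toMul) ?_ ?_ ?_ hu
    · show P 0 (τ 0).toMul
      rw [map_zero]; exact h0
    · intro u v _ _ h h'
      show P (u + v) (τ (u + v)).toMul
      rw [map_add]
      exact hadd _ _ _ _ h h'
    · intro u v hu hv
      show P (u * v) (τ (u * v)).toMul
      rw [hτ (4 * m) (4 * m) (by omega) (by omega) (by omega) u hu v hv]
      exact hmul u (MJ_anti (by omega) hu) v (MJ_anti (by omega) hv)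

end FPT

section words

variable {I R S : Type} [Ring R] [Ring S]

theorem exists_word {J : AddSubgroup R} {g : St I R} (hg : g ∈ Tits370.E I J) :
    ∃ l : List (StGen I R), (∀ t ∈ l, t.2 ∈ J) ∧ g = ev (fun a => a) l := by
  unfold Tits370.E at hg
  induction hg using Subgroup.closure_induction_left with
  | one => exact ⟨[], by simp, rfl⟩
  | mul_left a ha b _ ih =>
    obtain ⟨i, j, h, r, hr, rfl⟩ := ha
    obtain ⟨l, hl, rfl⟩ := ih
    refine ⟨stg i j h r :: l, ?_, ?_⟩
    · intro t ht
      rcases List.mem_cons.mp ht with rfl | ht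
      · exact hr
      · exact hl t ht
    · rw [ev_cons]; rfl
  | inv_mul_cancel a ha b _ ih =>
    obtain ⟨i, j, h, r, hr, rfl⟩ := ha
    obtain ⟨l, hl, rfl⟩ := ih
    refine ⟨stg i j h (-r) :: l, ?_, ?_⟩
    · intro t ht
      rcases List.mem_cons.mp ht with rfl | ht
      · exact J.neg_mem hr
      · exact hl t ht
    · rw [ev_cons, ← x_neg]; rfl

/-- change the coefficients of a word -/
def mapW (ψ : R → S) (l : List (StGen I R)) : List (StGen I S) :=
  l.map fun t => (t.1, ψ t.2)

theorem ev_mapW {Q : Type} [Ring Q] (ψ : R → S) (f : S → Q) (l : List (StGen I R)) :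
    ev f (mapW ψ l) = ev (fun a => f (ψ a)) l := by
  simp [ev, mapW, Function.comp_def]

theorem map_ev (ψ : R →+* S) (l : List (StGen I R)) :
    map ψ (ev (fun a => a) l) = ev (fun a => ψ a) l := by
  induction l with
  | nil => simp
  | cons t l ih => rw [ev_cons, ev_cons, map_mul, map_x, ih]

theorem mt_eq_toMat [Fintype I] [DecidableEq I] (l : List (StGen I R)) :
    mt l = (toMat (ev (fun a => a) l)).val := by
  induction l with
  | nil => simp
  | cons t l ih => rw [ev_cons, mt_cons, map_mul, Units.val_mul, toMat_x, elem_val, ih]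

theorem mt_mapW [Fintype I] [DecidableEq I] (ψ : R →+* S) (l : List (StGen I R)) :
    mt (mapW ψ l) = ψ.mapMatrix (mt l) := by
  induction l with
  | nil =>
    show (1 : Matrix I I S) = ψ.mapMatrix 1
    rw [map_one]
  | cons t l ih =>
    show mt ((t.1, ψ t.2) :: mapW ψ l) = _
    rw [mt_cons, mt_cons, map_mul, ih, map_add, map_one]
    congr 2
    ext i j
    simp only [RingHom.mapMatrix_apply, Matrix.map_apply, Matrix.single_apply]
    split_ifs <;> simp

end words

section final

variable {L : Type} {step : L → L → Option (L × L)} {n : Type} [Fintype n] [DecidableEq n]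

/-- **EXC**, general form: `ψ : R →+* M_n(R)` preserving the filtration and `T ψ T⁻¹ = scalar` on
`J m`. -/
theorem exc_general {I : Type} [Fintype I] [DecidableEq I]
    (hAC : StepAC I (Matrix n n (QQ step)))
    (h4 : ∀ a b c : I, ∃ d, d ≠ a ∧ d ≠ b ∧ d ≠ c)
    (ψ : QQ step →+* Matrix n n (QQ step)) (hψ : ∀ m, ∀ r ∈ J step m, ψ r ∈ MJ n step m)
    {m : ℕ} (hm : 1 ≤ m) {Lm Rm : Matrix n n (QQ step) →+ Matrix n n (QQ step)}
    (hM : Mult (MJ n step m) Lm Rm) (hT : ∀ r ∈ J step m, Lm (Rm (ψ r)) = Matrix.scalar n r)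
    (g : St I (QQ step)) (hg1 : toMat g = 1) (hg : g ∈ Tits370.E I (J step (8 * m))) :
    mapI (eN I (0 : Fin 2)) (map ψ g) = mapI (eN I (1 : Fin 2)) (map (Matrix.scalar n) g) := by
  obtain ⟨l, hl, rfl⟩ := exists_word hg
  have h2 : ∀ a : Matrix n n (QQ step), a + a = 0 := by
    intro a; ext i j; exact add_self_eq_zero' _
  have hmain := hM.main h2 hAC h4 (W := MJ n step (2 * m)) (A' := MJ n step (8 * m))
    (MJ_le_Sq m) (MJ_anti (by omega)) (fun u hu a ha => MJ_anti (by omega) (mul_mem_MJ hu ha))
    (FP_MJ hm) (mapW ψ l) (by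
      intro t ht
      obtain ⟨t', ht', rfl⟩ := List.mem_map.mp ht
      exact hψ _ _ (hl t' ht'))
    (by
      rw [mt_mapW, mt_eq_toMat, hg1, Units.val_one, map_one])
  rw [ev_mapW, ev_mapW] at hmain
  rw [map_ev, map_ev, hmain]
  congr 1
  unfold ev
  congr 1
  apply List.map_congr_left
  intro t ht
  have := hT _ (J_anti (show m ≤ 8 * m by omega) (hl t ht))
  simp only [this]

end final

end Crest.Agent.R176.Exc275
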