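import Crest.Agent.R176.Ph396
import Crest.Agent.R176.Cover294Cyc

/-!
R176, part B, block (X3) (helper396): the multipliers `T`, `T⁻¹` on matrices over `J m` given by a
phase function modulo `l`, and the four "equivalent" additive maps
`e0, h, k, e1 : Matrix κ κ R → Matrix (κ ⊕ κ) (κ ⊕ κ) R`.
-/

set_option autoImplicit false
set_option linter.unusedSectionVars false

namespace Crest.Agent.R176.Mult396

open QAlg206 Fpt396 Ph396

variable {L : Type*} {step : L → L → Option (L × L)}

/-! ### Projections onto classes of words -/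

/-- a class predicate -/
structure CP (step : L → L → Option (L × L)) where
  P : List L → Prop
  inv : ∀ u v : List L, ¬ IsZ step u → WEq step (some u) (some v) → (P u ↔ P v)

/-- words in the class with the property -/
def CP.Has (c : CP step) (q : Cl step) : Prop :=
  ∃ w : List L, q = cl (some w) ∧ c.P w

theorem CP.has_iff (c : CP step) {w : List L} (hw : ¬ IsZ step w) :
    c.Has (cl (some w)) ↔ c.P w := by
  constructor
  · rintro ⟨w', e, hP⟩
    exact (c.inv w w' hw (cl_eq_iff.1 e)).2 hP
  · intro hP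
    exact ⟨w, rfl, hP⟩

open Classical in
/-- The projection. -/
noncomputable def CP.proj (c : CP step) : QQ step →ₗ[ZMod 2] QQ step :=
  (Finsupp.linearCombination (ZMod 2)
    (fun q : NZ step => if c.Has q.1 then ofCl step (ZMod 2) q.1 else 0)).comp
    (coord step (ZMod 2))

open Classical in
theorem CP.proj_word (c : CP step) (w : List L) :
    c.proj (wd step w) = if c.P w then wd step w else 0 := by
  by_cases hw : IsZ step w
  · have : wd step w = 0 := word_eq_zero_of_isZ step (ZMod 2) hw
    rw [this, map_zero]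
    split_ifs <;> rfl
  · have hc := WPhase.cl_ne_of_not_isZ hw
    have e : c.proj (wd step w) =
        if c.Has (cl (some w)) then ofCl step (ZMod 2) (cl (some w)) else 0 := by
      show Finsupp.linearCombination (ZMod 2) _ (coord step (ZMod 2) (word step (ZMod 2) w)) = _
      rw [coord_word, sg_of_ne step (ZMod 2) hc, Finsupp.linearCombination_single, one_smul]
    rw [e, ofCl_some]
    by_cases h : c.P w
    · rw [if_pos h, if_pos ((c.has_iff hw).2 h)]
    · rw [if_neg h, if_neg (fun h' => h ((c.has_iff hw).1 h'))]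

/-- induction over `J m` -/
theorem J_word_induction {m : ℕ} {P : QQ step → Prop}
    (hw : ∀ w : List L, m ≤ w.length → P (wd step w)) (h0 : P 0)
    (hadd : ∀ u v, P u → P v → P (u + v)) {u : QQ step} (hu : u ∈ J step m) : P u := by
  have hneg : ∀ u : QQ step, -u = u := fun u => by
    rw [neg_eq_iff_add_eq_zero]; exact add_self_eq_zero' u
  induction hu using AddSubgroup.closure_induction with
  | mem u hu => obtain ⟨w, hl, rfl⟩ := hu; exact hw w hl
  | zero => exact h0
  | add u v _ _ h h' => exact hadd u v h h'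
  | neg u _ h => rw [hneg]; exact h

theorem word_induction {P : QQ step → Prop}
    (hw : ∀ w : List L, P (wd step w)) (h0 : P 0)
    (hadd : ∀ u v, P u → P v → P (u + v)) (u : QQ step) : P u :=
  J_word_induction (m := 0) (fun w _ => hw w) h0 hadd (mem_J_zero u)

theorem CP.proj_mem (c : CP step) {m : ℕ} {u : QQ step} (hu : u ∈ J step m) :
    c.proj u ∈ J step m := by
  refine J_word_induction (P := fun u => c.proj u ∈ J step m) ?_ ?_ ?_ hu
  · intro w hw
    rw [c.proj_word]
    split_ifs
    · exact wd_mem_J hw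
    · exact AddSubgroup.zero_mem _
  · rw [map_zero]; exact AddSubgroup.zero_mem _
  · intro u v h h'
    rw [map_add]; exact AddSubgroup.add_mem _ h h'

theorem CP.proj_comm (c d : CP step) (u : QQ step) : c.proj (d.proj u) = d.proj (c.proj u) := by
  refine word_induction (P := fun u => c.proj (d.proj u) = d.proj (c.proj u)) ?_ ?_ ?_ u
  · intro w
    rw [c.proj_word, d.proj_word]
    by_cases h : c.P w <;> by_cases h' : d.P w <;> simp [h, h', c.proj_word, d.proj_word]
  · simp only [map_zero]
  · intro u v h h'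
    simp only [map_add, h, h']

/-! ### Start and end phases -/

variable {l M : ℕ} (p : WPhase step l M)

/-- start phase `q` -/
def cpS (q : ZMod l) : CP step where
  P w := M ≤ w.length ∧ p.ph w = q
  inv u v hu h := by
    have hl := h.length_eq hu
    constructor
    · rintro ⟨h1, h2⟩
      exact ⟨by omega, by rw [← p.inv u v hu h1 h]; exact h2⟩
    · rintro ⟨h1, h2⟩
      exact ⟨by omega, by rw [p.inv u v hu (by omega) h]; exact h2⟩

/-- end phase `s` -/
def cpE (s : ZMod l) : CP step where
  P w := M ≤ w.length ∧ p.ph w + (w.length : ZMod l) = s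
  inv u v hu h := by
    have hl := h.length_eq hu
    constructor
    · rintro ⟨h1, h2⟩
      exact ⟨by omega, by rw [← p.inv u v hu h1 h, ← hl]; exact h2⟩
    · rintro ⟨h1, h2⟩
      exact ⟨by omega, by rw [p.inv u v hu (by omega) h, hl]; exact h2⟩

/-- projection to the start phase `q` -/
noncomputable def ps (q : ZMod l) : QQ step →ₗ[ZMod 2] QQ step := (cpS p q).proj

/-- projection to the end phase `s` -/
noncomputable def pe (s : ZMod l) : QQ step →ₗ[ZMod 2] QQ step := (cpE p s).proj

open Classical in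
theorem ps_word (q : ZMod l) (w : List L) :
    ps p q (wd step w) = if M ≤ w.length ∧ p.ph w = q then wd step w else 0 := by
  refine ((cpS p q).proj_word w).trans ?_
  exact if_congr Iff.rfl rfl rfl

open Classical in
theorem pe_word (s : ZMod l) (w : List L) :
    pe p s (wd step w) =
      if M ≤ w.length ∧ p.ph w + (w.length : ZMod l) = s then wd step w else 0 := by
  refine ((cpE p s).proj_word w).trans ?_
  exact if_congr Iff.rfl rfl rfl

theorem ps_mem (q : ZMod l) {m : ℕ} {u : QQ step} (hu : u ∈ J step m) : ps p q u ∈ J step m :=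
  (cpS p q).proj_mem hu

theorem pe_mem (q : ZMod l) {m : ℕ} {u : QQ step} (hu : u ∈ J step m) : pe p q u ∈ J step m :=
  (cpE p q).proj_mem hu

theorem ps_pe (q s : ZMod l) (u : QQ step) : ps p q (pe p s u) = pe p s (ps p q u) :=
  (cpS p q).proj_comm (cpE p s) u

theorem wd_append (u v : List L) : wd step (u ++ v) = wd step u * wd step v :=
  word_append step (ZMod 2) u v

theorem wd_zero {w : List L} (h : IsZ step w) : wd step w = 0 :=
  word_eq_zero_of_isZ step (ZMod 2) h

theorem sum_ps [NeZero l] {u : QQ step} (hu : u ∈ J step M) : ∑ q : ZMod l, ps p q u = u := by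
  classical
  refine J_word_induction (P := fun u => ∑ q : ZMod l, ps p q u = u) ?_ ?_ ?_ hu
  · intro w hl
    rw [Finset.sum_eq_single (p.ph w)]
    · rw [ps_word, if_pos ⟨by omega, rfl⟩]
    · intro q _ hq
      rw [ps_word, if_neg (fun h => hq h.2.symm)]
    · intro h; exact absurd (Finset.mem_univ _) h
  · simp
  · intro u v h h'
    simp only [map_add, Finset.sum_add_distrib, h, h']

theorem sum_pe [NeZero l] {u : QQ step} (hu : u ∈ J step M) : ∑ q : ZMod l, pe p q u = u := by
  classical
  refine J_word_induction (P := fun u => ∑ q : ZMod l, pe p q u = u) ?_ ?_ ?_ hu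
  · intro w hl
    rw [Finset.sum_eq_single (p.ph w + (w.length : ZMod l))]
    · rw [pe_word, if_pos ⟨by omega, rfl⟩]
    · intro q _ hq
      rw [pe_word, if_neg (fun h => hq h.2.symm)]
    · intro h; exact absurd (Finset.mem_univ _) h
  · simp
  · intro u v h h'
    simp only [map_add, Finset.sum_add_distrib, h, h']

theorem ps_mul (q : ZMod l) {u : QQ step} (hu : u ∈ J step M) (v : QQ step) :
    ps p q (u * v) = ps p q u * v := by
  classical
  refine J_word_induction (P := fun u => ps p q (u * v) = ps p q u * v) ?_ ?_ ?_ hu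
  · intro w hl
    refine word_induction (P := fun v => ps p q (wd step w * v) = ps p q (wd step w) * v)
      ?_ ?_ ?_ v
    · intro w'
      by_cases hz : IsZ step (w ++ w')
      · have e' : wd step w * wd step w' = 0 := by rw [← wd_append, wd_zero hz]
        rw [e', map_zero, ps_word]
        split_ifs
        · exact e'.symm
        · rw [zero_mul]
      · have e := p.left w w' hz (by omega)
        rw [← wd_append, ps_word, ps_word]
        by_cases h : M ≤ w.length ∧ p.ph w = q
        · rw [if_pos h, if_pos ⟨by simp; omega, by rw [e]; exact h.2⟩]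
          exact wd_append w w'
        · rw [if_neg h, if_neg, zero_mul]
          rintro ⟨-, h2⟩
          exact h ⟨by omega, by rw [← e]; exact h2⟩
    · rw [mul_zero, map_zero, mul_zero]
    · intro r s hr hs
      rw [mul_add, map_add, hr, hs, mul_add]
  · rw [zero_mul, map_zero, zero_mul]
  · intro u u' h h'
    rw [add_mul, map_add, h, h', map_add, add_mul]

theorem pe_mul (s : ZMod l) (u : QQ step) {v : QQ step} (hv : v ∈ J step M) :
    pe p s (u * v) = u * pe p s v := by
  classical
  refine J_word_induction (P := fun v => pe p s (u * v) = u * pe p s v) ?_ ?_ ?_ hv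
  · intro w hl
    refine word_induction (P := fun u => pe p s (u * wd step w) = u * pe p s (wd step w))
      ?_ ?_ ?_ u
    · intro w'
      by_cases hz : IsZ step (w' ++ w)
      · have e' : wd step w' * wd step w = 0 := by rw [← wd_append, wd_zero hz]
        rw [e', map_zero, pe_word]
        split_ifs
        · exact e'.symm
        · rw [mul_zero]
      · have e := p.right w' w hz (by omega)
        have e2 : p.ph (w' ++ w) + ((w' ++ w).length : ZMod l) = p.ph w + (w.length : ZMod l) := by
          rw [List.length_append, Nat.cast_add, ← add_assoc, e]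
        rw [← wd_append, pe_word, pe_word]
        by_cases h : M ≤ w.length ∧ p.ph w + (w.length : ZMod l) = s
        · rw [if_pos h, if_pos ⟨by simp; omega, by rw [e2]; exact h.2⟩]
          exact wd_append w' w
        · rw [if_neg h, if_neg, mul_zero]
          rintro ⟨-, h2⟩
          exact h ⟨by omega, by rw [← e2]; exact h2⟩
    · rw [zero_mul, map_zero, zero_mul]
    · intro r s hr hs
      rw [add_mul, map_add, hr, hs, add_mul]
  · rw [mul_zero, map_zero, mul_zero]
  · intro u u' h h'
    rw [mul_add, map_add, h, h', map_add, mul_add]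

theorem pe_mul_ps (s q : ZMod l) {u v : QQ step} (hu : u ∈ J step M) (hv : v ∈ J step M)
    (hsq : s ≠ q) : pe p s u * ps p q v = 0 := by
  classical
  refine J_word_induction (P := fun u => pe p s u * ps p q v = 0) ?_ ?_ ?_ hu
  · intro w hl
    refine J_word_induction (P := fun v => pe p s (wd step w) * ps p q v = 0) ?_ ?_ ?_ hv
    · intro w' hl'
      rw [pe_word, ps_word]
      by_cases h : M ≤ w.length ∧ p.ph w + (w.length : ZMod l) = s
      · by_cases h' : M ≤ w'.length ∧ p.ph w' = q
        · rw [if_pos h, if_pos h', ← wd_append]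
          apply wd_zero
          by_contra hz
          apply hsq
          have e1 := p.left w w' hz hl
          have e2 := p.right w w' hz hl'
          rw [← h.2, ← h'.2, ← e1, e2]
        · rw [if_neg h', mul_zero]
      · rw [if_neg h, zero_mul]
    · rw [map_zero, mul_zero]
    · intro r s hr hs
      rw [map_add, mul_add, hr, hs, add_zero]
  · rw [map_zero, zero_mul]
  · intro r s hr hs
    rw [map_add, add_mul, hr, hs, add_zero]

theorem sum_pe_mul_ps [NeZero l] {u v : QQ step} (hu : u ∈ J step M) (hv : v ∈ J step M) :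
    ∑ s : ZMod l, pe p s u * ps p s v = u * v := by
  conv_rhs => rw [← sum_pe p hu, ← sum_ps p hv]
  rw [Finset.sum_mul]
  apply Finset.sum_congr rfl
  intro s _
  rw [Finset.mul_sum, Finset.sum_eq_single s]
  · intro q _ hq
    exact pe_mul_ps p s q hu hv hq.symm
  · intro h; exact absurd (Finset.mem_univ _) h

theorem ps_pe_gr (q s : ZMod l) {d : ℕ} {u : QQ step} (hu : u ∈ gr step (ZMod 2) d) :
    ps p q (pe p s u) = if s = q + (d : ZMod l) then ps p q u else 0 := by
  classical
  refine WPhase.gr_induction (P := fun u => ps p q (pe p s u) =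
    if s = q + (d : ZMod l) then ps p q u else 0) ?_ ?_ ?_ hu
  · intro w hl
    rw [pe_word, ps_word]
    by_cases h : M ≤ w.length ∧ p.ph w + (w.length : ZMod l) = s
    · rw [if_pos h, ps_word]
      by_cases h' : p.ph w = q
      · rw [if_pos ⟨h.1, h'⟩, if_pos]
        rw [← h.2, h', hl]
      · rw [if_neg (fun h2 => h' h2.2)]
        split_ifs <;> rfl
    · rw [if_neg h, map_zero]
      by_cases hs : s = q + (d : ZMod l)
      · rw [if_pos hs, if_neg]
        rintro ⟨h1, h2⟩
        exact h ⟨h1, by rw [hs, h2, hl]⟩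
      · rw [if_neg hs]
  · simp
  · intro u v h h'
    rw [map_add, map_add, h, h', map_add]
    split_ifs <;> simp

/-! ### The multipliers -/

section mult

variable {κ : Type*} [Fintype κ] [DecidableEq κ] (e : κ ≃ ZMod l)

/-- shift of the index -/
def sh (q : ZMod l) : κ ≃ κ := (e.trans (Equiv.addRight q)).trans e.symm

theorem e_sh (q : ZMod l) (a : κ) : e (sh e q a) = e a + q := by simp [sh]

variable [NeZero l]

/-- left multiplication by `T` -/
noncomputable def TL : Matrix κ κ (QQ step) →+ Matrix κ κ (QQ step) where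
  toFun A := Matrix.of fun a b => ∑ q : ZMod l, ps p q (A (sh e q a) b)
  map_zero' := by ext a b; simp
  map_add' A B := by ext a b; simp [Finset.sum_add_distrib]

/-- right multiplication by `T⁻¹` -/
noncomputable def TR : Matrix κ κ (QQ step) →+ Matrix κ κ (QQ step) where
  toFun A := Matrix.of fun a b => ∑ s : ZMod l, pe p s (A a (sh e s b))
  map_zero' := by ext a b; simp
  map_add' A B := by ext a b; simp [Finset.sum_add_distrib]

theorem TL_apply (A : Matrix κ κ (QQ step)) (a b : κ) :
    TL p e A a b = ∑ q : ZMod l, ps p q (A (sh e q a) b) := rfl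

theorem TR_apply (A : Matrix κ κ (QQ step)) (a b : κ) :
    TR p e A a b = ∑ s : ZMod l, pe p s (A a (sh e s b)) := rfl

theorem TL_mem {m : ℕ} {A : Matrix κ κ (QQ step)} (hA : A ∈ MJ κ step m) :
    TL p e A ∈ MJ κ step m := fun _ _ =>
  AddSubgroup.sum_mem _ fun q _ => ps_mem p q (hA _ _)

theorem TR_mem {m : ℕ} {A : Matrix κ κ (QQ step)} (hA : A ∈ MJ κ step m) :
    TR p e A ∈ MJ κ step m := fun _ _ =>
  AddSubgroup.sum_mem _ fun q _ => pe_mem p q (hA _ _)

theorem TL_mul {A : Matrix κ κ (QQ step)} (hA : A ∈ MJ κ step M) (B : Matrix κ κ (QQ step)) :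
    TL p e (A * B) = TL p e A * B := by
  ext a b
  rw [TL_apply, Matrix.mul_apply]
  simp only [TL_apply, Matrix.mul_apply, map_sum, Finset.sum_mul]
  rw [Finset.sum_comm]
  apply Finset.sum_congr rfl
  intro c _
  apply Finset.sum_congr rfl
  intro q _
  exact ps_mul p q (hA _ _) _

theorem TR_mul (A : Matrix κ κ (QQ step)) {B : Matrix κ κ (QQ step)} (hB : B ∈ MJ κ step M) :
    TR p e (A * B) = A * TR p e B := by
  ext a b
  rw [TR_apply, Matrix.mul_apply]
  simp only [TR_apply, Matrix.mul_apply, map_sum, Finset.mul_sum]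
  rw [Finset.sum_comm]
  apply Finset.sum_congr rfl
  intro c _
  apply Finset.sum_congr rfl
  intro q _
  exact pe_mul p q _ (hB _ _)

theorem TR_mul_TL {A B : Matrix κ κ (QQ step)} (hA : A ∈ MJ κ step M) (hB : B ∈ MJ κ step M) :
    TR p e A * TL p e B = A * B := by
  ext a b
  rw [Matrix.mul_apply, Matrix.mul_apply]
  have h1 : ∀ c : κ, TR p e A a c * TL p e B c b =
      ∑ s : ZMod l, pe p s (A a (sh e s c)) * ps p s (B (sh e s c) b) := by
    intro c
    rw [TR_apply, TL_apply, Finset.sum_mul]
    apply Finset.sum_congr rfl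
    intro s _
    rw [Finset.mul_sum, Finset.sum_eq_single s]
    · intro q _ hq
      exact pe_mul_ps p s q (hA _ _) (hB _ _) hq.symm
    · intro h; exact absurd (Finset.mem_univ _) h
  rw [Finset.sum_congr rfl fun c _ => h1 c, Finset.sum_comm]
  have h2 : ∀ s : ZMod l, ∑ c : κ, pe p s (A a (sh e s c)) * ps p s (B (sh e s c) b) =
      ∑ c : κ, pe p s (A a c) * ps p s (B c b) := by
    intro s
    exact Equiv.sum_comp (sh e s) fun c => pe p s (A a c) * ps p s (B c b)
  rw [Finset.sum_congr rfl fun s _ => h2 s, Finset.sum_comm]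
  apply Finset.sum_congr rfl
  intro c _
  exact sum_pe_mul_ps p (hA _ _) (hB _ _)

theorem TL_TR (A : Matrix κ κ (QQ step)) : TL p e (TR p e A) = TR p e (TL p e A) := by
  ext a b
  simp only [TL_apply, TR_apply, map_sum]
  rw [Finset.sum_comm]
  apply Finset.sum_congr rfl
  intro s _
  apply Finset.sum_congr rfl
  intro q _
  exact ps_pe p q s _

/-- `θ (ψ u) = u ⊗ 1`, homogeneous version -/
theorem TL_TR_gr {d : ℕ} {u : QQ step} (hu : u ∈ gr step (ZMod 2) d)
    (huJ : u ∈ J step M) {A : Matrix κ κ (QQ step)}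
    (hA : ∀ a b, A a b = if e a + (d : ZMod l) = e b then u else 0) :
    TL p e (TR p e A) = Matrix.scalar κ u := by
  ext a b
  rw [TL_apply]
  simp only [TR_apply, hA, e_sh, map_sum]
  have h1 : ∀ q s : ZMod l, ps p q (pe p s (if e a + q + (d : ZMod l) = e b + s then u else 0)) =
      if s = q + (d : ZMod l) then (if a = b then ps p q u else 0) else 0 := by
    intro q s
    by_cases hs : s = q + (d : ZMod l)
    · rw [if_pos hs]
      by_cases hab : a = b
      · subst hab
        rw [if_pos (by rw [hs, add_assoc]), if_pos rfl, ps_pe_gr p q s hu, if_pos hs]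
      · rw [if_neg hab, if_neg, map_zero, map_zero]
        intro h
        apply hab
        rw [hs, add_assoc] at h
        exact e.injective (add_right_cancel h)
    · rw [if_neg hs]
      split_ifs
      · rw [ps_pe_gr p q s hu, if_neg hs]
      · rw [map_zero, map_zero]
  rw [Finset.sum_congr rfl fun q _ => Finset.sum_congr rfl fun s _ => h1 q s]
  have h2 : ∀ q : ZMod l, ∑ s : ZMod l, (if s = q + (d : ZMod l) then
      (if a = b then ps p q u else 0) else 0) = if a = b then ps p q u else 0 := by
    intro q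
    rw [Finset.sum_ite_eq' Finset.univ, if_pos (Finset.mem_univ _)]
  rw [Finset.sum_congr rfl fun q _ => h2 q, Matrix.scalar_apply, Matrix.diagonal_apply]
  split_ifs
  · exact sum_ps p huJ
  · exact Finset.sum_const_zero

/-! ### The four equivalent maps -/

/-- upper left corner -/
noncomputable def e0 : Matrix κ κ (QQ step) →+ Matrix (κ ⊕ κ) (κ ⊕ κ) (QQ step) where
  toFun A := Matrix.fromBlocks A 0 0 0
  map_zero' := Matrix.fromBlocks_zero
  map_add' A B := by rw [Matrix.fromBlocks_add]; simp

/-- `(1,0)ᵗ a (1, T⁻¹)` -/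
noncomputable def hh : Matrix κ κ (QQ step) →+ Matrix (κ ⊕ κ) (κ ⊕ κ) (QQ step) where
  toFun A := Matrix.fromBlocks A (TR p e A) 0 0
  map_zero' := by rw [map_zero]; exact Matrix.fromBlocks_zero
  map_add' A B := by rw [Matrix.fromBlocks_add]; simp

/-- `(0,T)ᵗ a (1, T⁻¹)` -/
noncomputable def kk : Matrix κ κ (QQ step) →+ Matrix (κ ⊕ κ) (κ ⊕ κ) (QQ step) where
  toFun A := Matrix.fromBlocks 0 0 (TL p e A) (TL p e (TR p e A))
  map_zero' := by rw [map_zero, map_zero, map_zero]; exact Matrix.fromBlocks_zero
  map_add' A B := by rw [Matrix.fromBlocks_add]; simp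

/-- `(0,T)ᵗ a (0, T⁻¹)` -/
noncomputable def e1 : Matrix κ κ (QQ step) →+ Matrix (κ ⊕ κ) (κ ⊕ κ) (QQ step) where
  toFun A := Matrix.fromBlocks 0 0 0 (TL p e (TR p e A))
  map_zero' := by rw [map_zero, map_zero]; exact Matrix.fromBlocks_zero
  map_add' A B := by rw [Matrix.fromBlocks_add]; simp

theorem e0_apply (A : Matrix κ κ (QQ step)) : e0 A = Matrix.fromBlocks A 0 0 0 := rfl
theorem hh_apply (A : Matrix κ κ (QQ step)) :
    hh p e A = Matrix.fromBlocks A (TR p e A) 0 0 := rfl
theorem kk_apply (A : Matrix κ κ (QQ step)) :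
    kk p e A = Matrix.fromBlocks 0 0 (TL p e A) (TL p e (TR p e A)) := rfl
theorem e1_apply (A : Matrix κ κ (QQ step)) :
    e1 p e A = Matrix.fromBlocks 0 0 0 (TL p e (TR p e A)) := rfl

variable {A B : Matrix κ κ (QQ step)}

theorem TLTR_mul_TL (hA : A ∈ MJ κ step M) (hB : B ∈ MJ κ step M) :
    TL p e (TR p e A) * TL p e B = TL p e (A * B) := by
  rw [← TL_mul p e (TR_mem p e hA), TR_mul_TL p e hA hB]

theorem TLTR_mul_TLTR (hA : A ∈ MJ κ step M) (hB : B ∈ MJ κ step M) :
    TL p e (TR p e A) * TL p e (TR p e B) = TL p e (TR p e (A * B)) := by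
  rw [TLTR_mul_TL p e hA (TR_mem p e hB), TR_mul p e A hB]

theorem TR_mul_TLTR (hA : A ∈ MJ κ step M) (hB : B ∈ MJ κ step M) :
    TR p e A * TL p e (TR p e B) = TR p e (A * B) := by
  rw [TR_mul_TL p e hA (TR_mem p e hB), TR_mul p e A hB]

theorem TL_mul_TR (hA : A ∈ MJ κ step M) (hB : B ∈ MJ κ step M) :
    TL p e A * TR p e B = TL p e (TR p e (A * B)) := by
  rw [← TL_mul p e hA, TR_mul p e A hB]

theorem e0_mul_e0 (A B : Matrix κ κ (QQ step)) : e0 A * e0 B = e0 (A * B) := by
  rw [e0_apply, e0_apply, e0_apply, Matrix.fromBlocks_multiply]; simp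

theorem hh_mul_hh (A : Matrix κ κ (QQ step)) (hB : B ∈ MJ κ step M) :
    hh p e A * hh p e B = hh p e (A * B) := by
  rw [hh_apply, hh_apply, hh_apply, Matrix.fromBlocks_multiply, TR_mul p e A hB]; simp

theorem kk_mul_kk (hA : A ∈ MJ κ step M) (hB : B ∈ MJ κ step M) :
    kk p e A * kk p e B = kk p e (A * B) := by
  rw [kk_apply, kk_apply, kk_apply, Matrix.fromBlocks_multiply]
  simp [TLTR_mul_TL p e hA hB, TLTR_mul_TLTR p e hA hB]

theorem hh_mul_kk (hA : A ∈ MJ κ step M) (hB : B ∈ MJ κ step M) :
    hh p e A * kk p e B = hh p e (A * B) := by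
  rw [hh_apply, kk_apply, hh_apply, Matrix.fromBlocks_multiply]
  simp [TR_mul_TL p e hA hB, TR_mul_TLTR p e hA hB]

theorem kk_mul_hh (hA : A ∈ MJ κ step M) (hB : B ∈ MJ κ step M) :
    kk p e A * hh p e B = kk p e (A * B) := by
  rw [hh_apply, kk_apply, kk_apply, Matrix.fromBlocks_multiply, ← TL_mul p e hA,
    TL_mul_TR p e hA hB]
  simp

theorem e1_mul_e1 (hA : A ∈ MJ κ step M) (hB : B ∈ MJ κ step M) :
    e1 p e A * e1 p e B = e1 p e (A * B) := by
  rw [e1_apply, e1_apply, e1_apply, Matrix.fromBlocks_multiply]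
  simp [TLTR_mul_TLTR p e hA hB]

theorem e0_mul_hh (A : Matrix κ κ (QQ step)) (hB : B ∈ MJ κ step M) :
    e0 A * hh p e B = hh p e (A * B) := by
  rw [e0_apply, hh_apply, hh_apply, Matrix.fromBlocks_multiply, TR_mul p e A hB]; simp

theorem hh_mul_e0 (A B : Matrix κ κ (QQ step)) : hh p e A * e0 B = e0 (A * B) := by
  rw [e0_apply, hh_apply, e0_apply, Matrix.fromBlocks_multiply]; simp

theorem e1_mul_kk (hA : A ∈ MJ κ step M) (hB : B ∈ MJ κ step M) :
    e1 p e A * kk p e B = kk p e (A * B) := by
  rw [e1_apply, kk_apply, kk_apply, Matrix.fromBlocks_multiply]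
  simp [TLTR_mul_TL p e hA hB, TLTR_mul_TLTR p e hA hB]

theorem kk_mul_e1 (hA : A ∈ MJ κ step M) (hB : B ∈ MJ κ step M) :
    kk p e A * e1 p e B = e1 p e (A * B) := by
  rw [e1_apply, kk_apply, e1_apply, Matrix.fromBlocks_multiply]
  simp [TLTR_mul_TLTR p e hA hB]

end mult

/-! ### The cyclic twist -/

section twist

variable [NeZero l]

/-- indices -/
def finZ (l : ℕ) [NeZero l] : Fin l ≃ ZMod l := (ZMod.finEquiv l).toEquiv

theorem finZ_apply (l : ℕ) [NeZero l] (a : Fin l) : finZ l a = ((a.val : ℕ) : ZMod l) := by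
  obtain _ | n := l
  · exact absurd rfl (NeZero.ne 0)
  · exact (Fin.cast_val_eq_self (n := n + 1) a).symm

theorem finZ_add_eq_iff (a b : Fin l) (d : ℕ) :
    finZ l a + (d : ZMod l) = finZ l b ↔ (a.val + d) % l = b.val := by
  rw [finZ_apply, finZ_apply, ← Nat.cast_add, ZMod.natCast_eq_natCast_iff, Nat.ModEq,
    Nat.mod_eq_of_lt b.2]

theorem twist_cyc_apply {d : ℕ} {u : QQ step} (hu : u ∈ gr step (ZMod 2) d) (a b : Fin l) :
    Cover294.twist (gr step (ZMod 2)) (Cover294.cycFam l) u a b =
      if finZ l a + (d : ZMod l) = finZ l b then u else 0 := by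
  rw [Cover294.twist_apply_mem _ _ hu, Cover294.cycFam_apply]
  by_cases h : (a.val + d) % l = b.val
  · rw [if_pos h, if_pos ((finZ_add_eq_iff a b d).2 h), one_smul]
  · rw [if_neg h, if_neg (fun h' => h ((finZ_add_eq_iff a b d).1 h')), zero_smul]

theorem twist_mem_MJ {m : ℕ} {u : QQ step} (hu : u ∈ J step m) :
    Cover294.twist (gr step (ZMod 2)) (Cover294.cycFam l) u ∈ MJ (Fin l) step m := by
  refine J_word_induction (P := fun u =>
    Cover294.twist (gr step (ZMod 2)) (Cover294.cycFam l) u ∈ MJ (Fin l) step m) ?_ ?_ ?_ hu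
  · intro w hw a b
    rw [twist_cyc_apply (word_mem_gr' step (ZMod 2) rfl)]
    split_ifs
    · exact wd_mem_J hw
    · exact AddSubgroup.zero_mem _
  · rw [map_zero]; exact AddSubgroup.zero_mem _
  · intro u v h h'
    rw [map_add]; exact AddSubgroup.add_mem _ h h'

theorem scalar_mem_MJ {κ : Type*} [Fintype κ] [DecidableEq κ] {m : ℕ} {u : QQ step}
    (hu : u ∈ J step m) : Matrix.scalar κ u ∈ MJ κ step m := by
  intro a b
  rw [Matrix.scalar_apply, Matrix.diagonal_apply]
  split_ifs
  · exact hu
  · exact AddSubgroup.zero_mem _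

/-- **`θ (ψ u) = u ⊗ 1`** -/
theorem theta_twist {u : QQ step} (hu : u ∈ J step M) :
    TL p (finZ l) (TR p (finZ l) (Cover294.twist (gr step (ZMod 2)) (Cover294.cycFam l) u)) =
      Matrix.scalar (Fin l) u := by
  refine J_word_induction (P := fun u => TL p (finZ l) (TR p (finZ l)
    (Cover294.twist (gr step (ZMod 2)) (Cover294.cycFam l) u)) =
      Matrix.scalar (Fin l) u) ?_ ?_ ?_ hu
  · intro w hw
    exact TL_TR_gr p (finZ l) (word_mem_gr' step (ZMod 2) rfl) (wd_mem_J hw)
      (twist_cyc_apply (word_mem_gr' step (ZMod 2) rfl))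
  · simp only [map_zero]
  · intro u v h h'
    rw [map_add, map_add, map_add, h, h', map_add]

end twist

end Crest.Agent.R176.Mult396
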