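import Crest.Agent.R176.Fpt396

/-!
R176, part B, block PHASES (algebra level, helper396): from a phase function on long nonzero words
(`WPhase`, delivered by the machine for all levels) to the phase projections of the algebra.
-/

set_option autoImplicit false
set_option linter.unusedSectionVars false

namespace Crest.Agent.R176.Ph396

open QAlg206 Fpt396

variable {L : Type*}

/-- Word-level phase function modulo `l` on nonzero words of length `≥ M`
(`ph` = start phase of the word). -/
structure WPhase (step : L → L → Option (L × L)) (l M : ℕ) where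
  ph : List L → ZMod l
  inv : ∀ u v : List L, ¬ IsZ step u → M ≤ u.length → WEq step (some u) (some v) → ph u = ph v
  left : ∀ u w : List L, ¬ IsZ step (u ++ w) → M ≤ u.length → ph (u ++ w) = ph u
  right : ∀ w u : List L, ¬ IsZ step (w ++ u) → M ≤ u.length →
    ph (w ++ u) + (w.length : ZMod l) = ph u

/-- THE MACHINE INTERFACE: phases of arbitrarily large odd length. -/
def PhaseAll (step : L → L → Option (L × L)) : Prop :=
  ∀ N : ℕ, ∃ l M : ℕ, N ≤ l ∧ Odd l ∧ Nonempty (WPhase step l M)

variable {step : L → L → Option (L × L)} {l M : ℕ}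

namespace WPhase

variable (p : WPhase step l M)

theorem not_isZ_left {u w : List L} (h : ¬ IsZ step (u ++ w)) : ¬ IsZ step u := by
  intro hz
  apply h
  have := IsZ.context [] w hz
  simpa using this

theorem not_isZ_right {u w : List L} (h : ¬ IsZ step (u ++ w)) : ¬ IsZ step w := by
  intro hz
  apply h
  have := IsZ.context u [] hz
  simpa using this

/-- words in the class with phase `q` -/
def Has (q : ZMod l) (c : Cl step) : Prop :=
  ∃ w : List L, c = cl (some w) ∧ M ≤ w.length ∧ p.ph w = q

theorem has_iff {q : ZMod l} {w : List L} (hw : ¬ IsZ step w) :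
    p.Has q (cl (some w)) ↔ M ≤ w.length ∧ p.ph w = q := by
  constructor
  · rintro ⟨w', e, hM, hq⟩
    have e' : WEq step (some w) (some w') := cl_eq_iff.1 e
    have hl := e'.length_eq hw
    exact ⟨by omega, by rw [p.inv w w' hw (by omega) e', hq]⟩
  · rintro ⟨hM, hq⟩
    exact ⟨w, rfl, hM, hq⟩

open Classical in
/-- The projection to the start phase `q`. -/
noncomputable def pi (q : ZMod l) : QQ step →ₗ[ZMod 2] QQ step :=
  (Finsupp.linearCombination (ZMod 2)
    (fun c : NZ step => if p.Has q c.1 then ofCl step (ZMod 2) c.1 else 0)).comp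
    (coord step (ZMod 2))

theorem cl_ne_of_not_isZ {w : List L} (hw : ¬ IsZ step w) : cl (step := step) (some w) ≠ cl none :=
  fun e => hw (cl_eq_iff.1 e)

open Classical in
theorem pi_word (q : ZMod l) (w : List L) :
    p.pi q (wd step w) = if M ≤ w.length ∧ p.ph w = q then wd step w else 0 := by
  by_cases hw : IsZ step w
  · have : wd step w = 0 := word_eq_zero_of_isZ step (ZMod 2) hw
    rw [this, map_zero]
    split_ifs <;> rfl
  · have hc := cl_ne_of_not_isZ hw
    have e : p.pi q (wd step w) =
        if p.Has q (cl (some w)) then ofCl step (ZMod 2) (cl (some w)) else 0 := by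
      show Finsupp.linearCombination (ZMod 2) _ (coord step (ZMod 2) (word step (ZMod 2) w)) = _
      rw [coord_word, sg_of_ne step (ZMod 2) hc, Finsupp.linearCombination_single, one_smul]
    rw [e, ofCl_some]
    by_cases h : M ≤ w.length ∧ p.ph w = q
    · rw [if_pos h, if_pos ((p.has_iff hw).2 h)]
    · rw [if_neg h, if_neg (fun h' => h ((p.has_iff hw).1 h'))]

theorem gr_induction {d : ℕ} {P : QQ step → Prop}
    (hw : ∀ w : List L, w.length = d → P (wd step w)) (h0 : P 0)
    (hadd : ∀ u v, P u → P v → P (u + v)) {u : QQ step} (hu : u ∈ gr step (ZMod 2) d) : P u := by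
  induction hu using Submodule.span_induction with
  | mem u hu =>
    obtain ⟨w, hl, rfl⟩ := hu
    exact hw w hl
  | zero => exact h0
  | add u v _ _ h h' => exact hadd u v h h'
  | smul c u _ h =>
    have : c = 0 ∨ c = 1 := by revert c; decide
    rcases this with rfl | rfl
    · rw [zero_smul]; exact h0
    · rw [one_smul]; exact h

theorem pi_mem (q : ZMod l) {d : ℕ} {u : QQ step} (hu : u ∈ gr step (ZMod 2) d) :
    p.pi q u ∈ gr step (ZMod 2) d := by
  refine gr_induction (P := fun u => p.pi q u ∈ gr step (ZMod 2) d) ?_ ?_ ?_ hu
  · intro w hl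
    rw [pi_word]
    split_ifs
    · exact word_mem_gr' step (ZMod 2) hl
    · exact Submodule.zero_mem _
  · rw [map_zero]; exact Submodule.zero_mem _
  · intro u v h h'
    rw [map_add]; exact Submodule.add_mem _ h h'

theorem sum_pi [NeZero l] {d : ℕ} (hd : M ≤ d) {u : QQ step} (hu : u ∈ gr step (ZMod 2) d) :
    ∑ q : ZMod l, p.pi q u = u := by
  classical
  refine gr_induction (P := fun u => ∑ q : ZMod l, p.pi q u = u) ?_ ?_ ?_ hu
  · intro w hl
    rw [Finset.sum_eq_single (p.ph w)]
    · rw [pi_word, if_pos ⟨by omega, rfl⟩]
    · intro q _ hq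
      rw [pi_word, if_neg (fun h => hq h.2.symm)]
    · intro h; exact absurd (Finset.mem_univ _) h
  · simp
  · intro u v h h'
    simp only [map_add, Finset.sum_add_distrib, h, h']

theorem pi_pi (q q' : ZMod l) (u : QQ step) :
    p.pi q (p.pi q' u) = if q = q' then p.pi q' u else 0 := by
  classical
  induction u using induction_on with
  | hw w =>
    rw [pi_word]
    by_cases h : M ≤ w.length ∧ p.ph w = q'
    · rw [if_pos h, pi_word]
      by_cases hq : q = q'
      · rw [if_pos hq, if_pos ⟨h.1, by rw [hq]; exact h.2⟩]
      · rw [if_neg hq, if_neg (fun h' => hq (by rw [← h'.2, h.2]))]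
    · rw [if_neg h, map_zero]
      split_ifs <;> rfl
  | hadd r s hr hs =>
    rw [map_add, map_add, hr, hs]
    split_ifs
    · rfl
    · rw [add_zero]
  | hsmul c r hr =>
    rw [map_smul, map_smul, hr]
    split_ifs
    · rfl
    · rw [smul_zero]

theorem pi_mul_left (q : ZMod l) {d : ℕ} (hd : M ≤ d) {u : QQ step}
    (hu : u ∈ gr step (ZMod 2) d) (v : QQ step) : p.pi q (u * v) = p.pi q u * v := by
  classical
  refine gr_induction (P := fun u => p.pi q (u * v) = p.pi q u * v) ?_ ?_ ?_ hu
  · intro w hl
    induction v using induction_on with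
    | hw w' =>
      show p.pi q (wd step w * wd step w') = p.pi q (wd step w) * wd step w'
      rw [show wd step w * wd step w' = wd step (w ++ w') from (word_append step (ZMod 2) w w').symm,
        pi_word, pi_word]
      by_cases hz : IsZ step (w ++ w')
      · have e : wd step (w ++ w') = 0 := word_eq_zero_of_isZ step (ZMod 2) hz
        have e' : wd step w * wd step w' = 0 := by
          rw [show wd step w * wd step w' = wd step (w ++ w') from
            (word_append step (ZMod 2) w w').symm, e]
        rw [e]
        split_ifs <;> simp [e']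
      · have e := p.left w w' hz (by omega)
        by_cases h : M ≤ w.length ∧ p.ph w = q
        · rw [if_pos h, if_pos ⟨by simp; omega, by rw [e]; exact h.2⟩]
          exact word_append step (ZMod 2) w w'
        · rw [if_neg h, if_neg, zero_mul]
          rintro ⟨-, h2⟩
          exact h ⟨by omega, by rw [← e]; exact h2⟩
    | hadd r s hr hs => rw [mul_add, map_add, hr, hs, mul_add]
    | hsmul c r hr => rw [mul_smul_comm, map_smul, hr, mul_smul_comm]
  · rw [zero_mul, map_zero, zero_mul]
  · intro u u' h h'
    rw [add_mul, map_add, h, h', map_add, add_mul]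

theorem pi_mul_right (q : ZMod l) {d e : ℕ} (he : M ≤ e) {u v : QQ step}
    (hu : u ∈ gr step (ZMod 2) d) (hv : v ∈ gr step (ZMod 2) e) :
    p.pi q (u * v) = u * p.pi (q + (d : ZMod l)) v := by
  classical
  refine gr_induction (P := fun u => p.pi q (u * v) = u * p.pi (q + (d : ZMod l)) v)
    ?_ ?_ ?_ hu
  · intro w hl
    refine gr_induction (P := fun v => p.pi q (wd step w * v) =
      wd step w * p.pi (q + (d : ZMod l)) v) ?_ ?_ ?_ hv
    · intro w' hl'
      rw [show wd step w * wd step w' = wd step (w ++ w') from (word_append step (ZMod 2) w w').symm,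
        pi_word, pi_word]
      by_cases hz : IsZ step (w ++ w')
      · have e : wd step (w ++ w') = 0 := word_eq_zero_of_isZ step (ZMod 2) hz
        have e' : wd step w * wd step w' = 0 := by
          rw [show wd step w * wd step w' = wd step (w ++ w') from
            (word_append step (ZMod 2) w w').symm, e]
        rw [e]
        split_ifs <;> simp [e']
      · have e := p.right w w' hz (by omega)
        rw [hl] at e
        by_cases h : M ≤ w'.length ∧ p.ph w' = q + (d : ZMod l)
        · rw [if_pos h, if_pos ⟨by simp; omega, by
            have := h.2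
            rw [← e] at this
            exact add_right_cancel this⟩]
          exact word_append step (ZMod 2) w w'
        · rw [if_neg h, if_neg, mul_zero]
          rintro ⟨-, h2⟩
          exact h ⟨by omega, by rw [← e, h2]⟩
    · rw [mul_zero, map_zero, map_zero, mul_zero]
    · intro u u' h h'
      rw [mul_add, map_add, h, h', map_add, mul_add]
  · rw [zero_mul, map_zero, zero_mul]
  · intro u u' h h'
    rw [add_mul, map_add, h, h', add_mul]

end WPhase

end Crest.Agent.R176.Ph396
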