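import Crest.Agent.R176.Exc275AC
import Crest.Agent.R176.Exc275D
import Crest.Agent.R176.Ph396
import Crest.Agent.R176.Cover294Cyc
import Crest.Agent.R176.Mult396

/-! Row 176, part B, block EXC (helper275): final form. -/

set_option autoImplicit false

namespace Crest.Agent.R176.Exc275

open St Cover294 Fpt396 QAlg206
open scoped commutatorElement

variable {L : Type} {step : L → L → Option (L × L)}

theorem wd_mem_gr (w : List L) : wd step w ∈ gr step (ZMod 2) w.length :=
  word_mem_gr' step (ZMod 2) rfl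

theorem twist_mem_MJ {n : Type} [Fintype n] [DecidableEq n] (F : MFam n) {m : ℕ} {r : QQ step}
    (hr : r ∈ J step m) : twist (gr step (ZMod 2)) F r ∈ MJ n step m := by
  induction hr using AddSubgroup.closure_induction with
  | mem r hr =>
    obtain ⟨w, hw, rfl⟩ := hr
    intro p q
    rw [twist_apply_mem (gr step (ZMod 2)) F (wd_mem_gr w)]
    exact smul_mem_addSubgroup _ _ (wd_mem_J hw)
  | zero => rw [map_zero]; exact AddSubgroup.zero_mem _
  | add a b _ _ ha hb => rw [map_add]; exact AddSubgroup.add_mem _ ha hb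
  | neg a _ ha => rw [map_neg]; exact AddSubgroup.neg_mem _ ha

/-- (X3) -/
def X3 (step : L → L → Option (L × L)) (l M : ℕ) [NeZero l] : Prop :=
  ∀ m, M ≤ m → 1 ≤ m → ∃ Lm Rm : Matrix (Fin l) (Fin l) (QQ step) →+ Matrix (Fin l) (Fin l) (QQ step),
    Mult (MJ (Fin l) step m) Lm Rm ∧
      ∀ r ∈ J step m, Lm (Rm (twist (gr step (ZMod 2)) (cycFam l) r)) = Matrix.scalar (Fin l) r

/-- **EXC** modulo (X3). -/
theorem exc_of_X3 {l M : ℕ} [NeZero l] (h3 : X3 step l M) {I : Type} [Fintype I] [DecidableEq I]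
    (h4 : ∀ a b c : I, ∃ d, d ≠ a ∧ d ≠ b ∧ d ≠ c) :
    ∃ m, ∀ g : St I (QQ step), toMat g = 1 → g ∈ Tits370.E I (J step m) →
      mapI (eN I (0 : Fin 2)) (map (twist (gr step (ZMod 2)) (cycFam l)) g) =
        mapI (eN I (1 : Fin 2)) (map (Matrix.scalar (Fin l)) g) := by
  obtain ⟨Lm, Rm, hM, hT⟩ := h3 (M + 1) (by omega) (by omega)
  refine ⟨8 * (M + 1), fun g hg1 hg => ?_⟩
  exact exc_general (stepAC _ _) h4 (twist (gr step (ZMod 2)) (cycFam l))
    (fun m r hr => twist_mem_MJ _ hr) (by omega) hM hT g hg1 hg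

/-- (X3) from a word-level phase function (helper396). -/
theorem x3 {l M : ℕ} [NeZero l] (p : Ph396.WPhase step l M) : X3 step l M := by
  intro m hm hm1
  have hle : MJ (Fin l) step m ≤ MJ (Fin l) step M := MJ_anti hm
  refine ⟨Mult396.TL p (Mult396.finZ l), Mult396.TR p (Mult396.finZ l), ?_, ?_⟩
  · exact {
      mul_mem := fun a ha b hb => MJ_anti (by omega) (mul_mem_MJ ha hb)
      L_mem := fun a ha => Mult396.TL_mem p _ ha
      R_mem := fun a ha => Mult396.TR_mem p _ ha
      L_mul := fun a ha b _ => Mult396.TL_mul p _ (hle ha) b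
      R_mul := fun a _ b hb => Mult396.TR_mul p _ a (hle hb)
      RL := fun a ha b hb => Mult396.TR_mul_TL p _ (hle ha) (hle hb)
      LR := fun a _ => Mult396.TL_TR p _ a }
  · intro r hr
    exact Mult396.theta_twist p (J_anti hm hr)

/-- **EXC.** -/
theorem exc {l M : ℕ} [NeZero l] (p : Ph396.WPhase step l M) {I : Type} [Fintype I]
    [DecidableEq I] (h4 : ∀ a b c : I, ∃ d, d ≠ a ∧ d ≠ b ∧ d ≠ c) :
    ∃ m, ∀ g : St I (QQ step), toMat g = 1 → g ∈ Tits370.E I (J step m) →
      mapI (eN I (0 : Fin 2)) (map (twist (gr step (ZMod 2)) (cycFam l)) g) =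
        mapI (eN I (1 : Fin 2)) (map (Matrix.scalar (Fin l)) g) :=
  exc_of_X3 (x3 p) h4

end Crest.Agent.R176.Exc275
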