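import Crest.Agent.R176.StCol313

/-! Row 176, part B: `St I (ZMod 2) → GL_I(ZMod 2)` is injective for finite `I`, `|I| ≥ 3`. -/

set_option autoImplicit false
set_option linter.unusedVariables false
set_option linter.unusedSectionVars false

namespace Crest.Agent.R176.K2F2

open scoped commutatorElement
open Crest.Agent.R176 Crest.Agent.R176.St

theorem comm_eq {G : Type*} [Group G] {u v c : G} (h : ⁅u, v⁆ = c) : u * v = c * v * u := by
  rw [commutatorElement_def, mul_inv_eq_iff_eq_mul, mul_inv_eq_iff_eq_mul] at h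
  exact h

/-- abstract braid relation -/
theorem braid_aux {G : Type*} [Group G] {a b p q r s : G}
    (ha : a * a = 1) (hp : p * p = 1)
    (hs : s * s = 1) (hb : b * b = 1) (hap : Commute a p) (hbp : ⁅b, p⁆ = q) (haq : ⁅a, q⁆ = p)
    (hpq : Commute p q)
    (has : Commute a s) (hsb : ⁅s, b⁆ = r) (hra : ⁅r, a⁆ = s) (hrs : Commute r s)
    (hps : ⁅p, s⁆ = a) (hqr : ⁅q, r⁆ = b) : a * b * a = b * a * b := by
  have hbp := comm_eq hbp
  have haq := comm_eq haq
  have hsb := comm_eq hsb
  have hra := comm_eq hra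
  have e1 : (a * b * a) * p = q * (a * b * a) := by
    calc (a * b * a) * p = a * (b * p) * a := by simp only [mul_assoc, hap.eq]
      _ = (a * q) * p * b * a := by rw [hbp]; simp only [mul_assoc]
      _ = p * q * (a * p) * b * a := by rw [haq]; simp only [mul_assoc]
      _ = p * (q * p) * a * b * a := by rw [hap.eq]; simp only [mul_assoc]
      _ = (p * p) * q * a * b * a := by rw [← hpq.eq]; simp only [mul_assoc]
      _ = q * (a * b * a) := by rw [hp, one_mul]; simp only [mul_assoc]
  have hbs : b * s = s * r * b := by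
    calc b * s = (s * s) * b * s := by rw [hs, one_mul]
      _ = s * (s * b) * s := by simp only [mul_assoc]
      _ = s * r * b * (s * s) := by rw [hsb]; simp only [mul_assoc]
      _ = s * r * b := by rw [hs, mul_one]
  have har : a * r = r * s * a := by
    calc a * r = (s * s) * a * r := by rw [hs, one_mul]
      _ = s * (s * a * r) := by simp only [mul_assoc]
      _ = s * r * a := by rw [← hra]; simp only [mul_assoc]
      _ = r * s * a := by rw [hrs.eq]
  have e2 : (a * b * a) * s = r * (a * b * a) := by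
    calc (a * b * a) * s = a * (b * s) * a := by simp only [mul_assoc, has.eq]
      _ = (a * s) * r * b * a := by rw [hbs]; simp only [mul_assoc]
      _ = s * (a * r) * b * a := by rw [has.eq]; simp only [mul_assoc]
      _ = s * (r * s) * a * b * a := by rw [har]; simp only [mul_assoc]
      _ = (s * s) * r * a * b * a := by rw [hrs.eq]; simp only [mul_assoc]
      _ = r * (a * b * a) := by rw [hs, one_mul]; simp only [mul_assoc]
  have e3 : (a * b * a) * a = b * (a * b * a) := by
    have h1 : (a * b * a) * p * (a * b * a)⁻¹ = q := by rw [e1]; group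
    have h2 : (a * b * a) * s * (a * b * a)⁻¹ = r := by rw [e2]; group
    have key : ∀ W : G, W * p * W⁻¹ = q → W * s * W⁻¹ = r → W * a * W⁻¹ = b := by
      intro W h1 h2
      rw [← hqr, ← h1, ← h2, ← hps]
      simp only [commutatorElement_def]
      group
    have h3 := key _ h1 h2
    rw [mul_inv_eq_iff_eq_mul] at h3
    exact h3
  calc a * b * a = ((a * b * a) * a) * a := by simp only [mul_assoc, ha, mul_one]
    _ = b * a * b * (a * a) := by rw [e3]; simp only [mul_assoc]
    _ = b * a * b := by rw [ha, mul_one]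

variable {I : Type*} [Fintype I] [DecidableEq I]

abbrev F := ZMod 2

theorem x_sq {i j : I} (h : i ≠ j) : (x i j h (1 : F)) * x i j h 1 = 1 := by
  rw [← x_add, show (1 : F) + 1 = 0 from rfl, x_zero]

theorem x_inv {i j : I} (h : i ≠ j) : (x i j h (1 : F))⁻¹ = x i j h 1 :=
  inv_eq_of_mul_eq_one_left (x_sq h)

theorem exists_third (hI : 3 ≤ Fintype.card I) (i j : I) : ∃ k, k ≠ i ∧ k ≠ j := by
  by_contra hc
  push Not at hc
  have : (Finset.univ : Finset I) ⊆ {i, j} := by
    intro k _
    rw [Finset.mem_insert, Finset.mem_singleton]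
    by_cases hk : k = i
    · exact Or.inl hk
    · exact Or.inr (hc k hk)
  have h1 := Finset.card_le_card this
  have h2 := Finset.card_le_two (a := i) (b := j)
  rw [Finset.card_univ] at h1
  omega

theorem braid (hI : 3 ≤ Fintype.card I) {i j : I} (h : i ≠ j) :
    x i j h (1 : F) * x j i h.symm 1 * x i j h 1 = x j i h.symm 1 * x i j h 1 * x j i h.symm 1 := by
  obtain ⟨k, hki, hkj⟩ := exists_third hI i j
  have hik := hki.symm
  have hjk := hkj.symm
  refine braid_aux (p := x i k hik 1) (q := x j k hjk 1) (r := x k i hki 1) (s := x k j hkj 1)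
    (x_sq h) (x_sq _) (x_sq _) (x_sq _) ?_ ?_ ?_ ?_ ?_ ?_ ?_ ?_ ?_ ?_
  · exact x_commute _ _ _ _ _ _ h.symm hik _ _
  · rw [x_comm _ _ _ h.symm hik hjk, one_mul]
  · rw [x_comm _ _ _ h hjk hik, one_mul]
  · exact x_commute _ _ _ _ _ _ hkj hik _ _
  · exact x_commute _ _ _ _ _ _ hjk h _ _
  · rw [x_comm _ _ _ hkj h.symm hki, one_mul]
  · rw [x_comm _ _ _ hki h hkj, one_mul]
  · exact x_commute _ _ _ _ _ _ hik hkj _ _
  · rw [x_comm _ _ _ hik hkj h, one_mul]
  · rw [x_comm _ _ _ hjk hki h.symm, one_mul]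

/-- entries of `x i j h r * g` -/
theorem toMat_x_mul {R : Type*} [Ring R] (i j : I) (h : i ≠ j) (r : R) (g : St I R) (a b : I) :
    (toMat (x i j h r * g)).val a b =
      (toMat g).val a b + if a = i then r * (toMat g).val j b else 0 := by
  rw [map_mul, Units.val_mul, toMat_x, elem_val, add_mul, one_mul, Matrix.add_apply]
  congr 1
  split_ifs with hai
  · subst hai
    rw [Matrix.single_mul_apply_same]
  · exact Matrix.single_mul_apply_of_ne _ _ _ _ _ hai _

/-- generated by the `x_ij(1)`, `i, j ∈ J` -/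
def K (J : Set I) : Subgroup (St I F) :=
  Subgroup.closure {g | ∃ i j h, i ∈ J ∧ j ∈ J ∧ g = x i j h 1}

/-- generated by the `x_ij(1)`, `i ∈ J ∪ {k}`, `j ∈ J` -/
def Q (J : Set I) (k : I) : Subgroup (St I F) :=
  Subgroup.closure {g | ∃ i j h, (i ∈ J ∨ i = k) ∧ j ∈ J ∧ g = x i j h 1}

theorem x_mem_K {J : Set I} {i j : I} (h : i ≠ j) (hi : i ∈ J) (hj : j ∈ J) :
    x i j h (1 : F) ∈ K J := Subgroup.subset_closure ⟨i, j, h, hi, hj, rfl⟩

theorem x_mem_Q {J : Set I} {k i j : I} (h : i ≠ j) (hi : i ∈ J ∨ i = k) (hj : j ∈ J) :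
    x i j h (1 : F) ∈ Q J k := Subgroup.subset_closure ⟨i, j, h, hi, hj, rfl⟩

theorem F_cases (r : F) : r = 0 ∨ r = 1 := by
  fin_cases r
  · exact Or.inl rfl
  · exact Or.inr rfl

theorem x_mem_Q' {J : Set I} {k i j : I} (h : i ≠ j) (hi : i ∈ J ∨ i = k) (hj : j ∈ J) (r : F) :
    x i j h r ∈ Q J k := by
  rcases F_cases r with rfl | rfl
  · rw [x_zero]; exact Subgroup.one_mem _
  · exact x_mem_Q h hi hj

/-- support in `J` -/
def Supp (J : Set I) (a : I → F) : Prop := ∀ i, i ∉ J → a i = 0

theorem Supp.add {J : Set I} {a b : I → F} (ha : Supp J a) (hb : Supp J b) : Supp J (a + b) :=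
  fun i hi => by rw [Pi.add_apply, ha i hi, hb i hi, add_zero]

theorem Supp.single {J : Set I} {i : I} (hi : i ∈ J) (r : F) : Supp J (Pi.single i r) := by
  intro j hj
  rw [Pi.single_eq_of_ne]
  rintro rfl
  exact hj hi

theorem col_mem_Q {J : Set I} {k j : I} (hj : j ∈ J) (a : I → F) (ha : Supp J a) :
    col j a ∈ Q J k := by
  have : ∀ s : Finset I, (∀ i ∈ s, i ∈ J) → col j (∑ i ∈ s, Pi.single i (a i)) ∈ Q J k := by
    intro s
    induction s using Finset.induction_on with
    | empty => intro _; simp [Subgroup.one_mem]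
    | insert i s hi ih =>
      intro hs
      rw [Finset.sum_insert hi, col_add]
      refine Subgroup.mul_mem _ ?_ (ih fun l hl => hs l (Finset.mem_insert_of_mem hl))
      by_cases hij : i = j
      · subst hij; rw [col_single_self]; exact Subgroup.one_mem _
      · rw [col_single j i hij]
        exact x_mem_Q' hij (Or.inl (hs i (Finset.mem_insert_self _ _))) hj _
  classical
  have h := this (Finset.univ.filter (· ∈ J)) (fun i hi => (Finset.mem_filter.mp hi).2)
  convert h using 2
  conv_lhs => rw [← Finset.univ_sum_single a]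
  rw [Finset.sum_filter]
  apply Finset.sum_congr rfl
  intro i _
  split_ifs with hi
  · rfl
  · rw [ha i hi, Pi.single_zero]

variable {J : Set I} {k : I}

/-- first form -/
def Form1 (J : Set I) (k : I) (g : St I F) : Prop :=
  ∃ a : I → F, Supp J a ∧ ∃ q ∈ Q J k, g = col k a * q

/-- second form -/
def Form2 (J : Set I) (k : I) (g : St I F) : Prop :=
  ∃ a : I → F, Supp J a ∧ ∃ j, ∃ h : k ≠ j, j ∈ J ∧ a j = 1 ∧ ∃ q ∈ Q J k,
    g = x k j h 1 * (col k a * q)

def Form (J : Set I) (k : I) (g : St I F) : Prop := Form1 J k g ∨ Form2 J k g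

theorem form1_col (hk : k ∉ J) {i : I} (hi : i ∈ J) (hik : i ≠ k) {g : St I F}
    (hg : Form1 J k g) : Form1 J k (x i k hik 1 * g) := by
  obtain ⟨a, ha, q, hq, rfl⟩ := hg
  refine ⟨Pi.single i 1 + a, (Supp.single hi 1).add ha, q, hq, ?_⟩
  rw [col_add, col_single k i hik, mul_assoc]

theorem form1_x (hk : k ∉ J) {i j : I} (h : i ≠ j) (hi : i ∈ J) (hj : j ∈ J) {g : St I F}
    (hg : Form1 J k g) : Form1 J k (x i j h 1 * g) := by
  obtain ⟨a, ha, q, hq, rfl⟩ := hg
  have hik : i ≠ k := by rintro rfl; exact hk hi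
  have hjk : j ≠ k := by rintro rfl; exact hk hj
  refine ⟨a + Pi.single i (1 * a j), ha.add (Supp.single hi _), x i j h 1 * q,
    Subgroup.mul_mem _ (x_mem_Q h (Or.inl hi) hj) hq, ?_⟩
  rw [← mul_assoc, x_mul_col k i j h hik hjk, mul_assoc]

theorem row_form1_zero (hk : k ∉ J) {j : I} (h : k ≠ j) (hj : j ∈ J) {a : I → F} (ha : Supp J a)
    (haj : a j = 0) {q : St I F} (hq : q ∈ Q J k) :
    Form1 J k (x k j h 1 * (col k a * q)) := by
  refine ⟨a, ha, col j (fun i => -(a i * 1)) * (x k j h 1 * q), ?_, ?_⟩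
  · refine Subgroup.mul_mem _ (col_mem_Q hj _ ?_)
      (Subgroup.mul_mem _ (x_mem_Q h (Or.inr rfl) hj) hq)
    intro i hi
    show -(a i * 1) = 0
    rw [ha i hi, zero_mul, neg_zero]
  · rw [← mul_assoc, x_row_mul_col k j h 1 a haj (ha k hk)]
    simp only [mul_assoc]

theorem form1_row (hk : k ∉ J) {j : I} (h : k ≠ j) (hj : j ∈ J) {g : St I F}
    (hg : Form1 J k g) : Form J k (x k j h 1 * g) := by
  obtain ⟨a, ha, q, hq, rfl⟩ := hg
  rcases F_cases (a j) with haj | haj
  · exact Or.inl (row_form1_zero hk h hj ha haj hq)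
  · exact Or.inr ⟨a, ha, j, h, hj, haj, q, hq, rfl⟩

theorem form2_row (hk : k ∉ J) {l : I} (hkl : k ≠ l) (hl : l ∈ J) {g : St I F}
    (hg : Form2 J k g) : Form J k (x k l hkl 1 * g) := by
  obtain ⟨a, ha, j, h, hj, haj, q, hq, rfl⟩ := hg
  by_cases hjl : j = l
  · subst hjl
    left
    rw [← mul_assoc, x_sq, one_mul]
    exact ⟨a, ha, q, hq, rfl⟩
  have hcomm : Commute (x k l hkl (1 : F)) (x k j h 1) := x_commute _ _ _ _ _ _ hkl.symm h _ _
  rcases F_cases (a l) with hal | hal
  · right
    obtain ⟨a', ha', q', hq', e⟩ := row_form1_zero hk hkl hl ha hal hq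
    -- need the same a
    refine ⟨a, ha, j, h, hj, haj, col l (fun i => -(a i * 1)) * (x k l hkl 1 * q), ?_, ?_⟩
    · refine Subgroup.mul_mem _ (col_mem_Q hl _ ?_)
        (Subgroup.mul_mem _ (x_mem_Q hkl (Or.inr rfl) hl) hq)
      intro i hi
      show -(a i * 1) = 0
      rw [ha i hi, zero_mul, neg_zero]
    · rw [← mul_assoc, hcomm.eq, mul_assoc, ← mul_assoc (x k l hkl 1),
        x_row_mul_col k l hkl 1 a hal (ha k hk)]
      simp only [mul_assoc]
  · left
    have hlj : l ≠ j := Ne.symm hjl
    -- x_kl x_kj = x_lj x_kl x_lj⁻¹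
    have e0 : x k l hkl (1 : F) * x k j h 1 = x l j hlj 1 * x k l hkl 1 * x l j hlj 1 := by
      have h1 := x_mul_row k l j hlj hkl.symm h.symm (1 : F) (Pi.single l 1)
      rw [Pi.single_eq_same, one_mul, sub_eq_add_neg, row_add, row_neg, row_single k l hkl,
        row_single k j h, x_inv] at h1
      rw [h1, mul_assoc, x_sq, mul_one]
    have e1 : x k l hkl (1 : F) * (x k j h 1 * (col k a * q)) =
        x l j hlj 1 * (x k l hkl 1 * (col k (a + Pi.single l (1 * a j)) * (x l j hlj 1 * q))) := by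
      rw [← mul_assoc, e0]
      simp only [mul_assoc]
      rw [← mul_assoc (x l j hlj 1) (col k a), x_mul_col k l j hlj hkl.symm h.symm]
      simp only [mul_assoc]
    rw [e1]
    apply form1_x hk hlj hl hj
    apply row_form1_zero hk hkl hl (ha.add (Supp.single hl _)) _
      (Subgroup.mul_mem _ (x_mem_Q hlj (Or.inl hl) hj) hq)
    rw [Pi.add_apply, Pi.single_eq_same, haj, hal]
    rfl

theorem form_row (hk : k ∉ J) {l : I} (hkl : k ≠ l) (hl : l ∈ J) {g : St I F}
    (hg : Form J k g) : Form J k (x k l hkl 1 * g) :=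
  hg.elim (form1_row hk hkl hl) (form2_row hk hkl hl)

theorem form2_x (hk : k ∉ J) {i l : I} (hil : i ≠ l) (hi : i ∈ J) (hl : l ∈ J) {g : St I F}
    (hg : Form2 J k g) : Form J k (x i l hil 1 * g) := by
  obtain ⟨a, ha, j, h, hj, haj, q, hq, rfl⟩ := hg
  have hlk : l ≠ k := by rintro rfl; exact hk hl
  have hik : i ≠ k := by rintro rfl; exact hk hi
  have hf : Form1 J k (x i l hil 1 * (col k a * q)) := form1_x hk hil hi hl ⟨a, ha, q, hq, rfl⟩
  by_cases hij : i = j
  · subst hij
    have e := comm_eq (x_comm k i l h hil hlk.symm (1 : F) 1)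
    rw [one_mul] at e
    have e' : x i l hil (1 : F) * x k i h 1 = x k l hlk.symm 1 * x k i h 1 * x i l hil 1 := by
      rw [mul_assoc, e, ← mul_assoc, ← mul_assoc, x_sq, one_mul]
    rw [← mul_assoc, e', mul_assoc, mul_assoc]
    exact form_row hk _ hl (form1_row hk _ hi hf)
  · have hc : Commute (x i l hil (1 : F)) (x k j h 1) := x_commute _ _ _ _ _ _ hlk hij _ _
    rw [← mul_assoc, hc.eq, mul_assoc]
    exact form1_row hk h hj hf

theorem form_x (hk : k ∉ J) {i l : I} (hil : i ≠ l) (hi : i ∈ J) (hl : l ∈ J) {g : St I F}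
    (hg : Form J k g) : Form J k (x i l hil 1 * g) :=
  hg.elim (fun h => Or.inl (form1_x hk hil hi hl h)) (form2_x hk hil hi hl)

theorem form2_col (hI : 3 ≤ Fintype.card I) (hk : k ∉ J) {i : I} (hi : i ∈ J) (hik : i ≠ k)
    {g : St I F} (hg : Form2 J k g) : Form J k (x i k hik 1 * g) := by
  obtain ⟨a, ha, j, h, hj, haj, q, hq, rfl⟩ := hg
  by_cases hij : i = j
  · subst hij
    have e1 : col k a = x i k hik 1 * col k (a - Pi.single i 1) := by
      rw [← col_single k i hik, ← col_add, add_sub_cancel]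
    have e2 : x i k hik 1 * (x k i h 1 * (col k a * q)) =
        x k i h 1 * (x i k hik 1 * (x k i h 1 * (col k (a - Pi.single i 1) * q))) := by
      rw [e1]
      have := braid hI hik
      simp only [← mul_assoc]
      rw [this]
    rw [e2]
    apply form1_row hk h hi
    apply form1_col hk hi hik
    apply row_form1_zero hk h hi _ _ hq
    · intro l hl
      rw [Pi.sub_apply, ha l hl, Supp.single hi 1 l hl, sub_zero]
    · rw [Pi.sub_apply, haj, Pi.single_eq_same, sub_self]
  · have e := comm_eq (x_comm i k j hik h hij (1 : F) 1)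
    rw [one_mul] at e
    rw [← mul_assoc, e, mul_assoc, mul_assoc]
    exact form_x hk hij hi hj (form1_row hk h hj (form1_col hk hi hik ⟨a, ha, q, hq, rfl⟩))

theorem form_col (hI : 3 ≤ Fintype.card I) (hk : k ∉ J) {i : I} (hi : i ∈ J) (hik : i ≠ k)
    {g : St I F} (hg : Form J k g) : Form J k (x i k hik 1 * g) :=
  hg.elim (fun h => Or.inl (form1_col hk hi hik h)) (form2_col hI hk hi hik)

theorem form_of_mem (hI : 3 ≤ Fintype.card I) (hk : k ∉ J) {g : St I F}
    (hg : g ∈ K (insert k J)) : Form J k g := by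
  have step : ∀ s ∈ {g : St I F | ∃ i j h, i ∈ insert k J ∧ j ∈ insert k J ∧ g = x i j h 1},
      ∀ g, Form J k g → Form J k (s * g) := by
    rintro _ ⟨i, j, h, hi, hj, rfl⟩ g hg
    rcases Set.mem_insert_iff.mp hi with hi' | hi'
    · rcases Set.mem_insert_iff.mp hj with hj' | hj'
      · exact absurd (hi'.trans hj'.symm) h
      · subst hi'
        exact form_row hk h hj' hg
    · rcases Set.mem_insert_iff.mp hj with hj' | hj'
      · subst hj'
        exact form_col hI hk hi' h hg
      · exact form_x hk h hi' hj' hg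
  unfold K at hg
  induction hg using Subgroup.closure_induction_left with
  | one => exact Or.inl ⟨0, fun _ _ => rfl, 1, Subgroup.one_mem _, by simp⟩
  | mul_left s hs g _ ih => exact step s hs g ih
  | inv_mul_cancel s hs g _ ih =>
    have : s⁻¹ = s := by
      obtain ⟨i, j, h, _, _, rfl⟩ := hs
      exact x_inv h
    rw [this]
    exact step s hs g ih

/-- column `k` of elements of `Q` is `e_k` -/
theorem Q_col (hk : k ∉ J) {q : St I F} (hq : q ∈ Q J k) (i : I) :
    (toMat q).val i k = (1 : Matrix I I F) i k := by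
  unfold Q at hq
  have step : ∀ s ∈ {g : St I F | ∃ i j h, (i ∈ J ∨ i = k) ∧ j ∈ J ∧ g = x i j h 1},
      ∀ g, (∀ i, (toMat g).val i k = (1 : Matrix I I F) i k) →
        (∀ i, (toMat (s * g)).val i k = (1 : Matrix I I F) i k) := by
    rintro _ ⟨l, j, h, _, hj, rfl⟩ g hg i
    have hjk : j ≠ k := fun e => hk (e ▸ hj)
    have h1 := hg i
    have h2 := hg j
    rw [toMat_x_mul, h1, h2, Matrix.one_apply_ne hjk, mul_zero, ite_self, add_zero]
  induction hq using Subgroup.closure_induction_left generalizing i with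
  | one => rw [map_one, Units.val_one]
  | mul_left s hs g _ ih => exact step s hs g ih i
  | inv_mul_cancel s hs g _ ih =>
    have : s⁻¹ = s := by
      obtain ⟨i, j, h, _, _, rfl⟩ := hs
      exact x_inv h
    rw [this]
    exact step s hs g ih i

/-- row `k` of elements of `K J` is `e_k` -/
theorem K_row (hk : k ∉ J) {q : St I F} (hq : q ∈ K J) (j : I) :
    (toMat q).val k j = (1 : Matrix I I F) k j := by
  unfold K at hq
  have step : ∀ s ∈ {g : St I F | ∃ i j h, i ∈ J ∧ j ∈ J ∧ g = x i j h 1},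
      ∀ g, (∀ j, (toMat g).val k j = (1 : Matrix I I F) k j) →
        (∀ j, (toMat (s * g)).val k j = (1 : Matrix I I F) k j) := by
    rintro _ ⟨i, l, h, hi, hl, rfl⟩ g hg j
    rw [toMat_x_mul, hg, if_neg (by rintro rfl; exact hk hi), add_zero]
  induction hq using Subgroup.closure_induction_left generalizing j with
  | one => rw [map_one, Units.val_one]
  | mul_left s hs g _ ih => exact step s hs g ih j
  | inv_mul_cancel s hs g _ ih =>
    have : s⁻¹ = s := by
      obtain ⟨i, j, h, _, _, rfl⟩ := hs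
      exact x_inv h
    rw [this]
    exact step s hs g ih j

/-- `Q = Row ⋊ K` -/
theorem Q_decomp (hk : k ∉ J) {q : St I F} (hq : q ∈ Q J k) :
    ∃ b : I → F, Supp J b ∧ ∃ κ ∈ K J, q = row k b * κ := by
  have step : ∀ s ∈ {g : St I F | ∃ i j h, (i ∈ J ∨ i = k) ∧ j ∈ J ∧ g = x i j h 1},
      ∀ g, (∃ b : I → F, Supp J b ∧ ∃ κ ∈ K J, g = row k b * κ) →
        (∃ b : I → F, Supp J b ∧ ∃ κ ∈ K J, s * g = row k b * κ) := by
    rintro _ ⟨i, j, h, hi, hj, rfl⟩ g ⟨b, hb, κ, hκ, rfl⟩
    have hjk : j ≠ k := by rintro rfl; exact hk hj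
    rcases hi with hi | rfl
    · have hik : i ≠ k := by rintro rfl; exact hk hi
      refine ⟨b - Pi.single j (b i * 1), ?_, x i j h 1 * κ, Subgroup.mul_mem _ (x_mem_K h hi hj) hκ,
        ?_⟩
      · intro l hl
        rw [Pi.sub_apply, hb l hl, Supp.single hj _ l hl, sub_zero]
      · rw [← mul_assoc, x_mul_row k i j h hik hjk, mul_assoc]
    · refine ⟨Pi.single j 1 + b, (Supp.single hj 1).add hb, κ, hκ, ?_⟩
      rw [row_add, row_single _ j h, mul_assoc]
  unfold Q at hq
  induction hq using Subgroup.closure_induction_left with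
  | one => exact ⟨0, fun _ _ => rfl, 1, Subgroup.one_mem _, by simp⟩
  | mul_left s hs g _ ih => exact step s hs g ih
  | inv_mul_cancel s hs g _ ih =>
    have : s⁻¹ = s := by
      obtain ⟨i, j, h, _, _, rfl⟩ := hs
      exact x_inv h
    rw [this]
    exact step s hs g ih

theorem col_entry {R : Type*} [Ring R] (a : I → R) (g : St I R)
    (hg : ∀ i, (toMat g).val i k = (1 : Matrix I I R) i k) (i : I) :
    (toMat (col k a * g)).val i k = if i = k then 1 else a i := by
  rw [map_mul, Units.val_mul, Matrix.mul_apply, Finset.sum_eq_single k]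
  · rw [hg, Matrix.one_apply_eq, mul_one, toMat_col, Matrix.add_apply, Matrix.of_apply]
    by_cases hi : i = k
    · subst hi; simp
    · simp [hi]
  · intro l _ hl
    rw [hg, Matrix.one_apply_ne hl, mul_zero]
  · intro h; exact absurd (Finset.mem_univ _) h

theorem inj_step (hI : 3 ≤ Fintype.card I) (hk : k ∉ J)
    (ih : ∀ g ∈ K J, toMat g = 1 → g = 1) :
    ∀ g ∈ K (insert k J), toMat g = 1 → g = 1 := by
  intro g hg h1
  have hcolg : ∀ i, (toMat g).val i k = (1 : Matrix I I F) i k := fun i => by rw [h1]; rfl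
  rcases form_of_mem hI hk hg with ⟨a, ha, q, hq, rfl⟩ | ⟨a, ha, j, h, hj, haj, q, hq, rfl⟩
  · have ha0 : col k a = 1 := by
      rw [← col_zero k]
      apply col_congr
      intro i hi
      have := hcolg i
      rw [col_entry a q (Q_col hk hq), if_neg hi, Matrix.one_apply_ne hi] at this
      rw [this]; rfl
    rw [ha0, one_mul] at h1 ⊢
    obtain ⟨b, hb, κ, hκ, rfl⟩ := Q_decomp hk hq
    have hb0 : row k b = 1 := by
      rw [← row_zero k]
      apply row_congr
      intro j hj
      have h2 : (toMat (row k b * κ)).val k j = (1 : Matrix I I F) k j := by rw [h1]; rfl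
      rw [map_mul] at h1
      have h3 : toMat κ = (toMat (row k b))⁻¹ := by
        rw [eq_inv_iff_mul_eq_one]
        exact mul_eq_one_comm.mp h1
      rw [← map_inv, ← row_neg] at h3
      have h4 := K_row hk hκ j
      rw [h3, toMat_row, Matrix.add_apply, Matrix.of_apply] at h4
      have h5 := add_eq_left.mp h4
      rw [if_pos ⟨rfl, hj⟩, Pi.neg_apply, neg_eq_zero] at h5
      rw [h5]; rfl
    rw [hb0, one_mul] at h1 ⊢
    exact ih κ hκ h1
  · exfalso
    have := hcolg k
    rw [toMat_x_mul, col_entry a q (Q_col hk hq), col_entry a q (Q_col hk hq), if_pos rfl,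
      if_pos rfl, if_neg h.symm, haj, Matrix.one_apply_eq] at this
    exact absurd this (by decide)

theorem K_univ : K (Set.univ : Set I) = ⊤ := by
  rw [eq_top_iff, ← closure_x]
  apply (Subgroup.closure_le _).mpr
  rintro _ ⟨i, j, h, r, rfl⟩
  rcases F_cases r with rfl | rfl
  · rw [x_zero]; exact Subgroup.one_mem _
  · exact x_mem_K h trivial trivial

theorem inj_K (hI : 3 ≤ Fintype.card I) (s : Finset I) :
    ∀ g ∈ K (s : Set I), toMat g = 1 → g = 1 := by
  induction s using Finset.induction_on with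
  | empty =>
    intro g hg _
    have : K ((∅ : Finset I) : Set I) = ⊥ := by
      rw [eq_bot_iff]
      apply (Subgroup.closure_le _).mpr
      rintro _ ⟨i, _, _, hi, _⟩
      simp at hi
    rw [this] at hg
    exact Subgroup.mem_bot.mp hg
  | insert k s hk ih =>
    rw [Finset.coe_insert]
    exact inj_step hI (by simpa using hk) ih

/-- `K_2(n, F_2) = 1`. -/
theorem toMat_injective (hI : 3 ≤ Fintype.card I) :
    Function.Injective (toMat : St I (ZMod 2) →* (Matrix I I (ZMod 2))ˣ) := by
  rw [injective_iff_map_eq_one]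
  intro g hg
  apply inj_K hI Finset.univ g _ hg
  rw [Finset.coe_univ, K_univ]
  trivial

/-- the same for any ring isomorphic to `ZMod 2` -/
theorem toMat_injective' {R : Type*} [Ring R] (e : R ≃+* ZMod 2) (hI : 3 ≤ Fintype.card I) :
    Function.Injective (toMat : St I R →* (Matrix I I R)ˣ) := by
  rw [injective_iff_map_eq_one]
  intro g hg
  have key : ∀ g : St I R, toMat (St.map e.toRingHom g) =
      Units.map ((e.toRingHom.mapMatrix : Matrix I I R →+* Matrix I I (ZMod 2)) :
        Matrix I I R →* Matrix I I (ZMod 2)) (toMat g) := by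
    intro g
    have : (toMat.comp (St.map (I := I) e.toRingHom) : St I R →* _) =
        (Units.map ((e.toRingHom.mapMatrix : Matrix I I R →+* Matrix I I (ZMod 2)) :
          Matrix I I R →* Matrix I I (ZMod 2))).comp toMat := by
      apply hom_ext
      intro i j hij r
      rw [MonoidHom.comp_apply, MonoidHom.comp_apply, map_x, toMat_x, toMat_x]
      apply Units.ext
      simp [RingHom.mapMatrix_apply, Matrix.map_add, Matrix.map_single]
    exact DFunLike.congr_fun this g
  have h1 : St.map e.toRingHom g = 1 := by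
    apply toMat_injective hI
    rw [key, hg, map_one, map_one]
  have h2 : St.map e.symm.toRingHom (St.map e.toRingHom g) = g := by
    have : ((St.map (I := I) e.symm.toRingHom).comp (St.map e.toRingHom) : St I R →* St I R) =
        MonoidHom.id _ := by
      apply hom_ext
      intro i j hij r
      simp
    exact DFunLike.congr_fun this g
  rw [← h2, h1, map_one]

end Crest.Agent.R176.K2F2
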