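import Crest.Agent.R176.Cover294Two
import Crest.Agent.R176.K2F2
import Crest.Agent.R176.QAlg206B

/-! Row 176, part B (helper294): injectivity of all index embeddings from one-step stability,
and 2-power torsion of `ker (St I R → GL)` for `R = QA step (ZMod 2)`. -/

set_option autoImplicit false

namespace Crest.Agent.R176.Cover294

open St

section Inj

/-- one-step stability for all finite index types of cardinality `≥ c` -/
def StabFor (c : ℕ) (R : Type*) [Ring R] : Prop :=
  ∀ (K : Type) [Fintype K], c ≤ Fintype.card K →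
    Function.Injective (mapI (R := R) (Function.Embedding.some : K ↪ Option K))

theorem mapI_equiv_injective {R : Type*} [Ring R] {I J : Type*} (e : I ↪ J)
    (he : Function.Surjective e) : Function.Injective (mapI (R := R) e) := by
  let E : I ≃ J := Equiv.ofBijective e ⟨e.injective, he⟩
  have h1 : ∀ g : St I R, mapI E.symm.toEmbedding (mapI e g) = g := by
    intro g
    rw [Cen370.mapI_comp_apply]
    have : e.trans E.symm.toEmbedding = Function.Embedding.refl I := by
      ext i
      exact E.symm_apply_apply i
    rw [this, Cen370.mapI_refl]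
  exact Function.LeftInverse.injective h1

theorem mapI_injective {R : Type*} [Ring R] {c : ℕ} (hstab : StabFor c R) {I J : Type}
    [Fintype I] [Fintype J] (hI : c ≤ Fintype.card I) (e : I ↪ J) :
    Function.Injective (mapI (R := R) e) := by
  obtain ⟨n, hn⟩ : ∃ n, n = Fintype.card J - Fintype.card I := ⟨_, rfl⟩
  induction n generalizing I with
  | zero =>
    apply mapI_equiv_injective e
    have h1 : Fintype.card I = Fintype.card J :=
      le_antisymm (Fintype.card_le_of_embedding e) (by omega)
    exact ((Fintype.bijective_iff_injective_and_card e).mpr ⟨e.injective, h1⟩).2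
  | succ n ih =>
    have h1 : ¬ Function.Surjective e := by
      intro hs
      have := Fintype.card_le_of_surjective e hs
      omega
    rw [Function.Surjective] at h1
    push Not at h1
    obtain ⟨z, hz⟩ := h1
    have hz' : z ∉ Set.range e := by
      rintro ⟨i, hi⟩
      exact hz i hi
    have h2 : e = (Function.Embedding.some : I ↪ Option I).trans
        (Function.Embedding.optionElim e z hz') := by
      ext i
      rfl
    have h3 := ih (I := Option I) (by rw [Fintype.card_option]; omega)
      (Function.Embedding.optionElim e z hz') (by rw [Fintype.card_option]; omega)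
    intro g h hgh
    rw [h2, ← Cen370.mapI_comp_apply, ← Cen370.mapI_comp_apply] at hgh
    exact hstab I hI (h3 hgh)

end Inj

section QA

open QAlg206

variable {L : Type*} (step : L → L → Option (L × L)) {I : Type*} [Fintype I] [DecidableEq I]

/-- kernel elements have trivial degree-zero part (`K₂(F_2) = 0`) -/
theorem map_projZero_eq_one (hI : 3 ≤ Fintype.card I) (k : St I (QA step (ZMod 2)))
    (hk : toMat k = 1) : map (GradedRing.projZeroRingHom (gr step (ZMod 2))) k = 1 := by
  have h1 : map (I := I) (aug step (ZMod 2)).toRingHom k = 1 := by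
    apply K2F2.toMat_injective hI
    rw [map_one]
    exact toMat_map_eq_one _ k hk
  have h2 : GradedRing.projZeroRingHom (gr step (ZMod 2))
      = (algebraMap (ZMod 2) (QA step (ZMod 2))).comp (aug step (ZMod 2)).toRingHom := by
    ext1 r
    rw [RingHom.comp_apply]
    exact proj_zero_eq step (ZMod 2) r
  have h3 : map (I := I) ((algebraMap (ZMod 2) (QA step (ZMod 2))).comp
      (aug step (ZMod 2)).toRingHom)
      = (map (algebraMap (ZMod 2) (QA step (ZMod 2)))).comp
        (map (aug step (ZMod 2)).toRingHom) := by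
    apply hom_ext
    intro i j h r
    simp
  rw [h2, h3, MonoidHom.comp_apply, h1, map_one]

/-- **htors** of the final assembly. -/
theorem htors_QA (hI : 3 ≤ Fintype.card I)
    (hinj : ∀ a : ℕ, ∀ p : Fin (2 ^ a),
      Function.Injective (mapI (R := QA step (ZMod 2)) (eN I p)))
    (k : St I (QA step (ZMod 2))) (hk : toMat k = 1) : ∃ a : ℕ, k ^ (2 ^ a) = 1 := by
  have : Nonempty I := Fintype.card_pos_iff.mp (by omega)
  exact two_power_torsion_of_inj (gr step (ZMod 2)) k hk (map_projZero_eq_one step hI k hk) hinj

end QA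

section Odd

variable {R : Type*} [Ring R] [Algebra (ZMod 2) R] (𝒜 : ℕ → Submodule (ZMod 2) R)
  [GradedAlgebra 𝒜] {I : Type*} [Fintype I] [DecidableEq I]

/-- **Odd-period trick.** If the cyclic cover of some odd large order acts on `g` like the scalar
cover, then `g = 1`. -/
theorem eq_one_of_odd [Nonempty I] (g : St I R) (hg : toMat g = 1)
    (h0 : map (GradedRing.projZeroRingHom 𝒜) g = 1)
    (hinj : ∀ n : ℕ, ∀ p : Fin n, Function.Injective (mapI (R := R) (eN I p)))
    (hexc : ∀ N₀ : ℕ, ∃ (n : ℕ) (_ : NeZero n), N₀ ≤ n ∧ Odd n ∧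
      Blk I (Fin n) R (map (twist 𝒜 (cycFam n)) g)
        = Blk I (Fin n) R (map (Matrix.scalar (Fin n)) g)) : g = 1 := by
  obtain ⟨D, hD⟩ := exists_HW 𝒜 g
  obtain ⟨n, hn0, hn, hodd, he⟩ := hexc (2 * D + 3)
  have hpos : 0 < n := by omega
  have h1 := Blk_cyc_eq_one 𝒜 g hg h0 hD n (by omega)
  rw [he, Blk_scalar_eq_pow g hg n (by omega) ⟨0, hpos⟩, ← map_pow] at h1
  have h2 : g ^ n = 1 := hinj _ _ (h1.trans (map_one _).symm)
  obtain ⟨a, ha⟩ := two_power_torsion_of_inj 𝒜 g hg h0 (fun a p => hinj _ p)
  have h3 : orderOf g ∣ n := orderOf_dvd_of_pow_eq_one h2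
  have h4 : orderOf g ∣ 2 ^ a := orderOf_dvd_of_pow_eq_one ha
  have h5 : Nat.Coprime n (2 ^ a) := Nat.Coprime.pow_right a (Nat.coprime_two_right.mpr hodd)
  have h6 : orderOf g = 1 := Nat.eq_one_of_dvd_coprimes h5 h3 h4
  exact orderOf_eq_one_iff.mp h6

end Odd

section QA'

open QAlg206

variable {L : Type*} (step : L → L → Option (L × L)) {I : Type} [Fintype I] [DecidableEq I]

theorem htors_QA' {c : ℕ} (hstab : StabFor c (QA step (ZMod 2))) (hI : 3 ≤ Fintype.card I)
    (hIc : c ≤ Fintype.card I) (k : St I (QA step (ZMod 2))) (hk : toMat k = 1) :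
    ∃ a : ℕ, k ^ (2 ^ a) = 1 :=
  htors_QA step hI (fun _ _ => mapI_injective hstab hIc _) k hk

end QA'

end Crest.Agent.R176.Cover294
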