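import Crest.Agent.R176.Exc275E
import Crest.Agent.R176.Tors294

/-! Row 176, part B (helper275, second track for X5): phantoms are trivial. -/

set_option autoImplicit false

namespace Crest.Agent.R176.Exc275

open St Cover294 Fpt396 QAlg206
open scoped commutatorElement

section

variable {I J N R : Type} [Ring R] [Fintype N] [DecidableEq N]

/-- `e × id` -/
def eProd (e : I ↪ J) (N : Type) : I × N ↪ J × N :=
  ⟨fun p => (e p.1, p.2), fun p q h => by
    have h' : (e p.1, p.2) = (e q.1, q.2) := h
    have h1 : e p.1 = e q.1 := congrArg Prod.fst h'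
    have h2 : p.2 = q.2 := by rw [Prod.mk.injEq] at h'; exact h'.2
    exact Prod.ext (e.injective h1) h2⟩

theorem mapI_blk (e : I ↪ J) (i j : I) (h : i ≠ j) (A : Matrix N N R) :
    mapI (eProd e N) (blk i j h A) = blk (e i) (e j) (e.injective.ne h) A := by
  induction A using blk_induction with
  | h0 => rw [blk_zero, blk_zero, map_one]
  | hadd A B ih ih' => rw [blk_add, blk_add, map_mul, ih, ih']
  | hs p q r => rw [blk_single, blk_single, mapI_x]; rfl

theorem Blk_mapI (e : I ↪ J) (g : St I (Matrix N N R)) :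
    Blk J N R (mapI e g) = mapI (eProd e N) (Blk I N R g) := by
  have : (Blk J N R).comp (mapI e) = (mapI (eProd e N)).comp (Blk I N R) := by
    apply hom_ext
    intro i j h A
    rw [MonoidHom.comp_apply, MonoidHom.comp_apply, mapI_x, Blk_x, Blk_x, mapI_blk]
  exact DFunLike.congr_fun this g

end

variable {L : Type} {step : L → L → Option (L × L)}

/-- **No phantoms.** -/
theorem no_phantom {I : Type} [Fintype I] [DecidableEq I] {c : ℕ}
    (hstab : StabFor c (QQ step)) (hI : 4 ≤ Fintype.card I) (hIc : c ≤ Fintype.card I)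
    (hph : Ph396.PhaseAll step) (g : St I (QQ step)) (hg : toMat g = 1)
    (hgE : ∀ m, g ∈ Tits370.E I (J step m)) : g = 1 := by
  classical
  have hne : Nonempty I := Fintype.card_pos_iff.mp (by omega)
  have h4 : ∀ a b c : I, ∃ d, d ≠ a ∧ d ≠ b ∧ d ≠ c := by
    intro a b c
    by_contra hcon
    push Not at hcon
    have h1 : (Finset.univ : Finset I) ⊆ {a, b, c} := by
      intro d _
      rw [Finset.mem_insert, Finset.mem_insert, Finset.mem_singleton]
      by_cases h1 : d = a
      · exact Or.inl h1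
      · by_cases h2 : d = b
        · exact Or.inr (Or.inl h2)
        · exact Or.inr (Or.inr (hcon d h1 h2))
    have h2 := Finset.card_le_card h1
    have h3 := Finset.card_le_three (a := a) (b := b) (c := c)
    rw [Finset.card_univ] at h2
    omega
  refine eq_one_of_odd (gr step (ZMod 2)) g hg (map_projZero_eq_one step (by omega) g hg)
    (fun n p => mapI_injective hstab hIc _) ?_
  intro N₀
  obtain ⟨l, M, hl, hodd, ⟨p⟩⟩ := hph N₀
  have hl0 : NeZero l := ⟨by rintro rfl; exact absurd hodd (by decide)⟩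
  refine ⟨l, hl0, hl, hodd, ?_⟩
  obtain ⟨m, hm⟩ := exc (I := I) p h4
  have h1 := hm g hg (hgE m)
  have h2 := congrArg (Blk (I × Fin 2) (Fin l) (QQ step)) h1
  rw [Blk_mapI, Blk_mapI] at h2
  have h3 : toMat (Blk I (Fin l) (QQ step) (map (Matrix.scalar (Fin l)) g)) = 1 :=
    toMat_Blk_eq_one _ (toMat_map_eq_one _ g hg)
  obtain ⟨i0⟩ := hne
  have hpos : 0 < l := Nat.pos_of_ne_zero hl0.out
  have h5 : mapI (R := QQ step) (eProd (eN I (1 : Fin 2)) (Fin l))
      (Blk I (Fin l) (QQ step) (map (Matrix.scalar (Fin l)) g)) =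
      mapI (eProd (eN I (0 : Fin 2)) (Fin l))
      (Blk I (Fin l) (QQ step) (map (Matrix.scalar (Fin l)) g)) := by
    apply Cen370.mapI_ker_eq (two_eq_zero (QQ step)) _ _ _ _ h3
    · intro a b
      obtain ⟨d, hd1, hd2, -⟩ := h4 a.1.1 b.1.1 b.1.1
      exact ⟨((d, 0), ⟨0, hpos⟩), fun h => hd1 (congrArg (fun z => z.1.1) h),
        fun h => hd2 (congrArg (fun z => z.1.1) h)⟩
    · refine ⟨((i0, 0), ⟨0, hpos⟩), fun i h => ?_⟩
      have := congrArg (fun z => z.1.2) h
      exact absurd this (by simp [eProd, eN])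
  rw [h5] at h2
  refine mapI_injective hstab ?_ _ h2
  rw [Fintype.card_prod, Fintype.card_fin]
  calc c ≤ Fintype.card I := hIc
    _ = Fintype.card I * 1 := (mul_one _).symm
    _ ≤ Fintype.card I * l := Nat.mul_le_mul_left _ hpos

/-- the hypothesis `hX5` of `Final313.s0265_of_noPhantom` -/
theorem hX5 (hph : Ph396.PhaseAll step) (hstab : Cover294.StabFor 9 (QA step (ZMod 2)))
    (g : St (Fin 9) (QA step (ZMod 2))) (hg : toMat g = 1)
    (hgE : ∀ m, g ∈ Tits370.E (Fin 9) (Fpt396.J step m)) : g = 1 :=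
  no_phantom hstab (by simp) (by simp) hph g hg hgE

end Crest.Agent.R176.Exc275
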