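import Crest.Agent.R176.Exc275D
import Crest.Agent.R176.Exc275AC
import Crest.Agent.R176.Mult396

/-! R176, part B: **EXC** for the machine algebra from the phase functions (helper396). -/

set_option autoImplicit false

namespace Crest.Agent.R176.Exc396

open QAlg206 Fpt396 Ph396 Mult396 St Cover294 Exc275

variable {L : Type} {step : L → L → Option (L × L)} {l M : ℕ}

theorem mult_TL_TR [NeZero l] (p : WPhase step l M) {m : ℕ} (hm : M ≤ m) :
    Mult (MJ (Fin l) step m) (TL p (finZ l)) (TR p (finZ l)) where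
  mul_mem a ha b hb := MJ_anti (Nat.le_add_right m m) (mul_mem_MJ ha hb)
  L_mem _ ha := TL_mem p (finZ l) ha
  R_mem _ ha := TR_mem p (finZ l) ha
  L_mul _ ha b _ := TL_mul p (finZ l) (MJ_anti hm ha) b
  R_mul a _ _ hb := TR_mul p (finZ l) a (MJ_anti hm hb)
  RL _ ha _ hb := TR_mul_TL p (finZ l) (MJ_anti hm ha) (MJ_anti hm hb)
  LR a _ := TL_TR p (finZ l) a

/-- **EXC** for one phase function. -/
theorem exc [NeZero l] (p : WPhase step l M) {I : Type} [Fintype I] [DecidableEq I]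
    (h4 : ∀ a b c : I, ∃ d, d ≠ a ∧ d ≠ b ∧ d ≠ c) :
    ∃ m : ℕ, ∀ g : St I (QQ step), toMat g = 1 → g ∈ Tits370.E I (J step m) →
      mapI (eN I (0 : Fin 2)) (map (twist (gr step (ZMod 2)) (cycFam l)) g) =
        mapI (eN I (1 : Fin 2)) (map (Matrix.scalar (Fin l)) g) := by
  refine ⟨8 * (M + 1), fun g hg1 hg => ?_⟩
  exact exc_general (stepAC _ _) h4 (twist (gr step (ZMod 2)) (cycFam l))
    (fun m r hr => twist_mem_MJ hr) (m := M + 1) (by omega) (mult_TL_TR p (by omega))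
    (fun r hr => theta_twist p (J_anti (by omega) hr)) g hg1 hg

/-- **EXC** for arbitrarily large odd periods. -/
theorem excAll (hp : PhaseAll step) {I : Type} [Fintype I] [DecidableEq I]
    (h4 : ∀ a b c : I, ∃ d, d ≠ a ∧ d ≠ b ∧ d ≠ c) (N : ℕ) :
    ∃ (l : ℕ) (_ : NeZero l), N ≤ l ∧ Odd l ∧
      ∃ m : ℕ, ∀ g : St I (QQ step), toMat g = 1 → g ∈ Tits370.E I (J step m) →
        mapI (eN I (0 : Fin 2)) (map (twist (gr step (ZMod 2)) (cycFam l)) g) =
          mapI (eN I (1 : Fin 2)) (map (Matrix.scalar (Fin l)) g) := by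
  obtain ⟨l, M, hl, hodd, ⟨p⟩⟩ := hp N
  have : NeZero l := ⟨by rintro rfl; exact absurd hodd (by decide)⟩
  exact ⟨l, this, hl, hodd, exc p h4⟩

end Crest.Agent.R176.Exc396
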