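import Mathlib

/-! Row 176, part B, block FP2 (Krstic-McCool for `|I| ≥ 5`), file 1: the inductive step.
Pure group theory: from finitely many relations on `g i j u`, `u ∈ {1} ∪ Y`, all Steinberg
relations for all monomials follow. -/

set_option autoImplicit false

namespace Crest.Agent.R176.FP

open scoped commutatorElement

section Key

variable {G : Type*} [Group G]

/-- `[A,[B,C]] = [[A,B],C]` when `A` commutes with `C`, `[A,B]` commutes with `[B,C]` and
`[B,C]` commutes with `C`. -/
theorem key {A B C : G} (hAC : Commute A C) (hED : Commute ⁅A, B⁆ ⁅B, C⁆)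
    (hDC : Commute ⁅B, C⁆ C) : ⁅A, ⁅B, C⁆⁆ = ⁅⁅A, B⁆, C⁆ := by
  have h1 : A * B = ⁅A, B⁆ * B * A := by
    simp [commutatorElement_def]
  have h2 : B * C = ⁅B, C⁆ * C * B := by
    simp [commutatorElement_def]
  have h3 : A * ⁅B, C⁆ = ⁅A, ⁅B, C⁆⁆ * ⁅B, C⁆ * A := by
    rw [commutatorElement_def A ⁅B, C⁆]; group
  set E := ⁅A, B⁆ with hE
  set D := ⁅B, C⁆ with hD
  set F := ⁅A, D⁆ with hF
  -- A * (B * C) computed in two ways
  have e1 : A * (B * C) = E * D * C * B * A := by
    calc A * (B * C) = (A * B) * C := by group
      _ = E * B * A * C := by rw [h1]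
      _ = E * B * (A * C) := by group
      _ = E * B * (C * A) := by rw [hAC.eq]
      _ = E * (B * C) * A := by group
      _ = E * (D * C * B) * A := by rw [h2]
      _ = _ := by group
  have e2 : A * (B * C) = F * D * C * E * B * A := by
    calc A * (B * C) = A * (D * C * B) := by rw [h2]
      _ = (A * D) * C * B := by group
      _ = (F * D * A) * C * B := by rw [h3]
      _ = F * D * (A * C) * B := by group
      _ = F * D * (C * A) * B := by rw [hAC.eq]
      _ = F * D * C * (A * B) := by group
      _ = F * D * C * (E * B * A) := by rw [h1]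
      _ = _ := by group
  have e3 : E * D * C = F * D * C * E := by
    have := e1.symm.trans e2
    exact mul_right_cancel (mul_right_cancel this)
  -- E * C = F * C * E
  have e4 : E * C = F * C * E := by
    have h4 : D * (E * C) = F * (C * E) * D := by
      calc D * (E * C) = (D * E) * C := by group
        _ = (E * D) * C := by rw [hED.eq]
        _ = F * D * C * E := e3
        _ = F * (D * C) * E := by group
        _ = F * (C * D) * E := by rw [hDC.eq]
        _ = F * C * (D * E) := by group
        _ = F * C * (E * D) := by rw [hED.eq]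
        _ = _ := by group
    have h5 : D * (E * C) = (E * C) * D := by
      calc D * (E * C) = (D * E) * C := by group
        _ = (E * D) * C := by rw [hED.eq]
        _ = E * (D * C) := by group
        _ = E * (C * D) := by rw [hDC.eq]
        _ = _ := by group
    have := h5.symm.trans h4
    have := mul_right_cancel this
    rw [this]; group
  rw [commutatorElement_def E C, eq_mul_inv_iff_mul_eq, eq_mul_inv_iff_mul_eq]
  exact e4.symm

theorem comm_of_comm {A B C : G} (h1 : Commute A C) (h2 : Commute B C) : Commute ⁅A, B⁆ C := by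
  rw [commutatorElement_def]
  exact ((h1.mul_left h2).mul_left h1.inv_left).mul_left h2.inv_left

theorem sq_comm {A B : G} (hA : A * A = 1) (h : Commute A ⁅A, B⁆) : ⁅A, B⁆ * ⁅A, B⁆ = 1 := by
  have h1 : A⁻¹ = A := inv_eq_of_mul_eq_one_right hA
  have h2 : ⁅A, B⁆ * ⁅A, B⁆ = A * ⁅A, B⁆ * A⁻¹ * ⁅A, B⁆ := by
    rw [h.eq]; group
  rw [h2, commutatorElement_def, h1]
  have e1 : A * (A * B * A * B⁻¹) * A * (A * B * A * B⁻¹) =
      (A * A) * (B * A * B⁻¹) * (A * A) * (B * A * B⁻¹) := by simp only [mul_assoc]
  have e2 : (B * A * B⁻¹) * (B * A * B⁻¹) = B * (A * A) * B⁻¹ := by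
    simp only [mul_assoc, inv_mul_cancel_left]
  rw [e1, hA, one_mul, mul_one, e2, hA, mul_one, mul_inv_cancel]

end Key

section Mono

variable {G : Type*} [Group G] {I Y : Type*}

/-- the finitely many relations on the generators `g i j u`, `u ∈ {1} ∪ Y` -/
structure Base (g : I → I → Option Y → G) : Prop where
  comm : ∀ i j k l, i ≠ j → k ≠ l → j ≠ k → i ≠ l → ∀ u v, Commute (g i j u) (g k l v)
  left : ∀ i j k, i ≠ j → j ≠ k → i ≠ k → ∀ u, ⁅g i j none, g j k u⁆ = g i k u
  right : ∀ i j k, i ≠ j → j ≠ k → i ≠ k → ∀ u, ⁅g i j u, g j k none⁆ = g i k u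
  sq : ∀ i j, i ≠ j → ∀ u, g i j u * g i j u = 1

/-- there are enough indices -/
def Enough (I : Type*) : Prop := ∀ i j k l : I, ∃ p : I, p ≠ i ∧ p ≠ j ∧ p ≠ k ∧ p ≠ l

/-- an index different from `i` and `j` -/
noncomputable def pick (hI : Enough I) (i j : I) : I := (hI i j i j).choose

theorem pick_left (hI : Enough I) (i j : I) : pick hI i j ≠ i := (hI i j i j).choose_spec.1
theorem pick_right (hI : Enough I) (i j : I) : pick hI i j ≠ j := (hI i j i j).choose_spec.2.1

/-- the element attached to a monomial -/
noncomputable def X (hI : Enough I) (g : I → I → Option Y → G) : I → I → List Y → G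
  | i, j, [] => g i j none
  | i, j, [y] => g i j (some y)
  | i, j, y :: y' :: w => ⁅g i (pick hI i j) (some y), X hI g (pick hI i j) j (y' :: w)⁆

variable (hI : Enough I) (g : I → I → Option Y → G)

@[simp] theorem X_nil (i j : I) : X hI g i j [] = g i j none := by rw [X]
@[simp] theorem X_single (i j : I) (y : Y) : X hI g i j [y] = g i j (some y) := by rw [X]
theorem X_cons (i j : I) (y : Y) (w : List Y) (hw : w ≠ []) :
    X hI g i j (y :: w) = ⁅X hI g i (pick hI i j) [y], X hI g (pick hI i j) j w⁆ := by
  cases w with
  | nil => exact absurd rfl hw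
  | cons y' w => rw [X, X]

/-- the induction statement -/
structure Q (N : ℕ) : Prop where
  comm : ∀ a b : List Y, a.length ≤ N → b.length ≤ N → ∀ i j k l, i ≠ j → k ≠ l → j ≠ k →
    i ≠ l → Commute (X hI g i j a) (X hI g k l b)
  mul : ∀ a b : List Y, (a ++ b).length ≤ N → ∀ i j k, i ≠ j → j ≠ k → i ≠ k →
    ⁅X hI g i j a, X hI g j k b⁆ = X hI g i k (a ++ b)

variable {hI g}

theorem Q_one (hg : Base g) : Q hI g 1 := by
  have lem : ∀ a : List Y, a.length ≤ 1 → ∃ u : Option Y, ∀ i j, X hI g i j a = g i j u := by
    intro a ha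
    match a, ha with
    | [], _ => exact ⟨none, fun i j => X_nil hI g i j⟩
    | [y], _ => exact ⟨some y, fun i j => X_single hI g i j y⟩
  constructor
  · intro a b ha hb i j k l hij hkl hjk hil
    obtain ⟨u, hu⟩ := lem a ha
    obtain ⟨v, hv⟩ := lem b hb
    rw [hu, hv]
    exact hg.comm i j k l hij hkl hjk hil u v
  · intro a b hab i j k hij hjk hik
    match a, hab with
    | [], hab =>
      obtain ⟨u, hu⟩ := lem b (by simpa using hab)
      rw [X_nil, hu, List.nil_append, hu]
      exact hg.left i j k hij hjk hik u
    | [y], hab =>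
      have : b = [] := by
        apply List.eq_nil_of_length_eq_zero
        simp only [List.cons_append, List.nil_append, List.length_cons] at hab
        omega
      subst this
      rw [X_nil, X_single, List.append_nil, X_single]
      exact hg.right i j k hij hjk hik _

/-- shift lemma -/
theorem Q.shift {N : ℕ} (h : Q hI g N) (a y b : List Y) (h1 : (a ++ y).length ≤ N)
    (h2 : (y ++ b).length ≤ N) (i j p k : I) (hij : i ≠ j) (hjk : j ≠ k) (hik : i ≠ k)
    (hip : i ≠ p) (hpk : p ≠ k) (hpj : p ≠ j) :
    ⁅X hI g i j (a ++ y), X hI g j k b⁆ = ⁅X hI g i p a, X hI g p k (y ++ b)⁆ := by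
  have la : a.length ≤ N := le_trans (by simp) h1
  have lb : b.length ≤ N := le_trans (by simp) h2
  have e1 := h.mul a y h1 i p j hip hpj hij
  have e2 := h.mul y b h2 p j k hpj hjk hpk
  rw [← e1, ← e2]
  symm
  apply key
  · exact h.comm a b la lb i p j k hip hjk hpj hik
  · rw [e1, e2]
    exact h.comm _ _ h1 h2 i j p k hij hpk hpj.symm hik
  · rw [e2]
    exact h.comm _ _ h2 lb p k j k hpk hjk hjk.symm hpk

/-- product relations for splittings into two nonempty parts -/
theorem Q.split {N : ℕ} (hN : 1 ≤ N) (h : Q hI g N) (a b : List Y) (ha : a ≠ []) (hb : b ≠ [])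
    (hab : (a ++ b).length = N + 1) (i j k : I) (hij : i ≠ j) (hjk : j ≠ k) (hik : i ≠ k) :
    ⁅X hI g i j a, X hI g j k b⁆ = X hI g i k (a ++ b) := by
  obtain ⟨y, a', rfl⟩ := List.exists_cons_of_ne_nil ha
  have hb' : 1 ≤ b.length := List.length_pos_iff.mpr hb
  simp only [List.cons_append, List.length_cons, List.length_append] at hab
  have hw : a' ++ b ≠ [] := by simp [hb]
  have main : ∀ q, q ≠ i → q ≠ k → q ≠ j →
      ⁅X hI g i j (y :: a'), X hI g j k b⁆ = ⁅X hI g i q [y], X hI g q k (a' ++ b)⁆ := by
    intro q hqi hqk hqj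
    exact h.shift [y] a' b (by simp; omega) (by simp; omega) i j q k hij hjk hik hqi.symm hqk hqj
  rw [List.cons_append, X_cons hI g i k y (a' ++ b) hw]
  by_cases hq : pick hI i k = j
  · obtain ⟨r, hri, hrj, hrk, -⟩ := hI i j k k
    rw [main r hri hrk hrj, hq]
    have := h.shift [y] [] (a' ++ b) (by simp; omega) (by simp; omega) i j r k hij hjk hik
      hri.symm hrk hrj
    rw [List.append_nil, List.nil_append] at this
    exact this.symm
  · exact main _ (pick_left hI i k) (pick_right hI i k) hq

theorem Q.step {N : ℕ} (hN : 1 ≤ N) (h : Q hI g N) : Q hI g (N + 1) := by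
  -- (B1): one of the two has length `N+1`
  have hB1 : ∀ a b : List Y, a.length = N + 1 → b.length ≤ N → ∀ i j k l, i ≠ j → k ≠ l →
      j ≠ k → i ≠ l → Commute (X hI g i j a) (X hI g k l b) := by
    intro a b ha hb i j k l hij hkl hjk hil
    obtain ⟨y, w, rfl⟩ : ∃ y w, a = y :: w := by
      cases a with
      | nil => simp at ha
      | cons y w => exact ⟨y, w, rfl⟩
    have hlw : w.length = N := by simpa using ha
    have hw : w ≠ [] := by
      intro h0; rw [h0] at hlw; simp at hlw; omega
    obtain ⟨p, hpi, hpj, hpk, hpl⟩ := hI i j k l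
    have e := h.split hN [y] w (by simp) hw (by simp [hlw]) i p j hpi.symm hpj hij
    rw [List.singleton_append] at e
    rw [← e]
    apply comm_of_comm
    · exact h.comm _ _ (by simpa using hN) hb i p k l hpi.symm hkl hpk hil
    · exact h.comm _ _ (by omega) hb p j k l hpj hkl hjk hpl
  have hB : ∀ a b : List Y, a.length ≤ N + 1 → b.length ≤ N + 1 → ∀ i j k l, i ≠ j → k ≠ l →
      j ≠ k → i ≠ l → Commute (X hI g i j a) (X hI g k l b) := by
    intro a b ha hb i j k l hij hkl hjk hil
    rcases Nat.lt_or_ge N b.length with hb' | hb'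
    · rcases Nat.lt_or_ge N a.length with ha' | ha'
      · have ha2 : a.length = N + 1 := by omega
        have hb2 : b.length = N + 1 := by omega
        obtain ⟨y, w, rfl⟩ : ∃ y w, a = y :: w := by
          cases a with
          | nil => simp at ha2
          | cons y w => exact ⟨y, w, rfl⟩
        have hlw : w.length = N := by simpa using ha2
        have hw : w ≠ [] := by
          intro h0; rw [h0] at hlw; simp at hlw; omega
        obtain ⟨p, hpi, hpj, hpk, hpl⟩ := hI i j k l
        have e := h.split hN [y] w (by simp) hw (by simp [hlw]) i p j hpi.symm hpj hij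
        rw [List.singleton_append] at e
        rw [← e]
        apply comm_of_comm
        · exact (hB1 b [y] hb2 (by simpa using hN) k l i p hkl hpi.symm hil.symm hpk.symm).symm
        · exact (hB1 b w hb2 (by omega) k l p j hkl hpj hpl.symm hjk.symm).symm
      · exact (hB1 b a (by omega) ha' k l i j hkl hij hil.symm hjk.symm).symm
    · rcases Nat.lt_or_ge N a.length with ha' | ha'
      · exact hB1 a b (by omega) hb' i j k l hij hkl hjk hil
      · exact h.comm a b ha' hb' i j k l hij hkl hjk hil
  refine ⟨hB, ?_⟩
  intro a b hab i j k hij hjk hik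
  rcases Nat.lt_or_ge N (a ++ b).length with hl | hl
  · have hl2 : (a ++ b).length = N + 1 := by omega
    by_cases ha : a = []
    · subst ha
      rw [List.nil_append] at hl2 ⊢
      obtain ⟨y, w, rfl⟩ : ∃ y w, b = y :: w := by
        cases b with
        | nil => simp at hl2
        | cons y w => exact ⟨y, w, rfl⟩
      have hlw : w.length = N := by simpa using hl2
      have hw : w ≠ [] := by
        intro h0; rw [h0] at hlw; simp at hlw; omega
      obtain ⟨p, hpi, hpj, hpk, -⟩ := hI i j k k
      have e := h.split hN [y] w (by simp) hw (by simp [hlw]) j p k hpj.symm hpk hjk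
      rw [List.singleton_append] at e
      have e' := h.split hN [y] w (by simp) hw (by simp [hlw]) i p k hpi.symm hpk hik
      rw [List.singleton_append] at e'
      have e3 := h.mul [] [y] (by simpa using hN) i j p hij hpj.symm hpi.symm
      rw [List.nil_append] at e3
      rw [← e, ← e', ← e3]
      apply key
      · exact h.comm _ _ (by simp) (by omega) i j p k hij hpk hpj.symm hik
      · rw [e3, e]
        exact hB _ _ (by simp) (by omega) i p j k hpi.symm hjk hpj hik
      · rw [e]
        exact hB _ _ (by omega) (by omega) j k p k hjk hpk hpk.symm hjk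
    · by_cases hb : b = []
      · subst hb
        rw [List.append_nil] at hl2 ⊢
        obtain ⟨y, w, rfl⟩ := List.exists_cons_of_ne_nil ha
        have hlw : w.length = N := by simpa using hl2
        have hw : w ≠ [] := by
          intro h0; rw [h0] at hlw; simp at hlw; omega
        obtain ⟨p, hpi, hpj, hpk, -⟩ := hI i j k k
        have e := h.split hN [y] w (by simp) hw (by simp [hlw]) i p j hpi.symm hpj hij
        rw [List.singleton_append] at e
        have e' := h.split hN [y] w (by simp) hw (by simp [hlw]) i p k hpi.symm hpk hik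
        rw [List.singleton_append] at e'
        have e3 := h.mul w [] (by simp [hlw]) p j k hpj hjk hpk
        rw [List.append_nil] at e3
        rw [← e, ← e', ← e3]
        symm
        apply key
        · exact h.comm _ _ (by simpa using hN) (by simp) i p j k hpi.symm hjk hpj hik
        · rw [e3, e]
          exact hB _ _ (by simp [hlw]) (by omega) i j p k hij hpk hpj.symm hik
        · rw [e3]
          exact h.comm _ _ (by omega) (by simp) p k j k hpk hjk hjk.symm hpk
      · exact h.split hN a b ha hb hl2 i j k hij hjk hik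
  · exact h.mul a b hl i j k hij hjk hik

theorem Q_all (hg : Base g) (N : ℕ) : Q hI g (N + 1) := by
  induction N with
  | zero => exact Q_one hg
  | succ N ih => exact ih.step (by omega)

/-- All commutation relations. -/
theorem X_commute (hg : Base g) (a b : List Y) (i j k l : I) (hij : i ≠ j) (hkl : k ≠ l)
    (hjk : j ≠ k) (hil : i ≠ l) : Commute (X hI g i j a) (X hI g k l b) :=
  (Q_all hg (a.length + b.length)).comm a b (by omega) (by omega) i j k l hij hkl hjk hil

/-- All product relations. -/
theorem X_mul (hg : Base g) (a b : List Y) (i j k : I) (hij : i ≠ j) (hjk : j ≠ k)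
    (hik : i ≠ k) : ⁅X hI g i j a, X hI g j k b⁆ = X hI g i k (a ++ b) :=
  (Q_all hg (a.length + b.length)).mul a b (by simp) i j k hij hjk hik

theorem X_sq (hg : Base g) (w : List Y) : ∀ (i j : I), i ≠ j →
    X hI g i j w * X hI g i j w = 1 := by
  intro i j hij
  match w with
  | [] => rw [X_nil]; exact hg.sq i j hij _
  | y :: w =>
    obtain ⟨p, hpi, hpj, -, -⟩ := hI i j i j
    have e := X_mul (hI := hI) hg [y] w i p j hpi.symm hpj hij
    rw [List.singleton_append] at e
    rw [← e]
    apply sq_comm
    · rw [X_single]; exact hg.sq i p hpi.symm _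
    · rw [e]
      exact X_commute hg _ _ i p i j hpi.symm hij hpi hij

end Mono

end Crest.Agent.R176.FP
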