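import Crest.Agent.R176.StDef
import Crest.Agent.R176.FP1

/-! Row 176, part B, block FP2 (Krstic-McCool for `|I| ≥ 5`), file 2:
`St I (FreeAlgebra (ZMod 2) Y)` is finitely presented for finite `I` and `Y`. -/

set_option autoImplicit false

namespace Crest.Agent.R176.FP

open scoped commutatorElement

section Lin

/-- extension by linearity -/
theorem exists_hom {G A B : Type*} [Group G] [AddCommGroup A] [Module (ZMod 2) A]
    (b : Module.Basis B (ZMod 2) A) (e : B → G) (hc : ∀ x y, Commute (e x) (e y))
    (hs : ∀ x, e x * e x = 1) :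
    ∃ f : A → G, (∀ r s, f (r + s) = f r * f s) ∧ (∀ x, f (b x) = e x) ∧
      (∀ r, f r ∈ Subgroup.closure (Set.range e)) := by
  have hcomm : ∀ x ∈ Set.range e, ∀ y ∈ Set.range e, x * y = y * x := by
    rintro _ ⟨x, rfl⟩ _ ⟨y, rfl⟩
    exact (hc x y).eq
  have hK := Subgroup.isMulCommutative_closure hcomm
  letI : CommGroup (Subgroup.closure (Set.range e)) :=
    { (inferInstance : Group (Subgroup.closure (Set.range e))) with
      mul_comm := fun a b => hK.is_comm.comm a b }
  have h2 : ∀ k : Subgroup.closure (Set.range e), k * k = 1 := by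
    rintro ⟨k, hk⟩
    apply Subtype.ext
    show k * k = 1
    induction hk using Subgroup.closure_induction with
    | mem x hx =>
      obtain ⟨y, rfl⟩ := hx
      exact hs y
    | one => simp
    | mul x y hx hy h1 h2 =>
      have h3 : x * y = y * x := by
        have := hK.is_comm.comm ⟨x, hx⟩ ⟨y, hy⟩
        exact congrArg Subtype.val this
      calc x * y * (x * y) = x * (y * x) * y := by group
        _ = x * (x * y) * y := by rw [h3]
        _ = (x * x) * (y * y) := by group
        _ = 1 := by rw [h1, h2, one_mul]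
    | inv x hx h1 =>
      rw [← mul_inv_rev, h1, inv_one]
  letI : Module (ZMod 2) (Additive (Subgroup.closure (Set.range e))) :=
    AddCommGroup.zmodModule (n := 2) (fun x => by
      rw [two_nsmul]
      exact congrArg Additive.ofMul (h2 x.toMul))
  let L : A →ₗ[ZMod 2] Additive (Subgroup.closure (Set.range e)) :=
    b.constr (ZMod 2) (fun x => Additive.ofMul ⟨e x, Subgroup.subset_closure ⟨x, rfl⟩⟩)
  refine ⟨fun r => ((L r).toMul : Subgroup.closure (Set.range e)), ?_, ?_, ?_⟩
  · intro r s
    show (((L (r + s)).toMul : Subgroup.closure (Set.range e)) : G) = _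
    rw [map_add, toMul_add]
    rfl
  · intro x
    have : L (b x) = Additive.ofMul ⟨e x, Subgroup.subset_closure ⟨x, rfl⟩⟩ := by
      simp only [L, Module.Basis.constr_basis]
    show (((L (b x)).toMul : Subgroup.closure (Set.range e)) : G) = _
    rw [this]
    rfl
  · intro r
    exact Subtype.property _

/-- induction over a `ZMod 2`-basis -/
theorem basis_induction {A B : Type*} [AddCommGroup A] [Module (ZMod 2) A]
    (b : Module.Basis B (ZMod 2) A) {p : A → Prop} (h0 : p 0) (hadd : ∀ x y, p x → p y → p (x + y))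
    (hb : ∀ x, p (b x)) (a : A) : p a := by
  have ha : a ∈ Submodule.span (ZMod 2) (Set.range b) := by rw [b.span_eq]; trivial
  induction ha using Submodule.span_induction with
  | mem x hx => obtain ⟨y, rfl⟩ := hx; exact hb y
  | zero => exact h0
  | add x y _ _ hx hy => exact hadd x y hx hy
  | smul c x _ hx =>
    have : c = 0 ∨ c = 1 := by revert c; decide
    rcases this with rfl | rfl
    · rw [zero_smul]; exact h0
    · rw [one_smul]; exact hx

theorem basis_eq (R Y : Type*) [CommRing R] (w : FreeMonoid Y) :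
    FreeAlgebra.basisFreeMonoid R Y w = FreeMonoid.lift (FreeAlgebra.ι R) w := by
  unfold FreeAlgebra.basisFreeMonoid
  rw [Module.Basis.map_apply]
  simp [FreeAlgebra.equivMonoidAlgebraFreeMonoid]

theorem basis_mul (R Y : Type*) [CommRing R] (u v : FreeMonoid Y) :
    FreeAlgebra.basisFreeMonoid R Y (u * v) =
      FreeAlgebra.basisFreeMonoid R Y u * FreeAlgebra.basisFreeMonoid R Y v := by
  rw [basis_eq, basis_eq, basis_eq, map_mul]

end Lin

section Free

variable {I Y : Type*}

/-- value of a small generator -/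
def val : Option Y → FreeAlgebra (ZMod 2) Y
  | none => 1
  | some y => FreeAlgebra.ι (ZMod 2) y

/-- generators of the finite presentation -/
abbrev Gn (I Y : Type*) := {p : I × I // p.1 ≠ p.2} × Option Y

open Classical in
/-- total generator function -/
noncomputable def gen (i j : I) (u : Option Y) : FreeGroup (Gn I Y) :=
  if h : i ≠ j then FreeGroup.of (⟨(i, j), h⟩, u) else 1

/-- the finitely many relators -/
inductive Rel0 (I Y : Type*) : FreeGroup (Gn I Y) → Prop
  | comm (i j k l : I) (hij : i ≠ j) (hkl : k ≠ l) (hjk : j ≠ k) (hil : i ≠ l) (u v : Option Y) :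
      Rel0 I Y ⁅gen i j u, gen k l v⁆
  | left (i j k : I) (hij : i ≠ j) (hjk : j ≠ k) (hik : i ≠ k) (u : Option Y) :
      Rel0 I Y (⁅(gen i j none : FreeGroup (Gn I Y)), gen j k u⁆ * (gen i k u)⁻¹)
  | right (i j k : I) (hij : i ≠ j) (hjk : j ≠ k) (hik : i ≠ k) (u : Option Y) :
      Rel0 I Y (⁅gen i j u, (gen j k none : FreeGroup (Gn I Y))⁆ * (gen i k u)⁻¹)
  | sq (i j : I) (hij : i ≠ j) (u : Option Y) : Rel0 I Y (gen i j u * gen i j u)

theorem Rel0_finite [Finite I] [Finite Y] : {w | Rel0 I Y w}.Finite := by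
  let F : Fin 4 × (I × I × I × I) × (Option Y × Option Y) → FreeGroup (Gn I Y) := fun t =>
    match t with
    | (0, (i, j, k, l), (u, v)) => ⁅gen i j u, gen k l v⁆
    | (1, (i, j, k, _), (u, _)) =>
      ⁅(gen i j none : FreeGroup (Gn I Y)), gen j k u⁆ * (gen i k u)⁻¹
    | (2, (i, j, k, _), (u, _)) =>
      ⁅gen i j u, (gen j k none : FreeGroup (Gn I Y))⁆ * (gen i k u)⁻¹
    | (3, (i, j, _, _), (u, _)) => gen i j u * gen i j u
  refine (Set.finite_range F).subset ?_
  rintro w (hw : Rel0 I Y w)
  cases hw with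
  | comm i j k l _ _ _ _ u v => exact ⟨(0, (i, j, k, l), (u, v)), rfl⟩
  | left i j k _ _ _ u => exact ⟨(1, (i, j, k, i), (u, u)), rfl⟩
  | right i j k _ _ _ u => exact ⟨(2, (i, j, k, i), (u, u)), rfl⟩
  | sq i j _ u => exact ⟨(3, (i, j, i, i), (u, u)), rfl⟩

/-- the finitely presented group -/
abbrev P0 (I Y : Type*) := PresentedGroup {w | Rel0 I Y w}

instance [Finite I] [Finite Y] : Group.IsFinitelyPresented (P0 I Y) := by
  have : Finite {w | Rel0 I Y w} := Rel0_finite.to_subtype
  infer_instance

/-- generators in `P0` -/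
noncomputable def g0 (i j : I) (u : Option Y) : P0 I Y := PresentedGroup.mk _ (gen i j u)

theorem g0_base : Base (g0 : I → I → Option Y → P0 I Y) where
  comm i j k l hij hkl hjk hil u v := by
    have := PresentedGroup.one_of_mem (rels := {w | Rel0 I Y w})
      (Rel0.comm i j k l hij hkl hjk hil u v)
    rw [map_commutatorElement] at this
    exact commutatorElement_eq_one_iff_commute.mp this
  left i j k hij hjk hik u := by
    have := PresentedGroup.one_of_mem (rels := {w | Rel0 I Y w}) (Rel0.left i j k hij hjk hik u)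
    rw [map_mul, map_inv, mul_inv_eq_one, map_commutatorElement] at this
    exact this
  right i j k hij hjk hik u := by
    have := PresentedGroup.one_of_mem (rels := {w | Rel0 I Y w}) (Rel0.right i j k hij hjk hik u)
    rw [map_mul, map_inv, mul_inv_eq_one, map_commutatorElement] at this
    exact this
  sq i j hij u := by
    have := PresentedGroup.one_of_mem (rels := {w | Rel0 I Y w}) (Rel0.sq i j hij u)
    rw [map_mul] at this
    exact this

/-- Steinberg relations for a family `f` extending `X`. -/
structure IsSt {A G : Type*} [Ring A] [Group G] (f : ∀ i j : I, i ≠ j → A → G) : Prop where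
  add : ∀ i j h r s, f i j h (r + s) = f i j h r * f i j h s
  mul : ∀ i j k hij hjk hik r s, ⁅f i j hij r, f j k hjk s⁆ = f i k hik (r * s)
  triv : ∀ i j k l hij hkl, j ≠ k → i ≠ l → ∀ r s, Commute (f i j hij r) (f k l hkl s)

/-- from a base family to a Steinberg family -/
theorem exists_steinberg {G : Type*} [Group G] (hI : Enough I) (g : I → I → Option Y → G)
    (hg : Base g) : ∃ f : ∀ i j : I, i ≠ j → FreeAlgebra (ZMod 2) Y → G, IsSt f ∧
      ∀ i j h (w : FreeMonoid Y), f i j h (FreeAlgebra.basisFreeMonoid (ZMod 2) Y w) =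
        X hI g i j w.toList := by
  have H : ∀ i j : I, i ≠ j → ∃ f : FreeAlgebra (ZMod 2) Y → G,
      (∀ r s, f (r + s) = f r * f s) ∧
      (∀ w : FreeMonoid Y, f (FreeAlgebra.basisFreeMonoid (ZMod 2) Y w) = X hI g i j w.toList) ∧
      (∀ r, f r ∈ Subgroup.closure (Set.range fun w : FreeMonoid Y => X hI g i j w.toList)) := by
    intro i j hij
    exact exists_hom (FreeAlgebra.basisFreeMonoid (ZMod 2) Y)
      (fun w : FreeMonoid Y => X hI g i j w.toList)
      (fun u v => X_commute hg _ _ i j i j hij hij hij.symm hij)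
      (fun u => X_sq hg _ i j hij)
  choose f hadd hb hcl using H
  have hzero : ∀ i j h, f i j h 0 = 1 := by
    intro i j h
    have := hadd i j h 0 0
    rw [add_zero] at this
    exact left_eq_mul.mp this
  have htriv : ∀ i j k l hij hkl, j ≠ k → i ≠ l → ∀ r s, Commute (f i j hij r) (f k l hkl s) := by
    intro i j k l hij hkl hjk hil r s
    have h1 := hcl i j hij r
    have h2 := hcl k l hkl s
    have h3 : Subgroup.closure (Set.range fun w : FreeMonoid Y => X hI g i j w.toList) ≤
        Subgroup.centralizer (Subgroup.closure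
          (Set.range fun w : FreeMonoid Y => X hI g k l w.toList)) := by
      rw [Subgroup.centralizer_closure, Subgroup.closure_le]
      rintro _ ⟨w, rfl⟩
      rw [SetLike.mem_coe, Subgroup.mem_centralizer_iff]
      rintro _ ⟨w', rfl⟩
      exact (X_commute hg _ _ i j k l hij hkl hjk hil).eq.symm
    have h4 := h3 h1
    rw [Subgroup.mem_centralizer_iff] at h4
    exact (h4 _ h2).symm
  refine ⟨f, ⟨hadd, ?_, htriv⟩, hb⟩
  intro i j k hij hjk hik r s
  -- bilinearity
  have hL : ∀ r r' s, ⁅f i j hij r, f j k hjk s⁆ = f i k hik (r * s) →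
      ⁅f i j hij r', f j k hjk s⁆ = f i k hik (r' * s) →
      ⁅f i j hij (r + r'), f j k hjk s⁆ = f i k hik ((r + r') * s) := by
    intro r r' s h1 h2
    have e : ⁅f i j hij r * f i j hij r', f j k hjk s⁆ =
        f i j hij r * ⁅f i j hij r', f j k hjk s⁆ * (f i j hij r)⁻¹ *
          ⁅f i j hij r, f j k hjk s⁆ := by
      simp only [commutatorElement_def]; group
    rw [hadd i j, e, h1, h2, add_mul, hadd i k,
      (htriv i j i k hij hik hij.symm hik r (r' * s)).eq, mul_inv_cancel_right]
    exact (htriv i k i k hik hik hik.symm hik _ _).eq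
  have hR : ∀ r s s', ⁅f i j hij r, f j k hjk s⁆ = f i k hik (r * s) →
      ⁅f i j hij r, f j k hjk s'⁆ = f i k hik (r * s') →
      ⁅f i j hij r, f j k hjk (s + s')⁆ = f i k hik (r * (s + s')) := by
    intro r s s' h1 h2
    have e : ⁅f i j hij r, f j k hjk s * f j k hjk s'⁆ =
        ⁅f i j hij r, f j k hjk s⁆ * (f j k hjk s * ⁅f i j hij r, f j k hjk s'⁆ *
          (f j k hjk s)⁻¹) := by
      simp only [commutatorElement_def]; group
    rw [hadd j k, e, h1, h2, mul_add, hadd i k,
      (htriv j k i k hjk hik hik.symm hjk s (r * s')).eq, mul_inv_cancel_right]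
  refine basis_induction (FreeAlgebra.basisFreeMonoid (ZMod 2) Y)
    (p := fun r => ⁅f i j hij r, f j k hjk s⁆ = f i k hik (r * s)) ?_ (fun x y hx hy => hL x y s hx hy)
    ?_ r
  · rw [hzero, zero_mul, hzero, commutatorElement_def]; group
  intro u
  refine basis_induction (FreeAlgebra.basisFreeMonoid (ZMod 2) Y)
    (p := fun s => ⁅f i j hij (FreeAlgebra.basisFreeMonoid (ZMod 2) Y u), f j k hjk s⁆ =
      f i k hik (FreeAlgebra.basisFreeMonoid (ZMod 2) Y u * s)) ?_
    (fun x y hx hy => hR _ x y hx hy) ?_ s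
  · rw [hzero, mul_zero, hzero, commutatorElement_def]; group
  intro v
  rw [← basis_mul, hb, hb, hb, X_mul hg _ _ i j k hij hjk hik]
  rfl

/-- the hom `St I A → G` attached to a base family -/
theorem exists_lift {G : Type*} [Group G] (hI : Enough I) (g : I → I → Option Y → G)
    (hg : Base g) : ∃ θ : St I (FreeAlgebra (ZMod 2) Y) →* G,
      ∀ i j h (w : FreeMonoid Y), θ (St.x i j h (FreeAlgebra.basisFreeMonoid (ZMod 2) Y w)) =
        X hI g i j w.toList := by
  obtain ⟨f, hf, hb⟩ := exists_steinberg hI g hg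
  refine ⟨St.lift f hf.add hf.mul
    (fun i j k l hij hkl hjk hil r s => (hf.triv i j k l hij hkl hjk hil r s).commutator_eq), ?_⟩
  intro i j h w
  rw [St.lift_x, hb]

/-- images of the small generators in the Steinberg group -/
theorem st_base : ∀ g : I → I → Option Y → St I (FreeAlgebra (ZMod 2) Y),
    (∀ i j (h : i ≠ j) u, g i j u = St.x i j h (val u)) → Base g := by
  intro g hg
  constructor
  · intro i j k l hij hkl hjk hil u v
    rw [hg i j hij, hg k l hkl]
    exact St.x_commute i j k l hij hkl hjk hil _ _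
  · intro i j k hij hjk hik u
    rw [hg i j hij, hg j k hjk, hg i k hik, St.x_comm i j k hij hjk hik]
    simp [val]
  · intro i j k hij hjk hik u
    rw [hg i j hij, hg j k hjk, hg i k hik, St.x_comm i j k hij hjk hik]
    simp [val]
  · intro i j hij u
    rw [hg i j hij, ← St.x_add]
    have : val u + val u = (0 : FreeAlgebra (ZMod 2) Y) := by
      rw [← two_smul (ZMod 2), show (2 : ZMod 2) = 0 from rfl, zero_smul]
    rw [this, St.x_zero]

theorem toList_val (u : Option Y) : ∃ w : FreeMonoid Y,
    FreeAlgebra.basisFreeMonoid (ZMod 2) Y w = val u ∧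
    ∀ {G : Type*} [Group G] (hI : Enough I) (g : I → I → Option Y → G) (i j : I),
      X hI g i j w.toList = g i j u := by
  cases u with
  | none =>
    refine ⟨1, ?_, ?_⟩
    · rw [basis_eq, map_one]; rfl
    · intro G _ hI g i j
      exact X_nil hI g i j
  | some y =>
    refine ⟨FreeMonoid.of y, ?_, ?_⟩
    · rw [basis_eq, FreeMonoid.lift_eval_of]; rfl
    · intro G _ hI g i j
      exact X_single hI g i j y

theorem map_X {G H : Type*} [Group G] [Group H] (φ : G →* H) (hI : Enough I)
    (g : I → I → Option Y → G) (w : List Y) : ∀ i j : I,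
    φ (X hI g i j w) = X hI (fun i j u => φ (g i j u)) i j w := by
  induction w with
  | nil => intro i j; rw [X_nil, X_nil]
  | cons y w ih =>
    intro i j
    by_cases hw : w = []
    · subst hw; rw [X_single, X_single]
    · rw [X_cons _ _ _ _ _ _ hw, X_cons _ _ _ _ _ _ hw, map_commutatorElement, ih, X_single,
        X_single]

theorem X_congr {G : Type*} [Group G] (hI : Enough I)
    (g g' : I → I → Option Y → G) (hg : ∀ i j, i ≠ j → ∀ u, g i j u = g' i j u) (w : List Y) :
    ∀ i j : I, i ≠ j → X hI g i j w = X hI g' i j w := by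
  induction w with
  | nil => intro i j h; rw [X_nil, X_nil, hg i j h]
  | cons y w ih =>
    intro i j h
    by_cases hw : w = []
    · subst hw; rw [X_single, X_single, hg i j h]
    · rw [X_cons _ _ _ _ _ _ hw, X_cons _ _ _ _ _ _ hw, X_single, X_single,
        hg _ _ (pick_left hI i j).symm, ih _ _ (pick_right hI i j)]

theorem X_st (hI : Enough I) (g : I → I → Option Y → St I (FreeAlgebra (ZMod 2) Y))
    (hg : ∀ i j (h : i ≠ j) u, g i j u = St.x i j h (val u)) (w : List Y) :
    ∀ (i j : I) (h : i ≠ j), X hI g i j w =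
      St.x i j h (FreeAlgebra.basisFreeMonoid (ZMod 2) Y (FreeMonoid.ofList w)) := by
  induction w with
  | nil =>
    intro i j h
    rw [X_nil, hg i j h, basis_eq]
    simp [val]
  | cons y w ih =>
    intro i j h
    have hval : val (some y) = FreeAlgebra.basisFreeMonoid (ZMod 2) Y (FreeMonoid.of y) := by
      rw [basis_eq, FreeMonoid.lift_eval_of]; rfl
    by_cases hw : w = []
    · subst hw
      rw [X_single, hg i j h, hval]
      rfl
    · rw [X_cons _ _ _ _ _ _ hw, X_single, hg _ _ (pick_left hI i j).symm,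
        ih _ _ (pick_right hI i j),
        St.x_comm _ _ _ _ _ h, hval, ← basis_mul]
      rfl

/-- **Krstic-McCool** for free algebras over `ZMod 2`, `|I| ≥ 5`. -/
theorem st_free_fp [Finite I] [Finite Y] (hI : Enough I) :
    Group.IsFinitelyPresented (St I (FreeAlgebra (ZMod 2) Y)) := by
  classical
  obtain ⟨θ, hθ⟩ := exists_lift hI (g0 : I → I → Option Y → P0 I Y) g0_base
  -- the hom back
  let gS : I → I → Option Y → St I (FreeAlgebra (ZMod 2) Y) := fun i j u =>
    if h : i ≠ j then St.x i j h (val u) else 1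
  have hgS : ∀ i j (h : i ≠ j) u, gS i j u = St.x i j h (val u) := by
    intro i j h u
    simp only [gS, dif_pos h]
  have hbase := st_base gS hgS
  let F : FreeGroup (Gn I Y) →* St I (FreeAlgebra (ZMod 2) Y) :=
    FreeGroup.lift fun t : Gn I Y => St.x t.1.1.1 t.1.1.2 t.1.2 (val t.2)
  have hF : ∀ i j (h : i ≠ j) u, F (gen i j u) = gS i j u := by
    intro i j h u
    rw [hgS i j h]
    simp only [gen, dif_pos h, F, FreeGroup.lift_apply_of]
  have hrel : ∀ w ∈ {w | Rel0 I Y w}, F w = 1 := by
    rintro w (hw : Rel0 I Y w)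
    cases hw with
    | comm i j k l hij hkl hjk hil u v =>
      rw [map_commutatorElement, hF i j hij, hF k l hkl]
      exact (hbase.comm i j k l hij hkl hjk hil u v).commutator_eq
    | left i j k hij hjk hik u =>
      rw [map_mul, map_inv, map_commutatorElement, hF i j hij, hF j k hjk, hF i k hik,
        hbase.left i j k hij hjk hik, mul_inv_cancel]
    | right i j k hij hjk hik u =>
      rw [map_mul, map_inv, map_commutatorElement, hF i j hij, hF j k hjk, hF i k hik,
        hbase.right i j k hij hjk hik, mul_inv_cancel]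
    | sq i j hij u =>
      rw [map_mul, hF i j hij, hbase.sq i j hij]
  let ψ : P0 I Y →* St I (FreeAlgebra (ZMod 2) Y) := PresentedGroup.toGroup hrel
  have hψ : ∀ i j (h : i ≠ j) u, ψ (g0 i j u) = gS i j u := by
    intro i j h u
    rw [hgS i j h]
    simp only [g0, gen, dif_pos h]
    exact PresentedGroup.toGroup.of hrel
  have h1 : ψ.comp θ = MonoidHom.id _ := by
    apply St.hom_ext
    intro i j h r
    refine basis_induction (FreeAlgebra.basisFreeMonoid (ZMod 2) Y)
      (p := fun r => (ψ.comp θ) (St.x i j h r) = (MonoidHom.id _) (St.x i j h r)) ?_ ?_ ?_ r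
    · rw [St.x_zero, map_one, map_one]
    · intro x y hx hy
      rw [St.x_add, map_mul, map_mul, hx, hy]
    · intro w
      rw [MonoidHom.comp_apply, hθ, map_X]
      rw [X_congr hI _ gS (fun i j h u => hψ i j h u) _ i j h, X_st hI gS hgS _ i j h]
      rfl
  have h2 : θ.comp ψ = MonoidHom.id _ := by
    apply PresentedGroup.ext
    rintro ⟨⟨⟨i, j⟩, h⟩, u⟩
    have e : (PresentedGroup.of (⟨(i, j), h⟩, u) : P0 I Y) = g0 i j u := by
      simp only [g0, gen]
      rw [dif_pos (show i ≠ j from h)]
      rfl
    rw [e, MonoidHom.comp_apply, hψ i j h, hgS i j h]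
    obtain ⟨w, hw, hX⟩ := toList_val (I := I) (Y := Y) u
    rw [← hw, hθ, hX]
    rfl
  exact Group.IsFinitelyPresented.equiv (MonoidHom.toMulEquiv ψ θ h2 h1)

end Free

end Crest.Agent.R176.FP
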