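import Crest.Agent.R176.FP2

/-! Row 176, part B, block FP2 (Krstic-McCool for `|I| ≥ 5`), file 3: finitely presented
`ZMod 2`-algebras. -/

set_option autoImplicit false

namespace Crest.Agent.R176.FP

open scoped commutatorElement

section Quot

variable {I A : Type*} [Ring A]

/-- The ring congruence `a ~ b` iff `π (x i j a) = π (x i j b)` for all `i ≠ j`. -/
def con {H : Type*} [Group H] (hI : Enough I) (π : St I A →* H) : RingCon A where
  r a b := ∀ i j (h : i ≠ j), π (St.x i j h a) = π (St.x i j h b)
  iseqv :=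
    { refl := fun a i j h => rfl
      symm := fun h' i j h => (h' i j h).symm
      trans := fun h1 h2 i j h => (h1 i j h).trans (h2 i j h) }
  add' := by
    intro a b c d h1 h2 i j h
    rw [St.x_add, St.x_add, map_mul, map_mul, h1 i j h, h2 i j h]
  mul' := by
    intro a b c d h1 h2 i j h
    obtain ⟨p, hpi, hpj, -, -⟩ := hI i j i j
    rw [← St.x_comm i p j hpi.symm hpj h, ← St.x_comm i p j hpi.symm hpj h,
      map_commutatorElement, map_commutatorElement, h1 i p hpi.symm, h2 p j hpj]

theorem con_iff {H : Type*} [Group H] (hI : Enough I) (π : St I A →* H) (a b : A) :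
    con hI π a b ↔ ∀ i j (h : i ≠ j), π (St.x i j h a) = π (St.x i j h b) := Iff.rfl

/-- The universal property of `St I (RingQuot r)`. -/
theorem exists_quot {H : Type*} [Group H] (hI : Enough I) (r : A → A → Prop) (π : St I A →* H)
    (hπ : ∀ a b, r a b → ∀ i j (h : i ≠ j), π (St.x i j h a) = π (St.x i j h b)) :
    ∃ μ : St I (RingQuot r) →* H, μ.comp (St.map (RingQuot.mkRingHom r)) = π := by
  -- `q a = q b` implies `a ~ b`
  have hcon : ∀ a b, RingQuot.mkRingHom r a = RingQuot.mkRingHom r b → con hI π a b := by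
    intro a b hab
    let L : RingQuot r →+* (con hI π).Quotient :=
      RingQuot.lift ⟨(con hI π).mk', fun {x y} hxy => by
        refine (RingCon.eq _).2 ?_
        exact hπ x y hxy⟩
    have h1 : ∀ a, L (RingQuot.mkRingHom r a) = (con hI π).mk' a := fun a =>
      RingQuot.lift_mkRingHom_apply _ _ _
    have h2 := congrArg L hab
    rw [h1, h1] at h2
    exact (RingCon.eq _).1 h2
  have hsurj := RingQuot.mkRingHom_surjective r
  choose σ hσ using hsurj
  have key : ∀ a i j (h : i ≠ j), π (St.x i j h (σ (RingQuot.mkRingHom r a))) =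
      π (St.x i j h a) := by
    intro a i j h
    exact hcon _ _ (hσ _) i j h
  let μ : St I (RingQuot r) →* H := St.lift (fun i j h s => π (St.x i j h (σ s)))
    (by
      intro i j h s t
      rw [← map_mul, ← St.x_add]
      refine hcon _ _ ?_ i j h
      rw [hσ, map_add, hσ, hσ])
    (by
      intro i j k hij hjk hik s t
      rw [← map_commutatorElement, St.x_comm i j k hij hjk hik]
      refine hcon _ _ ?_ i k hik
      rw [hσ, map_mul, hσ, hσ])
    (by
      intro i j k l hij hkl hjk hil s t
      rw [← map_commutatorElement, St.x_triv i j k l hij hkl hjk hil, map_one])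
  refine ⟨μ, ?_⟩
  apply St.hom_ext
  intro i j h a
  rw [MonoidHom.comp_apply, St.map_x]
  show μ _ = _
  simp only [μ, St.lift_x]
  exact key a i j h

/-- Finitely many ring relations: finite presentability descends. -/
theorem st_quot_fp [Finite I] (hI : Enough I) [Group.IsFinitelyPresented (St I A)]
    (r : A → A → Prop) (hrel : {p : A × A | r p.1 p.2}.Finite) :
    Group.IsFinitelyPresented (St I (RingQuot r)) := by
  refine Group.IsFinitelyPresented.of_surjective
    (St.map (RingQuot.mkRingHom r))
    (St.map_surjective _ (RingQuot.mkRingHom_surjective _)) ?_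
  let T : Set (St I A) := (fun t : {p : I × I // p.1 ≠ p.2} × (A × A) =>
    (St.x t.1.1.1 t.1.1.2 t.1.2 t.2.1)⁻¹ * (St.x t.1.1.1 t.1.1.2 t.1.2 t.2.2)) ''
      (Set.univ ×ˢ {p : A × A | r p.1 p.2})
  refine ⟨T, (Set.finite_univ.prod hrel).image _, le_antisymm ?_ ?_⟩
  · refine Subgroup.normalClosure_le_normal ?_
    rintro _ ⟨⟨⟨⟨i, j⟩, h⟩, a, b⟩, ⟨-, hab⟩, rfl⟩
    have hq : RingQuot.mkRingHom r a = RingQuot.mkRingHom r b := RingQuot.mkRingHom_rel hab
    rw [SetLike.mem_coe, MonoidHom.mem_ker, map_mul, map_inv, St.map_x, St.map_x]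
    dsimp only
    rw [hq, inv_mul_cancel]
  · intro g hg
    obtain ⟨μ, hμ⟩ := exists_quot hI r
      (QuotientGroup.mk' (Subgroup.normalClosure T)) (by
        intro a b hab i j h
        refine (QuotientGroup.eq (s := Subgroup.normalClosure T)).2 ?_
        exact Subgroup.subset_normalClosure ⟨(⟨(i, j), h⟩, (a, b)), ⟨trivial, hab⟩, rfl⟩)
    have h1 := DFunLike.congr_fun hμ g
    rw [MonoidHom.comp_apply, MonoidHom.mem_ker.1 hg, map_one] at h1
    exact (QuotientGroup.eq_one_iff g).1 h1.symm

end Quot

/-- `St` of isomorphic rings. -/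
def stEquiv (I : Type*) {R S : Type*} [Ring R] [Ring S] (e : R ≃+* S) : St I R ≃* St I S :=
  MonoidHom.toMulEquiv (St.map (e : R →+* S)) (St.map (e.symm : S →+* R))
    (by
      apply St.hom_ext
      intro i j h r
      rw [MonoidHom.comp_apply, St.map_x, St.map_x]
      simp)
    (by
      apply St.hom_ext
      intro i j h r
      rw [MonoidHom.comp_apply, St.map_x, St.map_x]
      simp)

theorem enough_of_card (I : Type*) [Finite I] (h : 5 ≤ Nat.card I) : Enough I := by
  classical
  intro i j k l
  have : Fintype I := Fintype.ofFinite I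
  by_contra hcon
  push Not at hcon
  have h1 : (Finset.univ : Finset I) ⊆ {i, j, k, l} := by
    intro p _
    simp only [Finset.mem_insert, Finset.mem_singleton]
    by_contra h2
    push Not at h2
    exact h2.2.2.2 (hcon p h2.1 h2.2.1 h2.2.2.1)
  have h2 := Finset.card_le_card h1
  have h3 : ({i, j, k, l} : Finset I).card ≤ 4 := Finset.card_le_four
  rw [Finset.card_univ, ← Nat.card_eq_fintype_card] at h2
  omega

theorem enough_fin (n : ℕ) (h : 5 ≤ n) : Enough (Fin n) :=
  enough_of_card _ (by simpa using h)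

/-- **St I R is finitely presented** for a finitely presented `ZMod 2`-algebra `R`, `|I| ≥ 5`. -/
theorem steinberg_fp (I : Type*) [Finite I] (hcard : 5 ≤ Nat.card I) {R : Type*} [Ring R]
    {Y : Type*} [Finite Y]
    (rel : Finset (FreeAlgebra (ZMod 2) Y × FreeAlgebra (ZMod 2) Y))
    (e : R ≃+* RingQuot (fun x y : FreeAlgebra (ZMod 2) Y => (x, y) ∈ rel)) :
    Group.IsFinitelyPresented (St I R) := by
  have hI := enough_of_card I hcard
  have h0 : Group.IsFinitelyPresented (St I (FreeAlgebra (ZMod 2) Y)) := st_free_fp hI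
  have h1 : Group.IsFinitelyPresented
      (St I (RingQuot (fun x y : FreeAlgebra (ZMod 2) Y => (x, y) ∈ rel))) :=
    st_quot_fp hI _ rel.finite_toSet
  exact Group.IsFinitelyPresented.equiv (stEquiv I e.symm)

end Crest.Agent.R176.FP
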