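import Mathlib

/-!
# Row 176 (helper501): finite index subgroups of finitely presented groups
are finitely presented.
-/

set_option autoImplicit false

namespace Crest.Agent.R176.FP501FI

open Group

/-- A retract of a finitely presented group is finitely presented. -/
theorem of_retract {F G : Type*} [Group F] [Group G] [hF : IsFinitelyPresented F]
    (π : F →* G) (s : G →* F) (h : ∀ g, π (s g) = g) : IsFinitelyPresented G := by
  obtain ⟨n, φ, hφ, -⟩ := hF.out
  refine IsFinitelyPresented.of_surjective π (fun g => ⟨s g, h g⟩) ?_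
  let S : Set F := Set.range fun i : Fin n => (φ (FreeGroup.of i))⁻¹ * s (π (φ (FreeGroup.of i)))
  refine ⟨S, Set.finite_range _, le_antisymm ?_ ?_⟩
  · refine Subgroup.normalClosure_le_normal ?_
    rintro _ ⟨i, rfl⟩
    simp [MonoidHom.mem_ker, h]
  · intro f hf
    let N := Subgroup.normalClosure S
    have key : (QuotientGroup.mk' N).comp φ = ((QuotientGroup.mk' N).comp (s.comp π)).comp φ := by
      ext i
      simp only [MonoidHom.comp_apply]
      refine (QuotientGroup.eq (s := N)).2 ?_
      exact Subgroup.subset_normalClosure ⟨i, rfl⟩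
    obtain ⟨w, rfl⟩ := hφ f
    have h1 := DFunLike.congr_fun key w
    simp only [MonoidHom.comp_apply] at h1
    rw [MonoidHom.mem_ker] at hf
    rw [hf, map_one, map_one] at h1
    exact (QuotientGroup.eq_one_iff (N := N) _).1 h1

/-- A finitely generated free group is finitely presented. -/
theorem of_isFreeGroup {G : Type*} [Group G] [IsFreeGroup G] [hG : Group.FG G] :
    IsFinitelyPresented G := by
  obtain ⟨S, hS⟩ := hG.out
  let π : FreeGroup (S : Set G) →* G := FreeGroup.lift (fun x => (x : G))
  have hπ : Function.Surjective π := by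
    rw [← MonoidHom.range_eq_top, FreeGroup.range_lift_eq_closure]
    simpa using hS
  choose r hr using hπ
  let s : G →* FreeGroup (S : Set G) := IsFreeGroup.lift (fun a => r (IsFreeGroup.of a))
  refine of_retract π s ?_
  intro g
  have : π.comp s = MonoidHom.id G := by
    apply IsFreeGroup.ext_hom
    intro a
    simp [s, hr]
  exact DFunLike.congr_fun this g

/-- The preimage of a finite index subgroup under a surjection from a free group of finite rank. -/
theorem finiteIndex {G : Type*} [Group G] [hG : IsFinitelyPresented G] (H : Subgroup G)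
    [hH : H.FiniteIndex] : IsFinitelyPresented H := by
  obtain ⟨n, φ, hφ, S, hSf, hS⟩ := hG.out
  let F := FreeGroup (Fin n)
  let H' : Subgroup (FreeGroup (Fin n)) := H.comap φ
  have : H'.FiniteIndex := by
    refine ⟨?_⟩
    rw [Subgroup.index_comap_of_surjective H hφ]
    exact hH.index_ne_zero
  have : Group.FG H' := inferInstance
  have : IsFreeGroup H' := inferInstance
  have : IsFinitelyPresented H' := of_isFreeGroup
  let ψ : H' →* H := φ.subgroupComap H
  have hψ : Function.Surjective ψ := by
    rintro ⟨g, hg⟩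
    obtain ⟨w, rfl⟩ := hφ g
    exact ⟨⟨w, hg⟩, rfl⟩
  have hker : φ.ker ≤ H' := by
    intro w hw
    show φ w ∈ H
    rw [MonoidHom.mem_ker] at hw
    rw [hw]; exact H.one_mem
  refine IsFinitelyPresented.of_surjective ψ hψ ?_
  -- a finite right transversal
  obtain ⟨T, hT, -⟩ := Subgroup.exists_isComplement_right H' 1
  have hTf : T.Finite := hT.finite_right
  have hTs : ∀ f : FreeGroup (Fin n), ∃ h ∈ H', ∃ t ∈ T, f = h * t := by
    intro f
    obtain ⟨⟨h, t⟩, e⟩ := hT.2 f
    exact ⟨h, h.2, t, t.2, e.symm⟩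
  have hSH : ∀ s ∈ S, ∀ t : FreeGroup (Fin n), t * s * t⁻¹ ∈ H' := by
    intro s hs t
    apply hker
    rw [← hS]
    exact Subgroup.normalClosure_normal.conj_mem _ (Subgroup.subset_normalClosure hs) t
  let R : Set H' := {x | ∃ t ∈ T, ∃ s ∈ S, (x : FreeGroup (Fin n)) = t * s * t⁻¹}
  have hRf : R.Finite := by
    have : R ⊆ (Subtype.val) ⁻¹' ((fun p : FreeGroup (Fin n) × FreeGroup (Fin n) =>
        p.1 * p.2 * p.1⁻¹) '' (T ×ˢ S)) := by
      rintro x ⟨t, ht, s, hs, e⟩
      exact ⟨(t, s), ⟨ht, hs⟩, e.symm⟩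
    exact Set.Finite.subset (Set.Finite.preimage (Subtype.val_injective.injOn)
      ((hTf.prod hSf).image _)) this
  refine ⟨R, hRf, le_antisymm ?_ ?_⟩
  · refine Subgroup.normalClosure_le_normal ?_
    rintro x ⟨t, ht, s, hs, e⟩
    rw [SetLike.mem_coe, MonoidHom.mem_ker]
    apply Subtype.ext
    show φ (x : FreeGroup (Fin n)) = 1
    rw [e, ← MonoidHom.mem_ker, ← hS]
    exact Subgroup.normalClosure_normal.conj_mem _ (Subgroup.subset_normalClosure hs) t
  · intro x hx
    have hx' : (x : FreeGroup (Fin n)) ∈ Subgroup.normalClosure S := by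
      rw [hS, MonoidHom.mem_ker]
      exact congrArg Subtype.val hx
    have main : Subgroup.normalClosure S ≤ (Subgroup.normalClosure R).map H'.subtype := by
      rw [Subgroup.normalClosure, Subgroup.closure_le]
      intro y hy
      rw [Group.mem_conjugatesOfSet_iff] at hy
      obtain ⟨s, hs, hc⟩ := hy
      obtain ⟨f, rfl⟩ := isConj_iff.1 hc
      obtain ⟨h, hh, t, ht, rfl⟩ := hTs f
      refine ⟨(⟨h, hh⟩ : H') * ⟨t * s * t⁻¹, hSH s hs t⟩ * (⟨h, hh⟩ : H')⁻¹, ?_, ?_⟩
      · refine Subgroup.normalClosure_normal.conj_mem _ (Subgroup.subset_normalClosure ?_) _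
        exact ⟨t, ht, s, hs, rfl⟩
      · simp [mul_assoc]
    obtain ⟨z, hz, e⟩ := main hx'
    have : z = x := Subtype.ext e
    rwa [this] at hz

end Crest.Agent.R176.FP501FI
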