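import Crest.Agent.R176.K2F2
import Crest.Agent.R176.FP501FI

/-! Row 176, part B: abstract final assembly of S0265.
`G` = preimage in `St I R` of a Sylow 2-subgroup of the finite group `St I (ZMod 2)`. -/

set_option autoImplicit false
set_option linter.unusedVariables false
set_option linter.unusedSectionVars false

namespace Crest.Agent.R176.Final313

open Crest.Agent.R176 Crest.Agent.R176.St

variable {I : Type} [Fintype I] [DecidableEq I]

theorem finite_St_F2 (hI : 3 ≤ Fintype.card I) : Finite (St I (ZMod 2)) := by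
  have : Finite (Matrix I I (ZMod 2)) := inferInstanceAs (Finite (I → I → ZMod 2))
  have : Finite ((Matrix I I (ZMod 2))ˣ) := inferInstance
  exact Finite.of_injective _ (K2F2.toMat_injective hI)

theorem exists_ne (hI : 3 ≤ Fintype.card I) : ∃ i j : I, i ≠ j := by
  have : 1 < Fintype.card I := by omega
  obtain ⟨i, j, h⟩ := Fintype.exists_pair_of_one_lt_card this
  exact ⟨i, j, h⟩

theorem x_injective {R : Type*} [Ring R] (i j : I) (h : i ≠ j) :
    Function.Injective (fun r : R => x i j h r) := by
  intro r s e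
  have e1 := congrArg (fun g => (toMat g).val i j) e
  simp only [toMat_x, elem_val, Matrix.add_apply, Matrix.single_apply_same] at e1
  exact add_left_cancel e1

theorem infinite_St {R : Type*} [Ring R] [Infinite R] (hI : 3 ≤ Fintype.card I) :
    Infinite (St I R) := by
  obtain ⟨i, j, h⟩ := exists_ne hI
  exact Infinite.of_injective _ (x_injective (R := R) i j h)

theorem toMat_map {R S : Type*} [Ring R] [Ring S] (f : R →+* S) (g : St I R) :
    (toMat (St.map f g)).val = (toMat g).val.map f := by
  have key : (toMat.comp (St.map (I := I) f) : St I R →* _) =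
      (Units.map ((f.mapMatrix : Matrix I I R →+* Matrix I I S) :
        Matrix I I R →* Matrix I I S)).comp toMat := by
    apply hom_ext
    intro i j hij r
    rw [MonoidHom.comp_apply, MonoidHom.comp_apply, map_x, toMat_x, toMat_x]
    apply Units.ext
    simp [RingHom.mapMatrix_apply, Matrix.map_add, Matrix.map_single]
  have := DFunLike.congr_fun key g
  rw [MonoidHom.comp_apply, MonoidHom.comp_apply] at this
  rw [this]
  rfl

/-- unipotent elements have `2`-power order in characteristic two -/
theorem one_add_pow {A : Type*} [Ring A] (h2 : (2 : A) = 0) (a : A) (n : ℕ) :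
    (1 + a) ^ (2 ^ n) = 1 + a ^ (2 ^ n) := by
  induction n with
  | zero => simp
  | succ n ih =>
    rw [pow_succ, pow_mul, ih, pow_mul]
    generalize a ^ 2 ^ n = b
    rw [sq, sq, mul_add, add_mul, add_mul, one_mul, one_mul, mul_one]
    have : b + b = 0 := by rw [← two_mul, h2, zero_mul]
    rw [show 1 + b + (b + b * b) = 1 + (b + b) + b * b by abel, this, add_zero]

/-- The abstract final step. -/
theorem final_abstract (hI : 3 ≤ Fintype.card I) {R : Type} [Ring R] [Infinite R]
    (h2 : (2 : R) = 0) (aug : R →+* ZMod 2)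
    (hfp : Group.IsFinitelyPresented (St I R))
    (hnil : ∀ A : Matrix I I R, (∀ i j, aug (A i j) = 0) → IsNilpotent A)
    (htors : ∀ k : St I R, toMat k = 1 → ∃ a : ℕ, k ^ (2 ^ a) = 1)
    (hRF : ∀ g : St I R, g ≠ 1 → ∃ (S : Type) (_ : Ring S) (f : R →+* S),
      Finite (St I S) ∧ St.map f g ≠ 1) :
    ∃ (G : Type) (_ : Group G),
      Infinite G ∧ Group.IsFinitelyPresented G ∧ Group.ResiduallyFinite G ∧ IsPGroup 2 G := by
  have := hfp
  have : Finite (St I (ZMod 2)) := finite_St_F2 hI
  have : Infinite (St I R) := infinite_St hI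
  obtain ⟨P⟩ : Nonempty (Sylow 2 (St I (ZMod 2))) := inferInstance
  let G : Subgroup (St I R) := (P : Subgroup (St I (ZMod 2))).comap (St.map aug)
  have : Finite (St I (ZMod 2) ⧸ (P : Subgroup (St I (ZMod 2)))) := inferInstance
  have : (P : Subgroup (St I (ZMod 2))).FiniteIndex := inferInstance
  have hker : (St.map (I := I) aug).ker.FiniteIndex := Subgroup.finiteIndex_ker _
  have hGf : G.FiniteIndex := Subgroup.finiteIndex_of_le (H := (St.map (I := I) aug).ker)
    (Subgroup.ker_le_comap _ _)
  have : Group.ResiduallyFinite (St I R) := by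
    apply Group.residuallyFinite_of_forall_exists_finite_monoidHom
    intro g hg
    obtain ⟨S, _, f, hS, hf⟩ := hRF g hg
    exact ⟨St I S, inferInstance, hS, St.map f, hf⟩
  refine ⟨G, inferInstance, ?_, FP501FI.finiteIndex G, inferInstance, ?_⟩
  · by_contra hinf
    rw [not_infinite_iff_finite] at hinf
    have : Finite (St I R) :=
      Finite.of_equiv _ (Subgroup.groupEquivQuotientProdSubgroup (s := G)).symm
    exact not_finite (St I R)
  · rintro ⟨g, hg⟩
    have hg' : St.map aug g ∈ (P : Subgroup (St I (ZMod 2))) := hg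
    obtain ⟨a, ha⟩ := P.isPGroup' ⟨St.map aug g, hg'⟩
    have ha' : (St.map aug g) ^ (2 ^ a) = 1 := congrArg Subtype.val ha
    -- matrix of `g ^ (2 ^ a)` is `1 + nilpotent`
    have hm : St.map aug (g ^ (2 ^ a)) = 1 := by rw [map_pow, ha']
    have hA : ∀ i j, aug (((toMat (g ^ (2 ^ a))).val - 1 : Matrix I I R) i j) = 0 := by
      intro i j
      have h3 := toMat_map aug (g ^ (2 ^ a))
      rw [hm, map_one, Units.val_one] at h3
      have h4 := congrFun (congrFun h3 i) j
      rw [Matrix.map_apply] at h4
      rw [Matrix.sub_apply, map_sub, ← h4]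
      by_cases hij : i = j
      · subst hij; simp
      · simp [Matrix.one_apply_ne hij]
    obtain ⟨N, hN⟩ := hnil _ hA
    have h2M : (2 : Matrix I I R) = 0 := by
      ext i j
      have : (2 : Matrix I I R) = 1 + 1 := by norm_num
      rw [this, Matrix.add_apply, Matrix.zero_apply, ← two_mul, h2, zero_mul]
    have hpow : (toMat (g ^ (2 ^ a))) ^ (2 ^ N) = 1 := by
      apply Units.ext
      rw [Units.val_pow_eq_pow_val, Units.val_one]
      have e : (toMat (g ^ (2 ^ a))).val = 1 + ((toMat (g ^ (2 ^ a))).val - 1) := by abel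
      rw [e, one_add_pow h2M]
      have : ((toMat (g ^ (2 ^ a))).val - 1) ^ (2 ^ N) = 0 := by
        have hle : N ≤ 2 ^ N := Nat.lt_two_pow_self.le
        rw [← Nat.sub_add_cancel hle, pow_add, hN, mul_zero]
      rw [this, add_zero]
    obtain ⟨b, hb⟩ := htors ((g ^ (2 ^ a)) ^ (2 ^ N)) (by rw [map_pow, hpow])
    refine ⟨a + N + b, ?_⟩
    apply Subtype.ext
    show g ^ (2 ^ (a + N + b)) = 1
    rw [pow_add, pow_add, pow_mul, pow_mul, hb]

end Crest.Agent.R176.Final313
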