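import Crest.Agent.R176.Final313A
import Crest.Agent.R176.QAlg206B
import Crest.Agent.R176.Cen370
import Crest.Agent.R176.Tits370
import Crest.Agent.R176.FP3

/-! Row 176, part B: final assembly of S0265 over `R = QA step (ZMod 2)`:
the ideals `J m` (words of length `≥ m`), their finite quotients, residual finiteness. -/

set_option autoImplicit false
set_option linter.unusedVariables false
set_option linter.unusedSectionVars false

namespace Crest.Agent.R176.Final313

open Crest.Agent.R176 Crest.Agent.R176.St Crest.Agent.R176.QAlg206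

section ideal

variable {L : Type*} (step : L → L → Option (L × L)) (k : Type*) [CommRing k]

/-- span of the words of length `≥ m` -/
noncomputable def Jsub (m : ℕ) : Submodule k (QA step k) :=
  Submodule.span k {r | ∃ w : List L, m ≤ w.length ∧ word step k w = r}

theorem word_mem_Jsub {m : ℕ} {w : List L} (h : m ≤ w.length) : word step k w ∈ Jsub step k m :=
  Submodule.subset_span ⟨w, h, rfl⟩

theorem Jsub_mul_left {m : ℕ} {s : QA step k} (hs : s ∈ Jsub step k m) (r : QA step k) :
    r * s ∈ Jsub step k m := by
  unfold Jsub at hs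
  induction hs using Submodule.span_induction with
  | mem s h =>
    obtain ⟨w, hw, rfl⟩ := h
    induction r using QAlg206.induction_on with
    | hw v =>
      rw [← word_append]
      exact word_mem_Jsub step k (by rw [List.length_append]; omega)
    | hadd r t hr ht => rw [add_mul]; exact Submodule.add_mem _ hr ht
    | hsmul c r hr => rw [smul_mul_assoc]; exact Submodule.smul_mem _ _ hr
  | zero => rw [mul_zero]; exact Submodule.zero_mem _
  | add s t _ _ hs ht => rw [mul_add]; exact Submodule.add_mem _ hs ht
  | smul c s _ hs => rw [mul_smul_comm]; exact Submodule.smul_mem _ _ hs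

theorem Jsub_mul_right {m : ℕ} {s : QA step k} (hs : s ∈ Jsub step k m) (r : QA step k) :
    s * r ∈ Jsub step k m := by
  unfold Jsub at hs
  induction hs using Submodule.span_induction with
  | mem s h =>
    obtain ⟨w, hw, rfl⟩ := h
    induction r using QAlg206.induction_on with
    | hw v =>
      rw [← word_append]
      exact word_mem_Jsub step k (by rw [List.length_append]; omega)
    | hadd r t hr ht => rw [mul_add]; exact Submodule.add_mem _ hr ht
    | hsmul c r hr => rw [mul_smul_comm]; exact Submodule.smul_mem _ _ hr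
  | zero => rw [zero_mul]; exact Submodule.zero_mem _
  | add s t _ _ hs ht => rw [add_mul]; exact Submodule.add_mem _ hs ht
  | smul c s _ hs => rw [smul_mul_assoc]; exact Submodule.smul_mem _ _ hs

/-- the two-sided ideal of words of length `≥ m` -/
noncomputable def J (m : ℕ) : Ideal (QA step k) where
  carrier := Jsub step k m
  add_mem' := fun ha hb => Submodule.add_mem _ ha hb
  zero_mem' := Submodule.zero_mem _
  smul_mem' := fun r s hs => Jsub_mul_left step k hs r

theorem mem_J {m : ℕ} {r : QA step k} : r ∈ J step k m ↔ r ∈ Jsub step k m := Iff.rfl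

instance (m : ℕ) : (J step k m).IsTwoSided := ⟨fun r hs => Jsub_mul_right step k hs r⟩

/-- the quotient map -/
noncomputable def qm (m : ℕ) : QA step k →+* QA step k ⧸ J step k m :=
  Ideal.Quotient.mk (J step k m)

theorem qm_surjective (m : ℕ) : Function.Surjective (qm step k m) := Ideal.Quotient.mk_surjective

theorem qm_eq_zero_iff {m : ℕ} {r : QA step k} : qm step k m r = 0 ↔ r ∈ Jsub step k m :=
  Ideal.Quotient.eq_zero_iff_mem

theorem Jsub_add_le (m n : ℕ) {r : QA step k} (hr : r ∈ Jsub step k (m + n)) :
    r ∈ AddSubgroup.closure {x | ∃ b ∈ Jsub step k m, ∃ c ∈ Jsub step k n, x = b * c} := by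
  unfold Jsub at hr
  induction hr using Submodule.span_induction with
  | mem s h =>
    obtain ⟨w, hw, rfl⟩ := h
    apply AddSubgroup.subset_closure
    refine ⟨word step k (w.take m), ?_, word step k (w.drop m), ?_, ?_⟩
    · exact word_mem_Jsub step k (by rw [List.length_take]; omega)
    · exact word_mem_Jsub step k (by rw [List.length_drop]; omega)
    · rw [← word_append, List.take_append_drop]
  | zero => exact AddSubgroup.zero_mem _
  | add s t _ _ hs ht => exact AddSubgroup.add_mem _ hs ht
  | smul c s hs0 hs =>
    clear hs0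
    induction hs using AddSubgroup.closure_induction with
    | mem x hx =>
      obtain ⟨b, hb, d, hd, rfl⟩ := hx
      apply AddSubgroup.subset_closure
      exact ⟨c • b, Submodule.smul_mem _ _ hb, d, hd, (smul_mul_assoc c b d).symm⟩
    | zero => rw [smul_zero]; exact AddSubgroup.zero_mem _
    | add x y _ _ hx hy => rw [smul_add]; exact AddSubgroup.add_mem _ hx hy
    | neg x _ hx => rw [smul_neg]; exact AddSubgroup.neg_mem _ hx

theorem pow_mem_Jsub {r : QA step k} (h : aug step k r = 0) (n : ℕ) : r ^ n ∈ Jsub step k n := by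
  have h1 : r ∈ Jsub step k 1 := by
    have := mem_span_of_aug_eq_zero step k h
    refine Submodule.span_mono ?_ this
    rintro _ ⟨w, hw, rfl⟩
    exact ⟨w, List.length_pos_of_ne_nil hw, rfl⟩
  have key : ∀ (m n : ℕ) (s t : QA step k), s ∈ Jsub step k m → t ∈ Jsub step k n →
      s * t ∈ Jsub step k (m + n) := by
    intro m n s t hs ht
    unfold Jsub at hs
    induction hs using Submodule.span_induction with
    | mem s h =>
      obtain ⟨w, hw, rfl⟩ := h
      unfold Jsub at ht
      induction ht using Submodule.span_induction with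
      | mem t h =>
        obtain ⟨v, hv, rfl⟩ := h
        rw [← word_append]
        exact word_mem_Jsub step k (by rw [List.length_append]; omega)
      | zero => rw [mul_zero]; exact Submodule.zero_mem _
      | add s t _ _ hs ht => rw [mul_add]; exact Submodule.add_mem _ hs ht
      | smul c s _ hs => rw [mul_smul_comm]; exact Submodule.smul_mem _ _ hs
    | zero => rw [zero_mul]; exact Submodule.zero_mem _
    | add s t _ _ hs ht => rw [add_mul]; exact Submodule.add_mem _ hs ht
    | smul c s _ hs => rw [smul_mul_assoc]; exact Submodule.smul_mem _ _ hs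
  induction n with
  | zero =>
    rw [pow_zero]
    have : word step k [] ∈ Jsub step k 0 := word_mem_Jsub step k (Nat.zero_le _)
    simpa using this
  | succ n ih => rw [pow_succ]; exact key n 1 _ _ ih h1

/-- elements of nonzero augmentation are units modulo `J m` -/
theorem isUnit_qm {k : Type*} [Field k] {m : ℕ} {r : QA step k} (h : aug step k r = 1) :
    IsUnit (qm step k m r) := by
  have h1 : aug step k (r - 1) = 0 := by rw [map_sub, h, map_one, sub_self]
  have h2 : IsNilpotent (qm step k m (r - 1)) := by
    refine ⟨m, ?_⟩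
    rw [← map_pow, qm_eq_zero_iff]
    exact pow_mem_Jsub step k h1 m
  have h3 : qm step k m r = 1 + qm step k m (r - 1) := by rw [map_sub, map_one]; abel
  rw [h3]
  exact h2.isUnit_one_add

end ideal

section finite

variable {L : Type} [Finite L] (step : L → L → Option (L × L))

instance finite_quot (m : ℕ) : Finite (QA step (ZMod 2) ⧸ J step (ZMod 2) m) := by
  let V := QA step (ZMod 2)
  have hfin : Set.Finite {w : List L | w.length < m} := List.finite_length_lt L m
  let T : Submodule (ZMod 2) V := Submodule.span (ZMod 2)
    ((word step (ZMod 2)) '' {w : List L | w.length < m})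
  have hT : Module.Finite (ZMod 2) T := Module.Finite.span_of_finite (ZMod 2) (hfin.image _)
  have : Finite T := Module.finite_of_finite (ZMod 2)
  have hsurj : Function.Surjective (fun t : T => qm step (ZMod 2) m t.1) := by
    intro y
    obtain ⟨r, rfl⟩ := qm_surjective step (ZMod 2) m y
    have : ∃ t ∈ T, r - t ∈ Jsub step (ZMod 2) m := by
      induction r using QAlg206.induction_on with
      | hw w =>
        by_cases h : w.length < m
        · exact ⟨word step (ZMod 2) w, Submodule.subset_span ⟨w, h, rfl⟩, by
            rw [sub_self]; exact Submodule.zero_mem _⟩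
        · exact ⟨0, Submodule.zero_mem _, by
            rw [sub_zero]; exact word_mem_Jsub step (ZMod 2) (by omega)⟩
      | hadd r s hr hs =>
        obtain ⟨t, ht, h1⟩ := hr
        obtain ⟨u, hu, h2⟩ := hs
        refine ⟨t + u, Submodule.add_mem _ ht hu, ?_⟩
        rw [show r + s - (t + u) = (r - t) + (s - u) by abel]
        exact Submodule.add_mem _ h1 h2
      | hsmul c r hr =>
        obtain ⟨t, ht, h1⟩ := hr
        exact ⟨c • t, Submodule.smul_mem _ _ ht, by
          rw [← smul_sub]; exact Submodule.smul_mem _ _ h1⟩
    obtain ⟨t, ht, h⟩ := this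
    refine ⟨⟨t, ht⟩, ?_⟩
    have := (qm_eq_zero_iff step (ZMod 2)).mpr h
    rw [map_sub, sub_eq_zero] at this
    exact this.symm
  exact Finite.of_surjective _ hsurj

end finite

section assembly

variable {L : Type} [Fintype L] (step : L → L → Option (L × L))

/-- the additive subgroup `J m` in the form used by `Tits370` -/
noncomputable def Jadd (m : ℕ) : AddSubgroup (QA step (ZMod 2)) :=
  (Jsub step (ZMod 2) m).toAddSubgroup

theorem mem_Jadd {m : ℕ} {r : QA step (ZMod 2)} :
    r ∈ Jadd step m ↔ r ∈ Jsub step (ZMod 2) m := Iff.rfl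

theorem isIdeal_Jadd (m : ℕ) : Tits370.IsIdeal (Jadd step m) where
  left a r hr := Jsub_mul_left step (ZMod 2) hr a
  right a r hr := Jsub_mul_right step (ZMod 2) hr a

theorem Jsub_mono {k : Type*} [CommRing k] {m n : ℕ} (h : m ≤ n) :
    Jsub step k n ≤ Jsub step k m := by
  apply Submodule.span_mono
  rintro _ ⟨w, hw, rfl⟩
  exact ⟨w, h.trans hw, rfl⟩

theorem third {I : Type} [Fintype I] [DecidableEq I] (hI : 3 ≤ Fintype.card I) :
    ∀ a b : I, ∃ c : I, c ≠ a ∧ c ≠ b := fun a b => K2F2.exists_third hI a b

/-- an element dying in all `St I (R / J m)` is a product of `x_ij(b)`, `b ∈ J m`, for all `m`. -/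
theorem mem_E_of_map_eq_one {I : Type} [Fintype I] [DecidableEq I] (hI : 3 ≤ Fintype.card I)
    {g : St I (QA step (ZMod 2))} (hg : ∀ m, St.map (qm step (ZMod 2) m) g = 1) (m : ℕ) :
    g ∈ Tits370.E I (Jadd step m) := by
  refine Tits370.ker_map_le_E (third hI) (qm step (ZMod 2) (m + m))
    (qm_surjective step (ZMod 2) _) (isIdeal_Jadd step m) ?_ (hg (m + m))
  intro r hr
  exact Jsub_add_le step (ZMod 2) m m ((qm_eq_zero_iff step (ZMod 2)).mp hr)

theorem two_eq_zero : (2 : QA step (ZMod 2)) = 0 := by
  have h : algebraMap (ZMod 2) (QA step (ZMod 2)) 2 = 2 := map_ofNat _ 2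
  rw [← h, show (2 : ZMod 2) = 0 from rfl, map_zero]

/-- **S0265 from the part B interfaces**, over `R = QA step (ZMod 2)`. -/
theorem final_QA {I : Type} [Fintype I] [DecidableEq I] (hI : 5 ≤ Fintype.card I)
    (hinf : ∀ n : ℕ, ∃ w : List L, n ≤ w.length ∧ ¬ IsZ step w)
    (hnil : ∀ A : Matrix I I (QA step (ZMod 2)),
      (∀ i j, aug step (ZMod 2) (A i j) = 0) → IsNilpotent A)
    (hstab : ∀ m, Function.Injective (mapI (R := QA step (ZMod 2) ⧸ J step (ZMod 2) m)
      (Function.Embedding.some : I ↪ Option I)))
    (htors : ∀ k : St I (QA step (ZMod 2)), toMat k = 1 → ∃ a : ℕ, k ^ (2 ^ a) = 1)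
    (hnoph : ∀ g : St I (QA step (ZMod 2)), (∀ m, g ∈ Tits370.E I (Jadd step m)) → g = 1) :
    ∃ (G : Type) (_ : Group G),
      Infinite G ∧ Group.IsFinitelyPresented G ∧ Group.ResiduallyFinite G ∧ IsPGroup 2 G := by
  have : Infinite (QA step (ZMod 2)) := infinite_of_words step (ZMod 2) hinf
  have hfp : Group.IsFinitelyPresented (St I (QA step (ZMod 2))) :=
    FP.steinberg_fp I (by rwa [Nat.card_eq_fintype_card]) (rels step (ZMod 2) (Fintype.equivFin L))
      (presEquiv (step := step) (k := ZMod 2) (Fintype.equivFin L)).toRingEquiv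
  refine final_abstract (I := I) (by omega) (two_eq_zero step) (aug step (ZMod 2)).toRingHom hfp
    hnil htors ?_
  intro g hg
  by_contra hcon
  push Not at hcon
  apply hg
  apply hnoph
  apply mem_E_of_map_eq_one step (by omega)
  intro m
  refine hcon (QA step (ZMod 2) ⧸ J step (ZMod 2) m) inferInstance (qm step (ZMod 2) m) ?_
  exact Cen370.finite_of_central (third (by omega)) fun k hk =>
    Cen370.ker_central_of_stab (hstab m) hk

end assembly

end Crest.Agent.R176.Final313
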