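import Crest.Agent.R176.Stab906
import Crest.Agent.R176.Final313B
import Crest.Agent.R176.Tors294

/-! Row 176, part B: STAB for `R = QA step (ZMod 2)` and for its quotients `R ⧸ J m`,
in exactly the shapes consumed by `Final313.final_QA` and `Cover294.htors_QA'`. -/

set_option autoImplicit false

namespace Crest.Agent.R176.StabQA906

open Crest.Agent.R176 Crest.Agent.R176.St Crest.Agent.R176.QAlg206 Crest.Agent.R176.Final313

theorem zmod2_eq_one {a : ZMod 2} (h : a ≠ 0) : a = 1 := by
  revert a; decide

theorem St_subsingleton {I R : Type*} [Ring R] [Subsingleton R] : Subsingleton (St I R) := by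
  constructor
  have h : ∀ g : St I R, g = 1 := by
    intro g
    induction g using St.induction with
    | h1 => rfl
    | hx i j h r g ih => rw [ih, mul_one, Subsingleton.elim r 0, x_zero]
  intro a b
  rw [h a, h b]

theorem hstab_QA {L : Type} (step : L → L → Option (L × L)) {I : Type} [Fintype I]
    [DecidableEq I] (hI : 9 ≤ Fintype.card I) (m : ℕ) :
    Function.Injective (mapI (R := QA step (ZMod 2) ⧸ J step (ZMod 2) m)
      (Function.Embedding.some : I ↪ Option I)) := by
  rcases Nat.eq_zero_or_pos m with rfl | hm
  · have h1 : (1 : QA step (ZMod 2)) ∈ J step (ZMod 2) 0 := by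
      have : word step (ZMod 2) [] ∈ Jsub step (ZMod 2) 0 :=
        word_mem_Jsub step (ZMod 2) (Nat.zero_le _)
      rw [mem_J, ← word_nil]
      exact this
    have h2 : J step (ZMod 2) 0 = ⊤ := (Ideal.eq_top_iff_one _).mpr h1
    have : Subsingleton (QA step (ZMod 2) ⧸ J step (ZMod 2) 0) :=
      Ideal.Quotient.subsingleton_iff.mpr h2
    have := St_subsingleton (I := I) (R := QA step (ZMod 2) ⧸ J step (ZMod 2) 0)
    exact Function.injective_of_subsingleton _
  · have hker : ∀ a : QA step (ZMod 2), a ∈ J step (ZMod 2) m →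
        (aug step (ZMod 2)).toRingHom a = 0 := by
      intro a ha
      have ha' : a ∈ Jsub step (ZMod 2) m := ha
      unfold Jsub at ha'
      induction ha' using Submodule.span_induction with
      | mem s h =>
        obtain ⟨w, hw, rfl⟩ := h
        change aug step (ZMod 2) (word step (ZMod 2) w) = 0
        rw [aug_word, if_neg]
        rintro rfl
        simp at hw
        omega
      | zero => exact map_zero _
      | add s t hs0 ht0 hs ht => rw [map_add, hs hs0, ht ht0, add_zero]
      | smul c s hs0 hs =>
        change aug step (ZMod 2) (c • s) = 0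
        have : aug step (ZMod 2) s = 0 := hs hs0
        rw [map_smul, this, smul_zero]
    let φ : QA step (ZMod 2) ⧸ J step (ZMod 2) m →+* ZMod 2 :=
      Ideal.Quotient.lift (J step (ZMod 2) m) (aug step (ZMod 2)).toRingHom hker
    refine Surj906.stab φ ?_ hI
    intro r hr
    obtain ⟨s, rfl⟩ := qm_surjective step (ZMod 2) m r
    have h1 : φ (qm step (ZMod 2) m s) = aug step (ZMod 2) s := Ideal.Quotient.lift_mk _ _ _
    rw [h1] at hr
    exact isUnit_qm step (zmod2_eq_one hr)

/-- elements of nonzero augmentation are units if all elements of zero augmentation are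
nilpotent -/
theorem isUnit_QA {L : Type} (step : L → L → Option (L × L))
    (hnil : ∀ a : QA step (ZMod 2), aug step (ZMod 2) a = 0 → IsNilpotent a)
    (r : QA step (ZMod 2)) (hr : aug step (ZMod 2) r ≠ 0) : IsUnit r := by
  have h1 : aug step (ZMod 2) (r - 1) = 0 := by
    rw [map_sub, zmod2_eq_one hr, map_one, sub_self]
  have h3 : r = 1 + (r - 1) := by abel
  rw [h3]
  exact (hnil _ h1).isUnit_one_add

/-- matrix-nilness implies nilness -/
theorem nil_of_matrix_nil {L : Type} (step : L → L → Option (L × L)) {I : Type} [Fintype I]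
    [DecidableEq I] [Nonempty I]
    (hnil : ∀ A : Matrix I I (QA step (ZMod 2)),
      (∀ i j, aug step (ZMod 2) (A i j) = 0) → IsNilpotent A)
    (a : QA step (ZMod 2)) (ha : aug step (ZMod 2) a = 0) : IsNilpotent a := by
  obtain ⟨i₀⟩ := (inferInstance : Nonempty I)
  obtain ⟨n, hn⟩ := hnil (Matrix.scalar I a) (by
    intro i j
    rw [Matrix.scalar_apply, Matrix.diagonal_apply]
    split_ifs
    · exact ha
    · exact map_zero _)
  refine ⟨n, ?_⟩
  rw [← map_pow] at hn
  have := congrFun (congrFun hn i₀) i₀
  rwa [Matrix.scalar_apply, Matrix.diagonal_apply_eq, Matrix.zero_apply] at this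

theorem stabFor_QA {L : Type} (step : L → L → Option (L × L))
    (hnil : ∀ a : QA step (ZMod 2), aug step (ZMod 2) a = 0 → IsNilpotent a) :
    Cover294.StabFor 9 (QA step (ZMod 2)) := by
  intro K _ hK
  classical
  exact Surj906.stab (aug step (ZMod 2)).toRingHom (isUnit_QA step hnil) hK

end Crest.Agent.R176.StabQA906
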