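import Crest.Agent.R176.Final313B
import Crest.Agent.R176.StabQA906
import Crest.Agent.R176.Tors294
import Crest.Agent.R176.Ph396
import Crest.Agent.R176.Gen.Bridge206

/-! Row 176, part B: the last assembly of S0265: everything except `EXC`, `PHASES` and part A
(matrix-nil + nonzero words) is discharged here. -/

set_option autoImplicit false
set_option linter.unusedVariables false
set_option linter.unusedSectionVars false

namespace Crest.Agent.R176.Final313

open Crest.Agent.R176 Crest.Agent.R176.St Crest.Agent.R176.QAlg206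

variable {L : Type} (step : L → L → Option (L × L))

theorem proj_Jsub {k : Type*} [CommRing k] {m n : ℕ} (h : n < m) {r : QA step k}
    (hr : r ∈ Jsub step k m) : GradedRing.proj (gr step k) n r = 0 := by
  unfold Jsub at hr
  induction hr using Submodule.span_induction with
  | mem s hs =>
    obtain ⟨w, hw, rfl⟩ := hs
    rw [proj_word, if_neg (by omega)]
  | zero => exact map_zero _
  | add s t _ _ hs ht => rw [map_add, hs, ht, add_zero]
  | smul c s _ hs =>
    have e : GradedRing.proj (gr step k) n (c • s) = c • GradedRing.proj (gr step k) n s := by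
      simp only [GradedRing.proj_apply, DirectSum.decompose_smul, DirectSum.smul_apply,
        Submodule.coe_smul]
    rw [e, hs, smul_zero]

theorem eq_zero_of_mem_all {k : Type*} [CommRing k] {r : QA step k}
    (hr : ∀ m, r ∈ Jsub step k m) : r = 0 := by
  have h : ∀ n, GradedRing.proj (gr step k) n r = 0 := fun n =>
    proj_Jsub step (Nat.lt_succ_self n) (hr (n + 1))
  classical
  rw [← DirectSum.sum_support_decompose (gr step k) r]
  apply Finset.sum_eq_zero
  intro n _
  exact h n

theorem map_qm_eq_one {I : Type} [Fintype I] [DecidableEq I] {m : ℕ}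
    {g : St I (QA step (ZMod 2))} (hg : g ∈ Tits370.E I (Jadd step m)) :
    St.map (qm step (ZMod 2) m) g = 1 := by
  unfold Tits370.E at hg
  induction hg using Subgroup.closure_induction with
  | mem g hg =>
    obtain ⟨i, j, h, r, hr, rfl⟩ := hg
    rw [map_x, (qm_eq_zero_iff step (ZMod 2)).mpr hr, x_zero]
  | one => exact map_one _
  | mul a b _ _ ha hb => rw [map_mul, ha, hb, one_mul]
  | inv a _ ha => rw [map_inv, ha, inv_one]

/-- phantoms have trivial matrix -/
theorem toMat_eq_one_of_phantom {I : Type} [Fintype I] [DecidableEq I]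
    {g : St I (QA step (ZMod 2))} (hg : ∀ m, g ∈ Tits370.E I (Jadd step m)) : toMat g = 1 := by
  have key : ∀ i j, ((toMat g).val - 1) i j = 0 := by
    intro i j
    apply eq_zero_of_mem_all step
    intro m
    rw [← qm_eq_zero_iff]
    have h1 : (toMat (St.map (qm step (ZMod 2) m) g)).val = 1 := by
      rw [map_qm_eq_one step (hg m), map_one, Units.val_one]
    rw [toMat_map] at h1
    have h2 := congrFun (congrFun h1 i) j
    rw [Matrix.map_apply] at h2
    rw [Matrix.sub_apply, map_sub, h2, Matrix.one_apply, Matrix.one_apply]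
    split_ifs
    · rw [map_one, sub_self]
    · rw [map_zero, sub_self]
  apply Units.ext
  rw [Units.val_one]
  ext i j
  have := key i j
  rw [Matrix.sub_apply, sub_eq_zero] at this
  exact this

theorem Jadd_eq (m : ℕ) : Jadd step m = Fpt396.J step m := by
  apply le_antisymm
  · intro r hr
    have hr' : r ∈ Jsub step (ZMod 2) m := hr
    unfold Jsub at hr'
    induction hr' using Submodule.span_induction with
    | mem s hs =>
      obtain ⟨w, hw, rfl⟩ := hs
      exact Fpt396.wd_mem_J hw
    | zero => exact AddSubgroup.zero_mem _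
    | add s t hs0 ht0 hs ht => exact AddSubgroup.add_mem _ (hs hs0) (ht ht0)
    | smul c s hs0 hs => exact Fpt396.smul_mem_addSubgroup _ c (hs hs0)
  · unfold Fpt396.J
    rw [AddSubgroup.closure_le]
    rintro _ ⟨w, hw, rfl⟩
    exact word_mem_Jsub step (ZMod 2) hw

/-- the conclusion of block EXC (for one phase structure) in the form consumed here: for every
phase structure of odd length `l` some deep enough element with trivial matrix has equal cyclic
and scalar covers. -/
def ExcFor (I : Type) [Fintype I] [DecidableEq I] : Prop :=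
  ∀ (l M : ℕ) [NeZero l] (_ : Ph396.WPhase step l M), ∃ m, ∀ g : St I (QA step (ZMod 2)),
    toMat g = 1 → g ∈ Tits370.E I (Fpt396.J step m) →
    Cover294.Blk I (Fin l) (QA step (ZMod 2))
        (St.map (Cover294.twist (gr step (ZMod 2)) (Cover294.cycFam l)) g)
      = Cover294.Blk I (Fin l) (QA step (ZMod 2)) (St.map (Matrix.scalar (Fin l)) g)

theorem hnoph_of_exc {I : Type} [Fintype I] [DecidableEq I] (hI : 3 ≤ Fintype.card I)
    {c : ℕ} (hst : Cover294.StabFor c (QA step (ZMod 2))) (hIc : c ≤ Fintype.card I)
    (hph : Ph396.PhaseAll step) (hexc : ExcFor step I)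
    (g : St I (QA step (ZMod 2))) (hg : ∀ m, g ∈ Tits370.E I (Jadd step m)) : g = 1 := by
  have : Nonempty I := Fintype.card_pos_iff.mp (by omega)
  have h1 : toMat g = 1 := toMat_eq_one_of_phantom step hg
  refine Cover294.eq_one_of_odd (gr step (ZMod 2)) g h1
    (Cover294.map_projZero_eq_one step hI g h1)
    (fun n p => Cover294.mapI_injective hst hIc _) ?_
  intro N₀
  obtain ⟨l, M, hl, hodd, ⟨p⟩⟩ := hph N₀
  have hnz : NeZero l := ⟨by rintro rfl; exact absurd hodd (by decide)⟩
  refine ⟨l, hnz, hl, hodd, ?_⟩
  obtain ⟨m, hm⟩ := hexc l M p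
  exact hm g h1 (by rw [← Jadd_eq]; exact hg m)

/-- **S0265 from part A and X5** (no phantoms, in the form of helper664/275). -/
theorem s0265_of_noPhantom [Fintype L]
    (hinf : ∀ n : ℕ, ∃ w : List L, n ≤ w.length ∧ ¬ IsZ step w)
    (hQ : Gen.QAll step)
    (hX5 : Cover294.StabFor 9 (QA step (ZMod 2)) → ∀ g : St (Fin 9) (QA step (ZMod 2)),
      toMat g = 1 → (∀ m, g ∈ Tits370.E (Fin 9) (Fpt396.J step m)) → g = 1) :
    ∃ (G : Type) (_ : Group G),
      Infinite G ∧ Group.IsFinitelyPresented G ∧ Group.ResiduallyFinite G ∧ IsPGroup 2 G := by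
  classical
  have hnil : ∀ A : Matrix (Fin 9) (Fin 9) (QA step (ZMod 2)),
      (∀ i j, aug step (ZMod 2) (A i j) = 0) → IsNilpotent A := fun A hA =>
    Gen.nilQA_of_QAll step hQ A hA
  have hst : Cover294.StabFor 9 (QA step (ZMod 2)) :=
    StabQA906.stabFor_QA step (StabQA906.nil_of_matrix_nil step hnil)
  refine final_QA step (I := Fin 9) (by simp) hinf hnil
    (StabQA906.hstab_QA step (by simp)) (Cover294.htors_QA' step hst (by simp) (by simp))
    (fun g hg => hX5 hst g (toMat_eq_one_of_phantom step hg)
      (fun m => by rw [← Jadd_eq]; exact hg m))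

/-- **S0265 from part A, PHASES and EXC.** -/
theorem s0265_of [Fintype L]
    (hinf : ∀ n : ℕ, ∃ w : List L, n ≤ w.length ∧ ¬ IsZ step w)
    (hQ : Gen.QAll step) (hph : Ph396.PhaseAll step)
    (hexc : ExcFor step (Fin 9)) :
    ∃ (G : Type) (_ : Group G),
      Infinite G ∧ Group.IsFinitelyPresented G ∧ Group.ResiduallyFinite G ∧ IsPGroup 2 G :=
  s0265_of_noPhantom step hinf hQ fun hst g _ hg =>
    hnoph_of_exc step (by simp) hst (by simp) hph hexc g fun m => by
      rw [Jadd_eq]; exact hg m

end Crest.Agent.R176.Final313
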