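import Crest.Agent.R176.StCol313

/-! Row 176, part B, STAB step 2 (helper115): words in the Steinberg generators, evaluation under
partial injections of the index set, words avoiding a set of columns. -/

set_option autoImplicit false
set_option linter.unusedVariables false
set_option linter.unusedSectionVars false

namespace Crest.Agent.R176.Inj115

open scoped commutatorElement
open Crest.Agent.R176 St

universe u v

variable {I J K : Type u} {R : Type v} [Ring R]

/-- total version of the generator -/
def xx [DecidableEq J] (i j : J) (r : R) : St J R := if h : i ≠ j then x i j h r else 1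

theorem xx_of_ne [DecidableEq J] {i j : J} (h : i ≠ j) (r : R) : xx i j r = x i j h r := by
  rw [xx, dif_pos h]

theorem xx_self [DecidableEq J] (i : J) (r : R) : xx i i r = 1 := by
  rw [xx, dif_neg (by simp)]

theorem xx_neg [DecidableEq J] (i j : J) (r : R) : xx i j (-r) = (xx i j r)⁻¹ := by
  by_cases h : i ≠ j
  · rw [xx_of_ne h, xx_of_ne h, x_neg]
  · rw [xx, xx, dif_neg h, dif_neg h, inv_one]

/-- words in the Steinberg generators -/
abbrev W (J : Type u) (R : Type v) := FreeGroup (StGen J R)

/-- the letter `x_ij(r)` -/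
def lt (i j : J) (h : i ≠ j) (r : R) : W J R := FreeGroup.of (stg i j h r)

/-- value of a letter under a partial map of the indices (undefined indices: value `1`) -/
def evl [DecidableEq K] (f : J → Option K) (i j : J) (r : R) : St K R :=
  match f i, f j with
  | some i', some j' => xx i' j' r
  | _, _ => 1

theorem evl_some [DecidableEq K] {f : J → Option K} {i j : J} {i' j' : K} (hi : f i = some i')
    (hj : f j = some j') (r : R) : evl f i j r = xx i' j' r := by
  unfold evl; rw [hi, hj]

theorem evl_none_left [DecidableEq K] {f : J → Option K} {i j : J} (hi : f i = none) (r : R) :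
    evl f i j r = 1 := by
  unfold evl; rw [hi]

theorem evl_neg [DecidableEq K] (f : J → Option K) (i j : J) (r : R) :
    evl f i j (-r) = (evl f i j r)⁻¹ := by
  unfold evl
  split
  · exact xx_neg _ _ _
  · rw [inv_one]

/-- evaluation of words under a partial map of the indices -/
def ev [DecidableEq K] (f : J → Option K) : W J R →* St K R :=
  FreeGroup.lift (fun g => evl f g.1.1.1 g.1.1.2 g.2)

@[simp] theorem ev_lt [DecidableEq K] (f : J → Option K) (i j : J) (h : i ≠ j) (r : R) :
    ev f (lt i j h r) = evl f i j r := by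
  unfold ev lt
  rw [FreeGroup.lift_apply_of]
  rfl

/-- the matrix of a word -/
def mt [Fintype J] [DecidableEq J] : W J R →* (Matrix J J R)ˣ :=
  FreeGroup.lift (fun g => elem g.1.1.1 g.1.1.2 g.1.2 g.2)

@[simp] theorem mt_lt [Fintype J] [DecidableEq J] (i j : J) (h : i ≠ j) (r : R) :
    mt (lt i j h r) = elem i j h r := by
  unfold mt lt
  rw [FreeGroup.lift_apply_of]
  rfl

theorem elem_neg' [Fintype J] [DecidableEq J] (i j : J) (h : i ≠ j) (r : R) :
    elem i j h (-r) = (elem i j h r)⁻¹ := by
  apply Units.ext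
  rw [elem_val, elem_inv_val]

/-- a letter or an inverse letter, with its value -/
def Lk (u : W J R) (a b : J) (h : a ≠ b) (s : R) : Prop :=
  u = lt a b h s ∨ u = (lt a b h (-s))⁻¹

theorem Lk.lt (a b : J) (h : a ≠ b) (s : R) : Lk (lt a b h s) a b h s := Or.inl rfl

theorem Lk.inv {u : W J R} {a b : J} {h : a ≠ b} {s : R} (hu : Lk u a b h s) :
    Lk u⁻¹ a b h (-s) := by
  rcases hu with rfl | rfl
  · right; rw [neg_neg]
  · left; rw [inv_inv]

theorem Lk.ev [DecidableEq K] {u : W J R} {a b : J} {h : a ≠ b} {s : R} (hu : Lk u a b h s)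
    (f : J → Option K) : ev f u = evl f a b s := by
  rcases hu with rfl | rfl
  · simp
  · rw [map_inv, ev_lt, evl_neg, inv_inv]

theorem Lk.mt [Fintype J] [DecidableEq J] {u : W J R} {a b : J} {h : a ≠ b} {s : R}
    (hu : Lk u a b h s) : mt u = elem a b h s := by
  rcases hu with rfl | rfl
  · simp
  · rw [map_inv, mt_lt, elem_neg', inv_inv]

/-- words all of whose letters have their column in `P` -/
def FA (P : J → Prop) : Subgroup (W J R) :=
  Subgroup.closure {w | ∃ i j h r, P j ∧ w = lt i j h r}

theorem lt_mem {P : J → Prop} {i j : J} (h : i ≠ j) (r : R) (hj : P j) : lt i j h r ∈ FA P :=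
  Subgroup.subset_closure ⟨i, j, h, r, hj, rfl⟩

theorem Lk.mem {P : J → Prop} {u : W J R} {a b : J} {h : a ≠ b} {s : R} (hu : Lk u a b h s)
    (hb : P b) : u ∈ FA P := by
  rcases hu with rfl | rfl
  · exact lt_mem h s hb
  · exact inv_mem (lt_mem h _ hb)

theorem FA_mono {P Q : J → Prop} (h : ∀ j, P j → Q j) : FA (R := R) P ≤ FA Q := by
  apply Subgroup.closure_mono
  rintro _ ⟨i, j, hij, r, hj, rfl⟩
  exact ⟨i, j, hij, r, h j hj, rfl⟩

theorem FA_induction {P : J → Prop} {p : W J R → Prop} (h1 : p 1)
    (hl : ∀ u a b h s w, Lk u a b h s → P b → w ∈ FA P → p w → p (u * w)) {w : W J R}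
    (hw : w ∈ FA P) : p w := by
  have key : w ∈ FA P ∧ p w := by
    unfold FA at hw
    induction hw using Subgroup.closure_induction_left with
    | one => exact ⟨one_mem _, h1⟩
    | mul_left a ha b _ ih =>
      obtain ⟨i, j, h, r, hj, rfl⟩ := ha
      exact ⟨mul_mem (lt_mem h r hj) ih.1, hl _ _ _ _ _ _ (Lk.lt i j h r) hj ih.1 ih.2⟩
    | inv_mul_cancel a ha b _ ih =>
      obtain ⟨i, j, h, r, hj, rfl⟩ := ha
      exact ⟨mul_mem (inv_mem (lt_mem h r hj)) ih.1,
        hl _ _ _ _ _ _ (Lk.lt i j h r).inv hj ih.1 ih.2⟩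
  exact key.2

/-- killing the letters with column outside `P` -/
noncomputable def ret (P : J → Prop) : W J R →* W J R :=
  open Classical in
  FreeGroup.lift (fun g => if P g.1.1.2 then FreeGroup.of g else 1)

theorem ret_lt_of (P : J → Prop) (i j : J) (h : i ≠ j) (r : R) (hj : P j) :
    ret P (lt i j h r) = lt i j h r := by
  unfold ret lt
  rw [FreeGroup.lift_apply_of, if_pos]
  exact hj

theorem ret_lt_of_not (P : J → Prop) (i j : J) (h : i ≠ j) (r : R) (hj : ¬ P j) :
    ret P (lt i j h r) = 1 := by
  unfold ret lt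
  rw [FreeGroup.lift_apply_of, if_neg]
  exact hj

theorem ret_of_mem {P : J → Prop} {w : W J R} (hw : w ∈ FA P) : ret P w = w := by
  have : FA (R := R) P ≤ (ret P).eqLocus (MonoidHom.id _) := by
    rw [FA, Subgroup.closure_le]
    rintro _ ⟨i, j, h, r, hj, rfl⟩
    exact ret_lt_of P i j h r hj
  exact this hw

theorem ret_mem {P Q : J → Prop} {w : W J R} (hw : w ∈ FA Q) :
    ret P w ∈ FA (fun j => P j ∧ Q j) := by
  have : FA (R := R) Q ≤ (FA (fun j => P j ∧ Q j)).comap (ret P) := by
    rw [FA, Subgroup.closure_le]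
    rintro _ ⟨i, j, h, r, hj, rfl⟩
    show ret P (lt i j h r) ∈ FA (fun j => P j ∧ Q j)
    by_cases hp : P j
    · rw [ret_lt_of P i j h r hp]
      exact lt_mem h r ⟨hp, hj⟩
    · rw [ret_lt_of_not P i j h r hp]
      exact one_mem _
  exact this hw

theorem FA_inter {P Q : J → Prop} {w : W J R} (hP : w ∈ FA P) (hQ : w ∈ FA Q) :
    w ∈ FA (fun j => P j ∧ Q j) := by
  have := ret_mem (P := P) hQ
  rwa [ret_of_mem hP] at this

section Mat

variable [Fintype J] [DecidableEq J] [Fintype K] [DecidableEq K]

theorem elem_mul_apply (a b : J) (h : a ≠ b) (s : R) (M : Matrix J J R) (i j : J) :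
    ((elem a b h s : (Matrix J J R)ˣ).val * M) i j = M i j + if i = a then s * M b j else 0 := by
  rw [elem_val, add_mul, one_mul, Matrix.add_apply]
  congr 1
  by_cases hi : i = a
  · subst hi
    rw [if_pos rfl, Matrix.single_mul_apply_same]
  · rw [if_neg hi, Matrix.single_mul_apply_of_ne _ _ _ _ _ hi]

theorem mt_Lk_mul {u : W J R} {a b : J} {h : a ≠ b} {s : R} (hu : Lk u a b h s) (w : W J R)
    (i j : J) : (mt (u * w)).val i j = (mt w).val i j + if i = a then s * (mt w).val b j else 0 := by
  rw [map_mul, Units.val_mul, hu.mt, elem_mul_apply]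

/-- a partial injection -/
def PInj (f : J → Option K) : Prop := ∀ i j k, f i = some k → f j = some k → i = j

theorem mt_col {P : J → Prop} {w : W J R} (hw : w ∈ FA P) :
    ∀ j, ¬ P j → ∀ i, (mt w).val i j = if i = j then 1 else 0 := by
  refine FA_induction (p := fun w => ∀ j, ¬ P j → ∀ i, (mt w).val i j = if i = j then 1 else 0)
    ?_ ?_ hw
  · intro j _ i; rw [map_one, Units.val_one, Matrix.one_apply]
  · intro u a b h s w hu hb hw ih j hj i
    rw [mt_Lk_mul hu, ih j hj i, ih j hj b, if_neg (show b ≠ j from fun e => hj (e ▸ hb)), mul_zero]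
    simp

theorem toMat_ev {f : J → Option K} (hf : PInj f) {w : W J R}
    (hw : w ∈ FA (fun j => f j ≠ none)) :
    ∀ i j i' j', f i = some i' → f j = some j' →
      (toMat (ev f w)).val i' j' = (mt w).val i j := by
  refine FA_induction (p := fun w => ∀ i j i' j', f i = some i' → f j = some j' →
      (toMat (ev f w)).val i' j' = (mt w).val i j) ?_ ?_ hw
  · intro i j i' j' hi hj
    rw [map_one, map_one, map_one, Units.val_one, Units.val_one, Matrix.one_apply,
      Matrix.one_apply]
    by_cases hij : i = j
    · subst hij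
      have : i' = j' := by rw [hi] at hj; exact Option.some_injective _ hj
      simp [this]
    · have : i' ≠ j' := by
        rintro rfl; exact hij (hf _ _ _ hi hj)
      simp [hij, this]
  · intro u a b h s w hu hb hw ih i j i' j' hi hj
    rw [mt_Lk_mul hu, map_mul, hu.ev, map_mul, Units.val_mul]
    obtain ⟨b', hb'⟩ := Option.ne_none_iff_exists'.mp hb
    rcases ha : f a with _ | a'
    · have hia : i ≠ a := by rintro rfl; rw [ha] at hi; exact absurd hi (by simp)
      rw [evl_none_left ha, map_one, Units.val_one, one_mul, ih i j i' j' hi hj, if_neg hia,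
        add_zero]
    · have hab : a' ≠ b' := by rintro rfl; exact h (hf _ _ _ ha hb')
      rw [evl_some ha hb', xx_of_ne hab, toMat_x, elem_mul_apply, ih i j i' j' hi hj,
        ih b j b' j' hb' hj]
      by_cases hia : i = a
      · subst hia
        have : i' = a' := by rw [hi] at ha; exact Option.some_injective _ ha
        simp [this]
      · have : i' ≠ a' := by rintro rfl; exact hia (hf _ _ _ hi ha)
        simp [hia, this]

end Mat

end Crest.Agent.R176.Inj115
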