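import Crest.Agent.R176.Inj115A

/-! Row 176, part B, STAB step 2 (helper115): the evaluation `τ t` (rename the new index to a spare
index `t`), its correction `θ t`, multiplicativity on the stabiliser, independence of `t`. -/

set_option autoImplicit false
set_option linter.unusedVariables false
set_option linter.unusedSectionVars false

namespace Crest.Agent.R176.Inj115

open scoped commutatorElement
open Crest.Agent.R176 St

universe u v

variable {I : Type u} {R : Type v} [Ring R]

/-- subgroup generated by the generators with column `≠ o` -/
def Qs (K : Type u) (R : Type v) [Ring R] (o : K) : Subgroup (St K R) :=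
  Subgroup.closure {g | ∃ i j h r, j ≠ o ∧ g = x i j h r}

theorem x_mem_Qs {K : Type u} {o i j : K} (h : i ≠ j) (r : R) (hj : j ≠ o) :
    x i j h r ∈ Qs K R o := Subgroup.subset_closure ⟨i, j, h, r, hj, rfl⟩

theorem Qs_induction {K : Type u} {o : K} {p : St K R → Prop} (h1 : p 1)
    (hl : ∀ i j h r w, j ≠ o → w ∈ Qs K R o → p w → p (x i j h r * w)) {w : St K R}
    (hw : w ∈ Qs K R o) : p w := by
  have key : w ∈ Qs K R o ∧ p w := by
    unfold Qs at hw
    induction hw using Subgroup.closure_induction_left with
    | one => exact ⟨one_mem _, h1⟩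
    | mul_left a ha b _ ih =>
      obtain ⟨i, j, h, r, hj, rfl⟩ := ha
      exact ⟨mul_mem (x_mem_Qs h r hj) ih.1, hl _ _ _ _ _ hj ih.1 ih.2⟩
    | inv_mul_cancel a ha b _ ih =>
      obtain ⟨i, j, h, r, hj, rfl⟩ := ha
      rw [← x_neg]
      exact ⟨mul_mem (x_mem_Qs h (-r) hj) ih.1, hl _ _ _ _ _ hj ih.1 ih.2⟩
  exact key.2

/-- surjective `K₂`-stability: an element of the Steinberg group whose matrix fixes the basis
vector `e_o` is a product of generators with column `≠ o`. -/
def SURJ (R : Type v) [Ring R] : Prop :=
  ∀ (K : Type u) [Fintype K] [DecidableEq K] (o : K), 3 ≤ Fintype.card K →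
    ∀ g : St K R, (∀ i, (toMat g).val i o = if i = o then 1 else 0) → g ∈ Qs K R o

section Row

variable {K : Type u} [Fintype K] [DecidableEq K]

/-- moving a row through an element fixing the column `t` -/
theorem row_mul_of_mem {t : K} {g : St K R} (hg : g ∈ Qs K R t) :
    ∀ b : K → R, row t b * g = g * row t (fun j => ∑ l, if l = t then 0 else b l * (toMat g).val l j) := by
  refine Qs_induction (p := fun g => ∀ b : K → R, row t b * g =
    g * row t (fun j => ∑ l, if l = t then 0 else b l * (toMat g).val l j)) ?_ ?_ hg
  · intro b
    rw [mul_one, one_mul]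
    apply row_congr
    intro j hj
    rw [Finset.sum_eq_single j]
    · rw [if_neg hj, map_one, Units.val_one, Matrix.one_apply_eq, mul_one]
    · intro l _ hl
      rw [map_one, Units.val_one, Matrix.one_apply_ne hl, mul_zero, ite_self]
    · intro h; exact absurd (Finset.mem_univ _) h
  · intro i j h r g hj hgm ih b
    by_cases hi : i = t
    · subst hi
      have h1 : Commute (row i b) (x i j h r) := by
        rw [← row_single i j h]
        unfold row
        rw [commute_iff_eq, ← map_mul, ← map_mul, mul_comm]
      rw [← mul_assoc, h1.eq, mul_assoc, ih, mul_assoc]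
      congr 2
      apply row_congr
      intro k hk
      apply Finset.sum_congr rfl
      intro l _
      by_cases hl : l = i
      · rw [if_pos hl, if_pos hl]
      · rw [if_neg hl, if_neg hl, map_mul, Units.val_mul, toMat_x, elem_mul_apply, if_neg hl,
          add_zero]
    · have h1 : row t b * x i j h r = x i j h r * row t (b + Pi.single j (b i * r)) := by
        rw [x_mul_row t i j h hi hj]
        congr 2
        rw [Pi.add_apply, Pi.single_eq_of_ne h, add_zero, add_sub_cancel_right]
      rw [← mul_assoc, h1, mul_assoc, ih, mul_assoc]
      congr 2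
      apply row_congr
      intro k hk
      have h2 : ∀ l, (if l = t then (0 : R) else (b + Pi.single j (b i * r) : K → R) l * (toMat g).val l k) =
          (if l = t then 0 else b l * (toMat g).val l k) +
            (if l = j then b i * r * (toMat g).val j k else 0) := by
        intro l
        by_cases hl : l = t
        · subst hl
          rw [if_pos rfl, if_pos rfl, if_neg (Ne.symm hj), add_zero]
        · rw [if_neg hl, if_neg hl, Pi.add_apply, add_mul]
          congr 1
          by_cases hlj : l = j
          · subst hlj; rw [Pi.single_eq_same, if_pos rfl]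
          · rw [Pi.single_eq_of_ne hlj, if_neg hlj, zero_mul]
      have h3 : ∀ l, (if l = t then (0 : R) else b l * (toMat (x i j h r * g)).val l k) =
          (if l = t then 0 else b l * (toMat g).val l k) +
            (if l = i then b i * (r * (toMat g).val j k) else 0) := by
        intro l
        rw [map_mul, Units.val_mul, toMat_x, elem_mul_apply]
        by_cases hl : l = t
        · subst hl
          rw [if_pos rfl, if_pos rfl, if_neg (Ne.symm hi), add_zero]
        · rw [if_neg hl, if_neg hl, mul_add]
          congr 1
          by_cases hli : l = i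
          · subst hli; rw [if_pos rfl, if_pos rfl]
          · rw [if_neg hli, if_neg hli, mul_zero]
      simp only [h2, h3]
      rw [Finset.sum_add_distrib, Finset.sum_add_distrib, Finset.sum_ite_eq' Finset.univ j,
        Finset.sum_ite_eq' Finset.univ i, if_pos (Finset.mem_univ _), if_pos (Finset.mem_univ _),
        mul_assoc]

end Row

variable [Fintype I] [DecidableEq I]

/-- rename the new index `none` to the spare index `t`, drop `t` -/
def nu (t : I) : Option I → Option I := fun j =>
  match j with
  | none => some t
  | some i => if i = t then none else some i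

@[simp] theorem nu_none (t : I) : nu t none = some t := rfl

theorem nu_some_self (t : I) : nu t (some t) = none := by simp [nu]

theorem nu_some_of_ne {t i : I} (h : i ≠ t) : nu t (some i) = some i := by simp [nu, h]

theorem nu_inj (t : I) : PInj (nu t) := by
  intro i j k hi hj
  rcases i with _ | i <;> rcases j with _ | j
  · rfl
  · by_cases hjt : j = t
    · subst hjt; rw [nu_some_self] at hj; simp at hj
    · rw [nu_some_of_ne hjt] at hj; rw [nu_none] at hi
      exact absurd ((Option.some_injective _ hj).trans (Option.some_injective _ hi).symm) hjt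
  · by_cases hit : i = t
    · subst hit; rw [nu_some_self] at hi; simp at hi
    · rw [nu_some_of_ne hit] at hi; rw [nu_none] at hj
      exact absurd ((Option.some_injective _ hi).trans (Option.some_injective _ hj).symm) hit
  · by_cases hit : i = t
    · subst hit; rw [nu_some_self] at hi; simp at hi
    · by_cases hjt : j = t
      · subst hjt; rw [nu_some_self] at hj; simp at hj
      · rw [nu_some_of_ne hit] at hi; rw [nu_some_of_ne hjt] at hj
        rw [hi.trans hj.symm]

theorem nu_ne_none_iff (t : I) (j : Option I) : nu t j ≠ none ↔ j ≠ some t := by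
  rcases j with _ | j
  · simp
  · by_cases h : j = t
    · subst h; simp [nu_some_self]
    · simp [nu_some_of_ne h, h]

/-- evaluation: new index `:=` spare index `t` -/
def tau (t : I) : W (Option I) R →* St I R := ev (nu t)

/-- words whose letters have column `≠ some t` -/
abbrev FT (t : I) : Subgroup (W (Option I) R) := FA (fun j => j ≠ some t)

/-- the matrix of the word fixes `e_none` -/
def Stb (w : W (Option I) R) : Prop := ∀ i, (mt w).val i none = if i = none then 1 else 0

theorem Stb.one : Stb (1 : W (Option I) R) := by
  intro i; rw [map_one, Units.val_one, Matrix.one_apply]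

theorem Stb.mul {w w' : W (Option I) R} (h : Stb w) (h' : Stb w') : Stb (w * w') := by
  intro i
  rw [map_mul, Units.val_mul, Matrix.mul_apply, Finset.sum_eq_single none]
  · rw [h' none, if_pos rfl, mul_one, h i]
  · intro l _ hl
    rw [h' l, if_neg hl, mul_zero]
  · intro h; exact absurd (Finset.mem_univ _) h

/-- the correction row -/
def dl (t : I) (w : W (Option I) R) : I → R := fun j =>
  (mt w).val (some t) (some j) - (mt w).val none (some j)

/-- the corrected evaluation -/
def th (t : I) (w : W (Option I) R) : St I R := tau t w * row t (dl t w)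

theorem toMat_tau {t : I} {w : W (Option I) R} (hw : w ∈ FT t) :
    ∀ i j i' j', nu t i = some i' → nu t j = some j' →
      (toMat (tau t w)).val i' j' = (mt w).val i j := by
  apply toMat_ev (nu_inj t)
  exact FA_mono (fun j hj => (nu_ne_none_iff t j).mpr hj) hw

theorem tau_mem (hS : SURJ.{u, v} R) (hc : 3 ≤ Fintype.card I) {t : I} {w : W (Option I) R}
    (hw : w ∈ FT t) (hs : Stb w) : tau t w ∈ Qs I R t := by
  apply hS I t hc
  intro i
  by_cases hi : i = t
  · subst hi
    rw [toMat_tau hw none none i i (nu_none i) (nu_none i), hs none, if_pos rfl, if_pos rfl]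
  · rw [toMat_tau hw (some i) none i t (nu_some_of_ne hi) (nu_none t), hs, if_neg hi]
    simp

theorem th_mul (hS : SURJ.{u, v} R) (hc : 3 ≤ Fintype.card I) {t : I} {w w' : W (Option I) R}
    (hw : w ∈ FT t) (hw' : w' ∈ FT t) (hs : Stb w) (hs' : Stb w') :
    th t (w * w') = th t w * th t w' := by
  unfold th
  rw [mul_assoc (tau t w), ← mul_assoc (row t (dl t w)), row_mul_of_mem (tau_mem hS hc hw' hs'),
    mul_assoc (tau t w'), ← row_add, map_mul, mul_assoc]
  congr 2
  apply row_congr
  intro j hj
  have e1 : dl t (w * w') j = ∑ l : Option I, ((mt w).val (some t) l - (mt w).val none l) *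
      (mt w').val l (some j) := by
    unfold dl
    rw [map_mul, Units.val_mul, Matrix.mul_apply, Matrix.mul_apply, ← Finset.sum_sub_distrib]
    apply Finset.sum_congr rfl
    intro l _
    rw [sub_mul]
  rw [e1, Fintype.sum_option, hs, hs, Pi.add_apply]
  have e2 : ∑ i : I, ((mt w).val (some t) (some i) - (mt w).val none (some i)) *
      (mt w').val (some i) (some j) =
      (∑ l, if l = t then 0 else dl t w l * (toMat (tau t w')).val l j) +
        (mt w').val (some t) (some j) := by
    rw [← Finset.add_sum_erase _ _ (Finset.mem_univ t), mt_col hw (some t) (by simp),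
      mt_col hw (some t) (by simp), if_pos rfl, if_neg (by simp), sub_zero, one_mul, add_comm]
    congr 1
    rw [← Finset.add_sum_erase (a := t) (f := fun l => if l = t then 0 else
      dl t w l * (toMat (tau t w')).val l j) _ (Finset.mem_univ t), if_pos rfl, zero_add]
    apply Finset.sum_congr rfl
    intro l hl
    have hlt : l ≠ t := Finset.ne_of_mem_erase hl
    rw [if_neg hlt, toMat_tau hw' (some l) (some j) l j (nu_some_of_ne hlt) (nu_some_of_ne hj)]
    rfl
  rw [e2]
  simp only [dl]
  simp only [reduceCtorEq, if_false, if_true, zero_sub, neg_mul, one_mul]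
  abel

theorem th_congr {t : I} {w w' : W (Option I) R} (h : tau t w = tau t w') (hm : mt w = mt w') :
    th t w = th t w' := by
  unfold th dl
  rw [h, hm]

theorem th_one (t : I) : th t (1 : W (Option I) R) = 1 := by
  unfold th
  rw [map_one, one_mul, ← row_zero t]
  apply row_congr
  intro j hj
  unfold dl
  rw [map_one, Units.val_one, Matrix.one_apply_ne (by simp [Ne.symm hj]),
    Matrix.one_apply_ne (by simp), sub_zero]
  rfl

theorem th_inv (hS : SURJ.{u, v} R) (hc : 3 ≤ Fintype.card I) {t : I} {w : W (Option I) R}
    (hw : w ∈ FT t) (hs : Stb w) (hs' : Stb w⁻¹) : th t w⁻¹ = (th t w)⁻¹ := by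
  rw [eq_inv_iff_mul_eq_one, ← th_mul hS hc (inv_mem hw) hw hs' hs, inv_mul_cancel, th_one]

/-- values on the basic letters -/
theorem th_lt_none {t j : I} (h : (none : Option I) ≠ some j) (r : R) (hj : j ≠ t) :
    th t (lt none (some j) h r) = 1 := by
  unfold th
  have e : tau t (lt none (some j) h r) = row t (Pi.single j r) := by
    rw [row_single t j (Ne.symm hj)]
    unfold tau
    rw [ev_lt, evl_some (nu_none t) (nu_some_of_ne hj), xx_of_ne]
  rw [e, ← row_add, ← row_zero t]
  apply row_congr
  intro k hk
  rw [Pi.add_apply]
  unfold dl
  rw [mt_lt, elem_val, Matrix.add_apply, Matrix.add_apply,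
    Matrix.one_apply_ne (by simp [Ne.symm hk]), Matrix.one_apply_ne (by simp)]
  by_cases hkj : k = j
  · subst hkj; simp [Matrix.single_apply]
  · have : some j ≠ some k := by simpa using Ne.symm hkj
    simp [Matrix.single_apply, Pi.single_eq_of_ne hkj, Ne.symm hkj]

theorem th_lt_some {t i j : I} (h : some i ≠ some j) (r : R) (hj : j ≠ t) :
    th t (lt (some i) (some j) h r) = x i j (fun e => h (e ▸ rfl)) r := by
  unfold th
  by_cases hi : i = t
  · subst hi
    have e : tau i (lt (some i) (some j) h r) = 1 := by
      unfold tau
      rw [ev_lt, evl_none_left (nu_some_self i)]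
    rw [e, one_mul, ← row_single]
    apply row_congr
    intro k hk
    unfold dl
    rw [mt_lt, elem_val, Matrix.add_apply, Matrix.add_apply,
      Matrix.one_apply_ne (by simp [Ne.symm hk]), Matrix.one_apply_ne (by simp)]
    by_cases hkj : k = j
    · subst hkj; simp [Matrix.single_apply]
    · simp [Matrix.single_apply, Pi.single_eq_of_ne hkj, Ne.symm hkj]
  · have e : tau t (lt (some i) (some j) h r) = x i j (fun e => h (e ▸ rfl)) r := by
      unfold tau
      rw [ev_lt, evl_some (nu_some_of_ne hi) (nu_some_of_ne hj), xx_of_ne]
    rw [e]
    have : row t (dl t (lt (some i) (some j) h r)) = 1 := by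
      rw [← row_zero t]
      apply row_congr
      intro k hk
      unfold dl
      rw [mt_lt, elem_val, Matrix.add_apply, Matrix.add_apply,
        Matrix.one_apply_ne (by simp [Ne.symm hk]), Matrix.one_apply_ne (by simp)]
      simp [Matrix.single_apply, hi]
    rw [this, mul_one]

end Crest.Agent.R176.Inj115
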