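import Crest.Agent.R176.Inj115B

/-! Row 176, part B, STAB step 2 (helper115): independence of the spare index. -/

set_option autoImplicit false
set_option linter.unusedVariables false
set_option linter.unusedSectionVars false

namespace Crest.Agent.R176.Inj115

open scoped commutatorElement
open Crest.Agent.R176 St

universe u v

variable {I : Type u} {R : Type v} [Ring R]

theorem row_commute_row {K : Type u} [Fintype K] [DecidableEq K] (k l : K) (a b : K → R)
    (hak : a l = 0) (hbk : b k = 0) : Commute (row k a) (row l b) := by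
  by_cases hkl : k = l
  · subst hkl
    unfold row
    rw [commute_iff_eq, ← map_mul, ← map_mul, mul_comm]
  have key : ∀ s : Finset K, l ∉ s → ∀ t : Finset K, k ∉ t →
      Commute (row k (∑ i ∈ s, Pi.single i (a i))) (row l (∑ i ∈ t, Pi.single i (b i))) := by
    intro s
    induction s using Finset.induction_on with
    | empty => intro _ t _; simp
    | insert i s his ih =>
      intro hl t hk
      rw [Finset.sum_insert his, row_add]
      apply Commute.mul_left _ (ih (fun h => hl (Finset.mem_insert_of_mem h)) t hk)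
      by_cases hik : i = k
      · subst hik; simp
      rw [row_single k i (Ne.symm hik)]
      clear ih
      induction t using Finset.induction_on with
      | empty => simp
      | insert j t hjt iht =>
        rw [Finset.sum_insert hjt, row_add]
        apply Commute.mul_right _ (iht (fun h => hk (Finset.mem_insert_of_mem h)))
        by_cases hjl : j = l
        · subst hjl; simp
        rw [row_single l j (Ne.symm hjl)]
        apply x_commute
        · rintro rfl; exact hl (Finset.mem_insert_self _ _)
        · rintro rfl; exact hk (Finset.mem_insert_self _ _)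
  have e1 : a = ∑ i ∈ Finset.univ.erase l, Pi.single i (a i) := by
    conv_lhs => rw [← Finset.univ_sum_single a]
    rw [← Finset.add_sum_erase _ _ (Finset.mem_univ l), hak, Pi.single_zero, zero_add]
  have e2 : b = ∑ i ∈ Finset.univ.erase k, Pi.single i (b i) := by
    conv_lhs => rw [← Finset.univ_sum_single b]
    rw [← Finset.add_sum_erase _ _ (Finset.mem_univ k), hbk, Pi.single_zero, zero_add]
  rw [e1, e2]
  exact key _ (Finset.notMem_erase _ _) _ (Finset.notMem_erase _ _)

theorem ev_map {J K L : Type u} [DecidableEq K] [DecidableEq L] (f : J → Option K) (e : K ↪ L)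
    (w : W J R) : ev (fun j => (f j).map e) w = mapI e (ev f w) := by
  have : ev (R := R) (fun j => (f j).map e) = (mapI e).comp (ev f) := by
    apply FreeGroup.ext_hom
    rintro ⟨⟨⟨i, j⟩, hij⟩, r⟩
    show ev _ (lt i j hij r) = mapI e (ev f (lt i j hij r))
    rw [ev_lt, ev_lt]
    rcases hi : f i with _ | i'
    · rw [evl_none_left (by simp [hi]), evl_none_left hi, map_one]
    · rcases hj : f j with _ | j'
      · unfold evl; simp [hi, hj]
      · rw [evl_some (f := f) hi hj, evl_some (i' := e i') (j' := e j') (by simp [hi]) (by simp [hj])]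
        by_cases h : i' = j'
        · subst h; rw [xx_self, xx_self, map_one]
        · rw [xx_of_ne h, xx_of_ne (e.injective.ne h), mapI_x]
  exact DFunLike.congr_fun this w

variable [Fintype I] [DecidableEq I]

theorem Stb.inv {w : W (Option I) R} (h : Stb w) : Stb w⁻¹ := by
  intro i
  have h1 : ((mt w⁻¹).val * (mt w).val) i none = if i = none then 1 else 0 := by
    rw [← Units.val_mul, ← map_mul, inv_mul_cancel, map_one, Units.val_one, Matrix.one_apply]
  rw [Matrix.mul_apply, Finset.sum_eq_single none] at h1
  · rwa [h none, if_pos rfl, mul_one] at h1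
  · intro l _ hl
    rw [h l, if_neg hl, mul_zero]
  · intro h; exact absurd (Finset.mem_univ _) h

theorem Stb.lt {i j : Option I} (h : i ≠ j) (r : R) (hj : j ≠ none) : Stb (lt i j h r) := by
  intro k
  rw [mt_lt, elem_val, Matrix.add_apply, Matrix.one_apply]
  simp [Matrix.single_apply, hj]

/-- predicate: column outside `{t, t'}` -/
def P2 (t t' : I) : Option I → Prop := fun j => j ≠ some t ∧ j ≠ some t'

theorem FA_P2_le {t t' : I} : FA (R := R) (P2 t t') ≤ FT t := FA_mono fun _ h => h.1

theorem FA_P2_le' {t t' : I} : FA (R := R) (P2 t t') ≤ FT t' := FA_mono fun _ h => h.2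

/-- indices different from `t, t'` -/
abbrev K0 (t t' : I) := {j : Option I // j ≠ some t ∧ j ≠ some t'}

/-- drop the indices `t, t'` -/
def kap (t t' : I) : Option I → Option (K0 t t') := fun j =>
  if h : j ≠ some t ∧ j ≠ some t' then some ⟨j, h⟩ else none

theorem kap_of {t t' : I} {j : Option I} (h : j ≠ some t ∧ j ≠ some t') :
    kap t t' j = some ⟨j, h⟩ := by unfold kap; rw [dif_pos h]

theorem kap_of_not {t t' : I} {j : Option I} (h : ¬ (j ≠ some t ∧ j ≠ some t')) :
    kap t t' j = none := by unfold kap; rw [dif_neg h]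

theorem kap_inj (t t' : I) : PInj (kap t t') := by
  intro i j k hi hj
  by_cases h : i ≠ some t ∧ i ≠ some t'
  · by_cases h' : j ≠ some t ∧ j ≠ some t'
    · rw [kap_of h] at hi; rw [kap_of h'] at hj
      have := (Option.some_injective _ hi).trans (Option.some_injective _ hj).symm
      exact congrArg Subtype.val this
    · rw [kap_of_not h'] at hj; simp at hj
  · rw [kap_of_not h] at hi; simp at hi

theorem kap_ne_none_iff (t t' : I) (j : Option I) : kap t t' j ≠ none ↔ P2 t t' j := by
  by_cases h : j ≠ some t ∧ j ≠ some t'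
  · rw [kap_of h]; exact ⟨fun _ => h, fun _ => by simp⟩
  · rw [kap_of_not h]; exact ⟨fun h' => absurd rfl h', fun h' => absurd h' h⟩

theorem toMat_kap {t t' : I} {w : W (Option I) R} (hw : w ∈ FA (P2 t t')) :
    ∀ i j : K0 t t', (toMat (ev (kap t t') w)).val i j = (mt w).val i.1 j.1 := by
  intro i j
  apply toMat_ev (kap_inj t t') (FA_mono (fun j hj => (kap_ne_none_iff t t' j).mpr hj) hw)
  · rw [kap_of i.2]
  · rw [kap_of j.2]

/-- embedding of the remaining indices, new index `none := t` -/
def et (t t' : I) (htt : t ≠ t') : K0 t t' ↪ I where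
  toFun j := match j.1 with
    | none => t
    | some i => i
  inj' := by
    rintro ⟨i, hi⟩ ⟨j, hj⟩ h
    apply Subtype.ext
    rcases i with _ | i <;> rcases j with _ | j
    · rfl
    · exact absurd (congrArg some h).symm hj.1
    · exact absurd (congrArg some h) hi.1
    · exact congrArg some h

theorem et_ne (t t' : I) (htt : t ≠ t') (j : K0 t t') : et t t' htt j ≠ t' := by
  rcases j with ⟨_ | j, hj⟩
  · exact htt
  · intro h; exact hj.2 (congrArg some h)

theorem nu_of_P2 {t t' : I} (htt : t ≠ t') (j : Option I) (h : P2 t t' j) :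
    nu t j = some (et t t' htt ⟨j, h⟩) := by
  rcases j with _ | j
  · rfl
  · have hj : j ≠ t := by rintro rfl; exact h.1 rfl
    rw [nu_some_of_ne hj]; rfl

/-- the row `t'` of the matrix of `w`, with `none` renamed to `t` -/
def rh (t t' : I) (w : W (Option I) R) : I → R := fun j =>
  (mt w).val (some t') (if j = t then none else some j)

theorem mapI_mem_Qs {K : Type u} (e : K ↪ I) (o : I) (he : ∀ k, e k ≠ o) (g : St K R) :
    mapI e g ∈ Qs I R o := by
  induction g using St.induction with
  | h1 => rw [map_one]; exact one_mem _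
  | hx i j h r g ih =>
    rw [map_mul, mapI_x]
    exact mul_mem (x_mem_Qs _ _ (he j)) ih

theorem toMat_mapI {K L : Type u} [Fintype K] [DecidableEq K] [Fintype L] [DecidableEq L]
    (e : K ↪ L) (g : St K R) (i j : K) :
    (toMat (mapI e g)).val (e i) (e j) = (toMat g).val i j := by
  induction g using St.induction generalizing i j with
  | h1 =>
    rw [map_one, map_one, map_one, Units.val_one, Units.val_one, Matrix.one_apply,
      Matrix.one_apply]
    simp only [e.injective.eq_iff]
  | hx a b h r g ih =>
    rw [map_mul, map_mul, map_mul, mapI_x, toMat_x, toMat_x, Units.val_mul, Units.val_mul,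
      elem_mul_apply, elem_mul_apply, ih, ih]
    simp only [e.injective.eq_iff]

theorem tau_eq {t t' : I} (htt : t ≠ t') {w : W (Option I) R} (hw : w ∈ FA (P2 t t')) :
    tau t w = mapI (et t t' htt) (ev (kap t t') w) * row t' (rh t t' w) := by
  refine FA_induction (p := fun w => tau t w = mapI (et t t' htt) (ev (kap t t') w) *
    row t' (rh t t' w)) ?_ ?_ hw
  · rw [map_one, map_one, map_one, one_mul, ← row_zero t']
    apply row_congr
    intro j hj
    unfold rh
    rw [map_one, Units.val_one]
    by_cases h : j = t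
    · subst h; rw [if_pos rfl, Matrix.one_apply_ne (by simp)]; rfl
    · rw [if_neg h, Matrix.one_apply_ne (by simpa using Ne.symm hj)]; rfl
  · intro u a b h s w hu hb hw ih
    have hnb := nu_of_P2 htt b hb
    by_cases hat' : a = some t'
    · subst hat'
      have e1 : tau t u = x t' (et t t' htt ⟨b, hb⟩) (Ne.symm (et_ne t t' htt _)) s := by
        unfold tau
        rw [hu.ev, evl_some (nu_some_of_ne (Ne.symm htt)) hnb, xx_of_ne]
      have e2 : ev (kap t t') u = 1 := by
        rw [hu.ev, evl_none_left (kap_of_not (fun h => h.2 rfl))]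
      rw [map_mul, map_mul, e1, e2, one_mul, ih, ← row_single, ← mul_assoc,
        row_mul_of_mem (mapI_mem_Qs _ _ (et_ne t t' htt) _), mul_assoc, ← row_add]
      congr 1
      apply row_congr
      intro j hj
      rw [Pi.add_apply]
      unfold rh
      rw [mt_Lk_mul hu, if_pos rfl, add_comm]
      congr 1
      rw [Finset.sum_eq_single (et t t' htt ⟨b, hb⟩)]
      · rw [if_neg (et_ne t t' htt _), Pi.single_eq_same]
        congr 1
        have hc : ∃ c : K0 t t', et t t' htt c = j ∧ c.1 = if j = t then none else some j := by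
          by_cases h : j = t
          · subst h
            exact ⟨⟨none, by simp, by simp⟩, rfl, by simp⟩
          · exact ⟨⟨some j, by simpa using h, by simpa using hj⟩, rfl, by simp [h]⟩
        obtain ⟨c, rfl, hc⟩ := hc
        rw [toMat_mapI, toMat_kap hw, hc]
      · intro l _ hl
        rw [Pi.single_eq_of_ne hl, zero_mul, ite_self]
      · intro h; exact absurd (Finset.mem_univ _) h
    · have hrh : rh t t' (u * w) = rh t t' w := by
        funext j
        unfold rh
        rw [mt_Lk_mul hu, if_neg (Ne.symm hat'), add_zero]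
      rw [map_mul, map_mul, hrh, map_mul, ih, ← mul_assoc]
      congr 2
      by_cases hat : a = some t
      · subst hat
        unfold tau
        rw [hu.ev, hu.ev, evl_none_left (nu_some_self t),
          evl_none_left (kap_of_not (fun h => h.1 rfl)), map_one]
      · unfold tau
        rw [hu.ev, hu.ev, evl_some (nu_of_P2 htt a ⟨hat, hat'⟩) hnb,
          evl_some (kap_of ⟨hat, hat'⟩) (kap_of hb)]
        have hne : (⟨a, ⟨hat, hat'⟩⟩ : K0 t t') ≠ ⟨b, hb⟩ := fun e => h (congrArg Subtype.val e)
        rw [xx_of_ne hne, xx_of_ne ((et t t' htt).injective.ne hne), mapI_x]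

theorem kap_symm_one {t t' : I} {w : W (Option I) R} (h : ev (kap t t') w = 1) :
    ev (kap t' t) w = 1 := by
  have hinj : Function.Injective (fun j : K0 t t' => (⟨j.1, j.2.2, j.2.1⟩ : K0 t' t)) := by
    intro a b h
    apply Subtype.ext
    have := congrArg (fun z : K0 t' t => z.1) h
    exact this
  have : kap t' t = fun j => (kap t t' j).map (⟨_, hinj⟩ : K0 t t' ↪ K0 t' t) := by
    funext j
    by_cases hj : j ≠ some t ∧ j ≠ some t'
    · rw [kap_of ⟨hj.2, hj.1⟩, kap_of hj]; rfl
    · rw [kap_of_not (fun h => hj ⟨h.2, h.1⟩), kap_of_not hj]; rfl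
  rw [this, ev_map, h, map_one]

theorem th_eq_of_kap {t t' : I} (htt : t ≠ t') {w : W (Option I) R} (hw : w ∈ FA (P2 t t'))
    (hs : Stb w) (h1 : ev (kap t t') w = 1) :
    th t w = row t' (fun j => (mt w).val (some t') (some j)) *
      row t (fun j => (mt w).val (some t) (some j)) := by
  have h0 : ∀ j : I, (mt w).val none (some j) = 0 := by
    intro j
    by_cases hj : (some j : Option I) ≠ some t ∧ (some j : Option I) ≠ some t'
    · have := toMat_kap hw ⟨none, by simp, by simp⟩ ⟨some j, hj⟩
      rw [h1, map_one, Units.val_one, Matrix.one_apply_ne (by simp)] at this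
      exact this.symm
    · rw [mt_col hw (some j) hj, if_neg (by simp)]
  unfold th
  rw [tau_eq htt hw, h1, map_one, one_mul]
  congr 1
  · apply row_congr
    intro j hj
    unfold rh
    by_cases h : j = t
    · subst h
      rw [if_pos rfl, hs, if_neg (by simp), mt_col hw (some j) (fun h => h.1 rfl),
        if_neg (by simpa using Ne.symm htt)]
    · rw [if_neg h]
  · apply row_congr
    intro j hj
    unfold dl
    rw [h0, sub_zero]

theorem th_indep_of_kap {t t' : I} (htt : t ≠ t') {w : W (Option I) R} (hw : w ∈ FA (P2 t t'))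
    (hs : Stb w) (h1 : ev (kap t t') w = 1) : th t w = th t' w := by
  have hw' : w ∈ FA (P2 t' t) := FA_mono (fun j h => ⟨h.2, h.1⟩) hw
  rw [th_eq_of_kap htt hw hs h1, th_eq_of_kap (Ne.symm htt) hw' hs (kap_symm_one h1)]
  apply (row_commute_row _ _ _ _ _ _).eq
  · rw [mt_col hw (some t) (fun h => h.1 rfl), if_neg (by simpa using Ne.symm htt)]
  · rw [mt_col hw (some t') (fun h => h.2 rfl), if_neg (by simpa using htt)]

theorem card_K0 {t t' : I} (htt : t ≠ t') (hc : 4 ≤ Fintype.card I) :
    3 ≤ Fintype.card (K0 t t') := by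
  have h1 : Fintype.card (K0 t t') = ((Finset.univ : Finset (Option I)).erase (some t)).card - 1 := by
    rw [Fintype.card_subtype, ← Finset.card_erase_of_mem (a := some t')]
    · congr 1
      ext j
      simp only [Finset.mem_filter, Finset.mem_univ, true_and, Finset.mem_erase, and_true]
      exact And.comm
    · simpa using Ne.symm htt
  rw [h1, Finset.card_erase_of_mem (Finset.mem_univ _), Finset.card_univ, Fintype.card_option]
  omega

/-- independence of the spare index -/
theorem th_indep (hS : SURJ.{u, v} R) (hc : 4 ≤ Fintype.card I) {t t' : I} {w : W (Option I) R}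
    (hw : w ∈ FT t) (hw' : w ∈ FT t') (hs : Stb w) : th t w = th t' w := by
  by_cases htt : t = t'
  · rw [htt]
  have hw2 : w ∈ FA (P2 t t') := FA_inter hw hw'
  have hQ : ev (kap t t') w ∈ Qs (K0 t t') R ⟨none, by simp, by simp⟩ := by
    apply hS _ _ (card_K0 htt hc)
    intro i
    rw [toMat_kap hw2, hs]
    congr 1
    exact propext ⟨fun h => Subtype.ext h, fun h => congrArg Subtype.val h⟩
  have key : ∃ v ∈ FA (P2 t t'), Stb v ∧ th t v = th t' v ∧
      ev (kap t t') v = ev (kap t t') w := by
    refine Qs_induction (p := fun g => ∃ v ∈ FA (R := R) (P2 t t'), Stb v ∧ th t v = th t' v ∧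
      ev (kap t t') v = g) ?_ ?_ hQ
    · exact ⟨1, one_mem _, Stb.one, by rw [th_one, th_one], map_one _⟩
    · rintro ⟨i, hi⟩ ⟨j, hj⟩ h r g hjo hg ⟨v, hv, hvs, hvt, rfl⟩
      have hij : i ≠ j := fun e => h (Subtype.ext e)
      have hjn : j ≠ none := fun e => hjo (Subtype.ext e)
      have hl : lt i j hij r ∈ FA (P2 t t') := lt_mem hij r hj
      have hls : Stb (lt i j hij r) := Stb.lt hij r hjn
      refine ⟨lt i j hij r * v, mul_mem hl hv, hls.mul hvs, ?_, ?_⟩
      · rw [th_mul hS (by omega) (FA_P2_le hl) (FA_P2_le hv) hls hvs,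
          th_mul hS (by omega) (FA_P2_le' hl) (FA_P2_le' hv) hls hvs, hvt]
        congr 1
        obtain ⟨j', rfl⟩ := Option.ne_none_iff_exists'.mp hjn
        have hjt : j' ≠ t := fun e => hj.1 (e ▸ rfl)
        have hjt' : j' ≠ t' := fun e => hj.2 (e ▸ rfl)
        rcases i with _ | i
        · rw [th_lt_none _ _ hjt, th_lt_none _ _ hjt']
        · rw [th_lt_some _ _ hjt, th_lt_some _ _ hjt']
      · rw [map_mul, ev_lt, evl_some (kap_of hi) (kap_of hj), xx_of_ne]
  obtain ⟨v, hv, hvs, hvt, hvk⟩ := key
  have hu : w * v⁻¹ ∈ FA (P2 t t') := mul_mem hw2 (inv_mem hv)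
  have hus : Stb (w * v⁻¹) := hs.mul hvs.inv
  have h1 : th t (w * v⁻¹) = th t' (w * v⁻¹) := by
    apply th_indep_of_kap htt hu hus
    rw [map_mul, map_inv, hvk, mul_inv_cancel]
  have h2 : w = w * v⁻¹ * v := by group
  rw [h2, th_mul hS (by omega) (FA_P2_le hu) (FA_P2_le hv) hus hvs,
    th_mul hS (by omega) (FA_P2_le' hu) (FA_P2_le' hv) hus hvs, h1, hvt]

end Crest.Agent.R176.Inj115
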