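import Crest.Agent.R176.Inj115C

/-! Row 176, part B, STAB step 2 (helper115): the action of `St (Option I) R` on
`Y × St I R` and injective `K₂`-stability (with surjective stability `SURJ` as a hypothesis). -/

set_option autoImplicit false
set_option linter.unusedVariables false
set_option linter.unusedSectionVars false

namespace Crest.Agent.R176.Inj115

open scoped commutatorElement
open Crest.Agent.R176 St Matrix

universe u v w

variable {I : Type u} {R : Type v} [Ring R]

theorem evl_add {J K : Type u} [DecidableEq K] (f : J → Option K) (i j : J) (r s : R) :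
    evl f i j (r + s) = evl f i j r * evl f i j s := by
  unfold evl
  split
  · rename_i i' j' _ _
    by_cases h : i' ≠ j'
    · rw [xx_of_ne h, xx_of_ne h, xx_of_ne h, x_add]
    · rw [xx, xx, xx, dif_neg h, dif_neg h, dif_neg h, one_mul]
  · rw [one_mul]

theorem evl_comm {J K : Type u} [Fintype K] [DecidableEq K] {f : J → Option K} (hf : PInj f) {i j k : J}
    (hij : i ≠ j) (hjk : j ≠ k) (hik : i ≠ k) (hj : f j ≠ none) (hk : f k ≠ none) (r s : R) :
    evl f i j r * evl f j k s = evl f i k (r * s) * (evl f j k s * evl f i j r) := by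
  obtain ⟨j', hj'⟩ := Option.ne_none_iff_exists'.mp hj
  obtain ⟨k', hk'⟩ := Option.ne_none_iff_exists'.mp hk
  rcases hi : f i with _ | i'
  · rw [evl_none_left hi, evl_none_left hi, one_mul, one_mul, mul_one]
  · have hij' : i' ≠ j' := by rintro rfl; exact hij (hf _ _ _ hi hj')
    have hjk' : j' ≠ k' := by rintro rfl; exact hjk (hf _ _ _ hj' hk')
    have hik' : i' ≠ k' := by rintro rfl; exact hik (hf _ _ _ hi hk')
    rw [evl_some hi hj', evl_some hj' hk', evl_some hi hk', xx_of_ne hij', xx_of_ne hjk',
      xx_of_ne hik', ← x_comm i' j' k' hij' hjk' hik', commutatorElement_def]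
    group

theorem evl_triv {J K : Type u} [DecidableEq K] {f : J → Option K} (hf : PInj f) {i j k l : J}
    (hij : i ≠ j) (hkl : k ≠ l) (hjk : j ≠ k) (hil : i ≠ l) (r s : R) :
    evl f i j r * evl f k l s = evl f k l s * evl f i j r := by
  rcases hi : f i with _ | i'
  · rw [evl_none_left hi, one_mul, mul_one]
  rcases hk : f k with _ | k'
  · rw [evl_none_left hk, one_mul, mul_one]
  rcases hj : f j with _ | j'
  · have : evl f i j r = 1 := by unfold evl; simp [hj]
    rw [this, one_mul, mul_one]
  rcases hl : f l with _ | l'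
  · have : evl f k l s = 1 := by unfold evl; simp [hl]
    rw [this, one_mul, mul_one]
  have hij' : i' ≠ j' := by rintro rfl; exact hij (hf _ _ _ hi hj)
  have hjk' : j' ≠ k' := by rintro rfl; exact hjk (hf _ _ _ hj hk)
  have hil' : i' ≠ l' := by rintro rfl; exact hil (hf _ _ _ hi hl)
  have hkl' : k' ≠ l' := by rintro rfl; exact hkl (hf _ _ _ hk hl)
  rw [evl_some hi hj, evl_some hk hl, xx_of_ne hij', xx_of_ne hkl']
  exact (x_commute _ _ _ _ _ _ hjk' hil' _ _).eq

section Spare

variable [Fintype I]

theorem exists_spare (l : List (Option I)) (h : l.length < Fintype.card I) :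
    ∃ t : I, some t ∉ l := by
  classical
  by_contra hcon
  push Not at hcon
  have h1 : (Finset.univ : Finset I).map Function.Embedding.some ⊆ l.toFinset := by
    intro j hj
    rw [Finset.mem_map] at hj
    obtain ⟨t, _, rfl⟩ := hj
    exact List.mem_toFinset.mpr (hcon t)
  have h2 := Finset.card_le_card h1
  rw [Finset.card_map, Finset.card_univ] at h2
  exact absurd (h2.trans (List.toFinset_card_le l)) (by omega)

end Spare

variable [Fintype I] [DecidableEq I]

section Sec

/-- a column word -/
theorem exists_col (b : I → R) : ∃ c ∈ FA (R := R) (fun j : Option I => j = none),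
    (mt c).val none none = 1 ∧ ∀ i, (mt c).val (some i) none = b i := by
  have key : ∀ S : Finset I, ∃ c ∈ FA (R := R) (fun j : Option I => j = none),
      (mt c).val none none = 1 ∧ ∀ i, (mt c).val (some i) none = if i ∈ S then b i else 0 := by
    intro S
    induction S using Finset.induction_on with
    | empty =>
      refine ⟨1, one_mem _, ?_, ?_⟩
      · rw [map_one, Units.val_one, Matrix.one_apply_eq]
      · intro i
        rw [map_one, Units.val_one, Matrix.one_apply_ne (by simp), if_neg (by simp)]
    | insert i0 S hi0 ih =>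
      obtain ⟨c, hc, h1, h2⟩ := ih
      have hne : (some i0 : Option I) ≠ none := by simp
      refine ⟨lt (some i0) none hne (b i0) * c, mul_mem (lt_mem _ _ rfl) hc, ?_, ?_⟩
      · rw [mt_Lk_mul (Lk.lt _ _ _ _), h1, if_neg (by simp), add_zero]
      · intro i
        rw [mt_Lk_mul (Lk.lt _ _ _ _), h1, h2, mul_one]
        by_cases hi : i = i0
        · subst hi; rw [if_neg hi0, if_pos rfl, if_pos (Finset.mem_insert_self _ _), zero_add]
        · have h3 : (some i : Option I) ≠ some i0 := by simpa using hi
          rw [if_neg h3, add_zero]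
          simp [Finset.mem_insert, hi]
  obtain ⟨c, hc, h1, h2⟩ := key Finset.univ
  exact ⟨c, hc, h1, fun i => by rw [h2, if_pos (Finset.mem_univ _)]⟩

variable {k : Type w} [Ring k] [Nontrivial k] (π : R →+* k)

theorem exists_sec_aux (hπ : ∀ r, π r ≠ 0 → IsUnit r) (y : Option I → R) (p : I)
    (hp : π (y (some p)) ≠ 0) :
    ∃ s ∈ FA (R := R) (fun j : Option I => j = none ∨ j = some p),
      ∀ i, (mt s).val i none = y i := by
  obtain ⟨c, hc, h1, h2⟩ := exists_col (R := R) (fun i => y (some i))
  obtain ⟨u, hu⟩ := hπ _ hp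
  have hne : (none : Option I) ≠ some p := by simp
  refine ⟨lt none (some p) hne ((y none - 1) * (u⁻¹ : Rˣ).val) * c,
    mul_mem (lt_mem _ _ (Or.inr rfl)) (FA_mono (fun j hj => Or.inl hj) hc), ?_⟩
  intro i
  rw [mt_Lk_mul (Lk.lt _ _ _ _), h2]
  rcases i with _ | i
  · rw [h1, if_pos rfl, mul_assoc, ← hu, Units.inv_mul, mul_one]
    abel
  · rw [h2, if_neg (by simp), add_zero]

/-- unimodular columns -/
abbrev Ym (I : Type u) (π : R →+* k) := {y : Option I → R // ∃ i, π (y i) ≠ 0}

/-- base point -/
def y0 : Ym I π := ⟨Pi.single none 1, none, by simp⟩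

theorem exists_sec [Nonempty I] (hπ : ∀ r, π r ≠ 0 → IsUnit r) (y : Ym I π) :
    ∃ p : I, ∃ s ∈ FA (R := R) (fun j : Option I => j = none ∨ j = some p),
      (∀ i, (mt s).val i none = y.1 i) ∧ (y = y0 π → s = 1) := by
  by_cases hy : y = y0 π
  · refine ⟨Classical.arbitrary I, 1, one_mem _, ?_, fun _ => rfl⟩
    intro i
    subst hy
    rw [map_one, Units.val_one, Matrix.one_apply, y0]
    show _ = (Pi.single none 1 : Option I → R) i
    rw [Pi.single_apply]
  · have : ∃ p : I, ∃ s ∈ FA (R := R) (fun j : Option I => j = none ∨ j = some p),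
        (∀ i, (mt s).val i none = y.1 i) := by
      by_cases hex : ∃ p : I, π (y.1 (some p)) ≠ 0
      · obtain ⟨p, hp⟩ := hex
        exact ⟨p, exists_sec_aux π hπ y.1 p hp⟩
      · push Not at hex
        obtain ⟨j, hj⟩ := y.2
        rcases j with _ | j
        swap
        · exact absurd (hex j) hj
        have p := Classical.arbitrary I
        obtain ⟨s, hs, hval⟩ := exists_sec_aux π hπ
          (fun i => if i = some p then y.1 (some p) + y.1 none else y.1 i) p
          (by rw [if_pos rfl, map_add, hex p, zero_add]; exact hj)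
        have hne : (some p : Option I) ≠ none := by simp
        refine ⟨p, lt (some p) none hne (-1) * s, mul_mem (lt_mem _ _ (Or.inl rfl)) hs, ?_⟩
        intro i
        rw [mt_Lk_mul (Lk.lt _ _ _ _), hval, hval, if_neg (Ne.symm hne)]
        by_cases hi : i = some p
        · rw [if_pos hi, if_pos hi, hi, neg_one_mul]; abel
        · rw [if_neg hi, if_neg hi, add_zero]
    obtain ⟨p, s, hs, hval⟩ := this
    exact ⟨p, s, hs, hval, fun h => absurd h hy⟩

/-- action of invertible matrices on unimodular columns -/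
def mY (M : (Matrix (Option I) (Option I) R)ˣ) (y : Ym I π) : Ym I π :=
  ⟨M.val *ᵥ y.1, by
    by_contra hcon
    push Not at hcon
    obtain ⟨i, hi⟩ := y.2
    apply hi
    have h1 : y.1 = M⁻¹.val *ᵥ (M.val *ᵥ y.1) := by
      rw [Matrix.mulVec_mulVec, Units.inv_mul, Matrix.one_mulVec]
    rw [h1]
    show π (∑ l, M⁻¹.val i l * (M.val *ᵥ y.1) l) = 0
    rw [map_sum]
    apply Finset.sum_eq_zero
    intro l _
    rw [map_mul, hcon, mul_zero]⟩

theorem mY_mul (M N : (Matrix (Option I) (Option I) R)ˣ) (y : Ym I π) :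
    mY π (M * N) y = mY π M (mY π N y) := by
  apply Subtype.ext
  show (M * N).val *ᵥ y.1 = M.val *ᵥ (N.val *ᵥ y.1)
  rw [Units.val_mul, Matrix.mulVec_mulVec]

theorem mY_one (y : Ym I π) : mY π 1 y = y := by
  apply Subtype.ext
  show (1 : (Matrix (Option I) (Option I) R)ˣ).val *ᵥ y.1 = y.1
  rw [Units.val_one, Matrix.one_mulVec]

end Sec

section Act

variable {k : Type w} [Ring k] [Nontrivial k] (π : R →+* k)

/-- the value `th t w` for any spare index -/
noncomputable def Th (w : W (Option I) R) : St I R :=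
  open Classical in if h : ∃ t, w ∈ FT t then th h.choose w else 1

theorem Th_eq (hS : SURJ.{u, v} R) (hc : 4 ≤ Fintype.card I) {t : I} {w : W (Option I) R}
    (hw : w ∈ FT t) (hs : Stb w) : Th w = th t w := by
  have h : ∃ t, w ∈ FT t := ⟨t, hw⟩
  unfold Th
  rw [dif_pos h]
  exact th_indep hS hc h.choose_spec hw hs

/-- section data -/
structure SecData (I : Type u) [Fintype I] [DecidableEq I] (π : R →+* k) where
  p : Ym I π → I
  s : Ym I π → W (Option I) R
  mem : ∀ y, s y ∈ FA (R := R) (fun j : Option I => j = none ∨ j = some (p y))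
  val : ∀ y i, (mt (s y)).val i none = y.1 i
  base : s (y0 π) = 1

theorem exists_secData [Nonempty I] (hπ : ∀ r, π r ≠ 0 → IsUnit r) :
    Nonempty (SecData I π) := by
  choose p s h1 h2 h3 using exists_sec (I := I) π hπ
  exact ⟨⟨p, s, h1, h2, h3 _ rfl⟩⟩

variable (D : SecData I π)

theorem SecData.mY_s (y : Ym I π) : mY π (mt (D.s y)) (y0 π) = y := by
  apply Subtype.ext
  funext i
  show ((mt (D.s y)).val *ᵥ (Pi.single none 1 : Option I → R)) i = y.1 i
  rw [Matrix.mulVec_single_one]
  exact D.val y i

theorem SecData.memFT {t : I} {y : Ym I π} (h : (some t : Option I) ≠ some (D.p y)) :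
    D.s y ∈ FT t := by
  apply FA_mono _ (D.mem y)
  rintro j (rfl | rfl)
  · simp
  · exact Ne.symm h

/-- the cocycle word -/
def cw (w : W (Option I) R) (y : Ym I π) : W (Option I) R :=
  (D.s (mY π (mt w) y))⁻¹ * w * D.s y

theorem stb_of_mY {w : W (Option I) R} (h : mY π (mt w) (y0 π) = y0 π) : Stb w := by
  intro i
  have h1 : ((mt w).val *ᵥ (Pi.single none 1 : Option I → R)) i =
      (Pi.single none 1 : Option I → R) i := congrFun (congrArg Subtype.val h) i
  rw [Matrix.mulVec_single_one, Pi.single_apply] at h1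
  exact h1

theorem stb_cw (w : W (Option I) R) (y : Ym I π) : Stb (cw π D w y) := by
  apply stb_of_mY π
  unfold cw
  rw [map_mul, map_mul, mY_mul, mY_mul, D.mY_s, map_inv]
  generalize mY π (mt w) y = z
  have h : mY π (mt (D.s z))⁻¹ (mY π (mt (D.s z)) (y0 π)) = y0 π := by
    rw [← mY_mul, inv_mul_cancel, mY_one]
  rwa [D.mY_s] at h

/-- the action on `Y × St I R` -/
noncomputable def F (w : W (Option I) R) (z : Ym I π × St I R) : Ym I π × St I R :=
  (mY π (mt w) z.1, Th (cw π D w z.1) * z.2)

theorem cw_mem {t : I} {w : W (Option I) R} {y : Ym I π} (hw : w ∈ FT t)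
    (h1 : (some t : Option I) ≠ some (D.p y))
    (h2 : (some t : Option I) ≠ some (D.p (mY π (mt w) y))) : cw π D w y ∈ FT t :=
  mul_mem (mul_mem (inv_mem (D.memFT π h2)) hw) (D.memFT π h1)

theorem F_mul (hS : SURJ.{u, v} R) (hc : 4 ≤ Fintype.card I) {t : I} {w w' : W (Option I) R}
    {y : Ym I π} (g : St I R) (hw : w ∈ FT t) (hw' : w' ∈ FT t)
    (h1 : (some t : Option I) ≠ some (D.p y))
    (h2 : (some t : Option I) ≠ some (D.p (mY π (mt w) y)))
    (h3 : (some t : Option I) ≠ some (D.p (mY π (mt w') (mY π (mt w) y)))) :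
    F π D (w' * w) (y, g) = F π D w' (F π D w (y, g)) := by
  unfold F
  apply Prod.ext
  · show mY π (mt (w' * w)) y = mY π (mt w') (mY π (mt w) y)
    rw [map_mul, mY_mul]
  · show Th (cw π D (w' * w) y) * g = Th (cw π D w' (mY π (mt w) y)) * (Th (cw π D w y) * g)
    rw [← mul_assoc]
    congr 1
    have e : cw π D (w' * w) y = cw π D w' (mY π (mt w) y) * cw π D w y := by
      unfold cw
      rw [map_mul, mY_mul]
      group
    have m1 : cw π D w y ∈ FT t := cw_mem π D hw h1 h2
    have m2 : cw π D w' (mY π (mt w) y) ∈ FT t := cw_mem π D hw' h2 h3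
    have m3 : cw π D (w' * w) y ∈ FT t := by rw [e]; exact mul_mem m2 m1
    rw [Th_eq hS hc m3 (stb_cw π D _ _), Th_eq hS hc m2 (stb_cw π D _ _),
      Th_eq hS hc m1 (stb_cw π D _ _), e,
      th_mul hS (by omega) m2 m1 (stb_cw π D _ _) (stb_cw π D _ _)]

theorem F_congr (hS : SURJ.{u, v} R) (hc : 4 ≤ Fintype.card I) {t : I} {w w' : W (Option I) R}
    {y : Ym I π} (g : St I R) (hw : w ∈ FT t) (hw' : w' ∈ FT t)
    (h1 : (some t : Option I) ≠ some (D.p y))
    (h2 : (some t : Option I) ≠ some (D.p (mY π (mt w) y)))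
    (hm : mt w = mt w') (ht : tau t w = tau t w') :
    F π D w (y, g) = F π D w' (y, g) := by
  unfold F
  apply Prod.ext
  · show mY π (mt w) y = mY π (mt w') y
    rw [hm]
  · show Th (cw π D w y) * g = Th (cw π D w' y) * g
    congr 1
    rw [Th_eq hS hc (cw_mem π D hw h1 h2) (stb_cw π D _ _),
      Th_eq hS hc (cw_mem π D hw' h1 (by rw [← hm]; exact h2)) (stb_cw π D _ _)]
    apply th_congr
    · unfold cw
      rw [map_mul, map_mul, map_mul, map_mul, hm, ht]
    · unfold cw
      rw [map_mul, map_mul, map_mul, map_mul, hm]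

theorem F_one (hS : SURJ.{u, v} R) (hc : 4 ≤ Fintype.card I) (z : Ym I π × St I R) :
    F π D 1 z = z := by
  obtain ⟨y, g⟩ := z
  have t : I := Classical.choice (Fintype.card_pos_iff.mp (by omega))
  unfold F
  apply Prod.ext
  · show mY π (mt 1) y = y
    rw [map_one, mY_one]
  · show Th (cw π D 1 y) * g = g
    have : cw π D 1 y = 1 := by
      unfold cw
      rw [map_one, mY_one, mul_one, inv_mul_cancel]
    rw [this, Th_eq hS hc (one_mem (FT t)) Stb.one, th_one, one_mul]

/-- the permutation attached to a generator -/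
noncomputable def Pm (hS : SURJ.{u, v} R) (hc : 9 ≤ Fintype.card I) (i j : Option I) (h : i ≠ j)
    (r : R) : Equiv.Perm (Ym I π × St I R) where
  toFun := F π D (lt i j h r)
  invFun := F π D (lt i j h (-r))
  left_inv := by
    rintro ⟨y, g⟩
    obtain ⟨t, ht⟩ := exists_spare [j, some (D.p y), some (D.p (mY π (mt (lt i j h r)) y)),
      some (D.p (mY π (mt (lt i j h (-r))) (mY π (mt (lt i j h r)) y)))]
      (by simp only [List.length_cons, List.length_nil]; omega)
    simp only [List.mem_cons, List.not_mem_nil, or_false, not_or] at ht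
    obtain ⟨t1, t2, t3, t4⟩ := ht
    have hj : j ≠ some t := Ne.symm t1
    rw [← F_mul π D hS (by omega) g (lt_mem h r hj) (lt_mem h (-r) hj) t2 t3 t4,
      F_congr π D hS (by omega) g (mul_mem (lt_mem h (-r) hj) (lt_mem h r hj)) (one_mem (FT t)) t2
        (by rw [map_mul, mY_mul]; exact t4), F_one π D hS (by omega)]
    · rw [map_mul, mt_lt, mt_lt, map_one, ← elem_add, neg_add_cancel]
      apply Units.ext
      rw [elem_val, Matrix.single_zero, add_zero, Units.val_one]
    · unfold tau
      rw [map_mul, ev_lt, ev_lt, map_one, ← evl_add, neg_add_cancel]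
      have := evl_add (nu t) i j (0 : R) 0
      rw [add_zero] at this
      exact left_eq_mul.mp this
  right_inv := by
    rintro ⟨y, g⟩
    obtain ⟨t, ht⟩ := exists_spare [j, some (D.p y), some (D.p (mY π (mt (lt i j h (-r))) y)),
      some (D.p (mY π (mt (lt i j h r)) (mY π (mt (lt i j h (-r))) y)))]
      (by simp only [List.length_cons, List.length_nil]; omega)
    simp only [List.mem_cons, List.not_mem_nil, or_false, not_or] at ht
    obtain ⟨t1, t2, t3, t4⟩ := ht
    have hj : j ≠ some t := Ne.symm t1
    rw [← F_mul π D hS (by omega) g (lt_mem h (-r) hj) (lt_mem h r hj) t2 t3 t4,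
      F_congr π D hS (by omega) g (mul_mem (lt_mem h r hj) (lt_mem h (-r) hj)) (one_mem (FT t)) t2
        (by rw [map_mul, mY_mul]; exact t4), F_one π D hS (by omega)]
    · rw [map_mul, mt_lt, mt_lt, map_one, ← elem_add, add_neg_cancel]
      apply Units.ext
      rw [elem_val, Matrix.single_zero, add_zero, Units.val_one]
    · unfold tau
      rw [map_mul, ev_lt, ev_lt, map_one, ← evl_add, add_neg_cancel]
      have := evl_add (nu t) i j (0 : R) 0
      rw [add_zero] at this
      exact left_eq_mul.mp this

theorem Pm_apply (hS : SURJ.{u, v} R) (hc : 9 ≤ Fintype.card I) (i j : Option I) (h : i ≠ j)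
    (r : R) (z : Ym I π × St I R) : Pm π D hS hc i j h r z = F π D (lt i j h r) z := rfl

/-- the action of the big Steinberg group -/
noncomputable def stHom (hS : SURJ.{u, v} R) (hc : 9 ≤ Fintype.card I) :
    St (Option I) R →* Equiv.Perm (Ym I π × St I R) :=
  St.lift (Pm π D hS hc)
    (by
      intro i j h r s
      apply Equiv.ext
      rintro ⟨y, g⟩
      rw [Equiv.Perm.mul_apply, Pm_apply, Pm_apply, Pm_apply]
      obtain ⟨t, ht⟩ := exists_spare [j, some (D.p y), some (D.p (mY π (mt (lt i j h s)) y)),
        some (D.p (mY π (mt (lt i j h r)) (mY π (mt (lt i j h s)) y)))]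
        (by simp only [List.length_cons, List.length_nil]; omega)
      simp only [List.mem_cons, List.not_mem_nil, or_false, not_or] at ht
      obtain ⟨t1, t2, t3, t4⟩ := ht
      have hj : j ≠ some t := Ne.symm t1
      rw [← F_mul π D hS (by omega) g (lt_mem h s hj) (lt_mem h r hj) t2 t3 t4]
      symm
      apply F_congr π D hS (by omega) g (mul_mem (lt_mem h r hj) (lt_mem h s hj))
        (lt_mem h (r + s) hj) t2 (by rw [map_mul, mY_mul]; exact t4)
      · rw [map_mul, mt_lt, mt_lt, mt_lt, elem_add]
      · unfold tau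
        rw [map_mul, ev_lt, ev_lt, ev_lt, evl_add])
    (by
      intro i j l hij hjl hil r s
      rw [commutatorElement_def, mul_inv_eq_iff_eq_mul, mul_inv_eq_iff_eq_mul, mul_assoc]
      apply Equiv.ext
      rintro ⟨y, g⟩
      rw [Equiv.Perm.mul_apply, Equiv.Perm.mul_apply, Equiv.Perm.mul_apply, Pm_apply, Pm_apply,
        Pm_apply, Pm_apply, Pm_apply]
      obtain ⟨t, ht⟩ := exists_spare [j, l, some (D.p y), some (D.p (mY π (mt (lt j l hjl s)) y)),
        some (D.p (mY π (mt (lt i j hij r)) (mY π (mt (lt j l hjl s)) y))),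
        some (D.p (mY π (mt (lt i j hij r)) y)),
        some (D.p (mY π (mt (lt j l hjl s)) (mY π (mt (lt i j hij r)) y))),
        some (D.p (mY π (mt (lt i l hil (r * s))) (mY π (mt (lt j l hjl s * lt i j hij r)) y)))]
        (by simp only [List.length_cons, List.length_nil]; omega)
      simp only [List.mem_cons, List.not_mem_nil, or_false, not_or] at ht
      obtain ⟨t1, t2, t3, t4, t5, t6, t7, t8⟩ := ht
      have hj : j ≠ some t := Ne.symm t1
      have hl : l ≠ some t := Ne.symm t2
      rw [← F_mul π D hS (by omega) g (lt_mem hjl s hl) (lt_mem hij r hj) t3 t4 t5,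
        ← F_mul π D hS (by omega) g (lt_mem hij r hj) (lt_mem hjl s hl) t3 t6 t7,
        ← F_mul π D hS (by omega) g (mul_mem (lt_mem hjl s hl) (lt_mem hij r hj))
          (lt_mem hil (r * s) hl) t3 (by rw [map_mul, mY_mul]; exact t7) t8]
      apply F_congr π D hS (by omega) g (mul_mem (lt_mem hij r hj) (lt_mem hjl s hl))
        (mul_mem (lt_mem hil (r * s) hl) (mul_mem (lt_mem hjl s hl) (lt_mem hij r hj))) t3
        (by rw [map_mul, mY_mul]; exact t5)
      · rw [map_mul, map_mul, map_mul, mt_lt, mt_lt, mt_lt, ← elem_comm i j l hij hjl hil,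
          commutatorElement_def]
        group
      · unfold tau
        rw [map_mul, map_mul, map_mul, ev_lt, ev_lt, ev_lt]
        exact evl_comm (nu_inj t) hij hjl hil ((nu_ne_none_iff t j).mpr hj)
          ((nu_ne_none_iff t l).mpr hl) r s)
    (by
      intro i j l m hij hlm hjl him r s
      rw [commutatorElement_eq_one_iff_mul_comm]
      apply Equiv.ext
      rintro ⟨y, g⟩
      rw [Equiv.Perm.mul_apply, Equiv.Perm.mul_apply, Pm_apply, Pm_apply, Pm_apply, Pm_apply]
      obtain ⟨t, ht⟩ := exists_spare [j, m, some (D.p y), some (D.p (mY π (mt (lt l m hlm s)) y)),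
        some (D.p (mY π (mt (lt i j hij r)) (mY π (mt (lt l m hlm s)) y))),
        some (D.p (mY π (mt (lt i j hij r)) y)),
        some (D.p (mY π (mt (lt l m hlm s)) (mY π (mt (lt i j hij r)) y)))]
        (by simp only [List.length_cons, List.length_nil]; omega)
      simp only [List.mem_cons, List.not_mem_nil, or_false, not_or] at ht
      obtain ⟨t1, t2, t3, t4, t5, t6, t7⟩ := ht
      have hj : j ≠ some t := Ne.symm t1
      have hm : m ≠ some t := Ne.symm t2
      rw [← F_mul π D hS (by omega) g (lt_mem hlm s hm) (lt_mem hij r hj) t3 t4 t5,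
        ← F_mul π D hS (by omega) g (lt_mem hij r hj) (lt_mem hlm s hm) t3 t6 t7]
      apply F_congr π D hS (by omega) g (mul_mem (lt_mem hij r hj) (lt_mem hlm s hm))
        (mul_mem (lt_mem hlm s hm) (lt_mem hij r hj)) t3
        (by rw [map_mul, mY_mul]; exact t5)
      · rw [map_mul, map_mul, mt_lt, mt_lt]
        exact commutatorElement_eq_one_iff_mul_comm.mp (elem_triv i j l m hij hlm hjl him r s)
      · unfold tau
        rw [map_mul, map_mul, ev_lt, ev_lt]
        exact evl_triv (nu_inj t) hij hlm hjl him r s)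

theorem stHom_x (hS : SURJ.{u, v} R) (hc : 9 ≤ Fintype.card I) (i j : Option I) (h : i ≠ j)
    (r : R) (z : Ym I π × St I R) :
    stHom π D hS hc (x i j h r) z = F π D (lt i j h r) z := by
  unfold stHom
  rw [lift_x]
  rfl

theorem F_base (hS : SURJ.{u, v} R) (hc : 9 ≤ Fintype.card I) (i j : I) (h : i ≠ j)
    (h' : (some i : Option I) ≠ some j) (r : R) (g : St I R) :
    F π D (lt (some i) (some j) h' r) (y0 π, g) = (y0 π, x i j h r * g) := by
  obtain ⟨t, ht⟩ := exists_spare [(some j : Option I)]
    (by simp only [List.length_cons, List.length_nil]; omega)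
  simp only [List.mem_cons, List.not_mem_nil, or_false] at ht
  have hjt : j ≠ t := fun e => ht (e ▸ rfl)
  have hs : Stb (lt (some i) (some j) h' r) := Stb.lt h' r (by simp)
  have hy : mY π (mt (lt (some i) (some j) h' r)) (y0 π) = y0 π := by
    apply Subtype.ext
    funext l
    show ((mt (lt (some i) (some j) h' r)).val *ᵥ (Pi.single none 1 : Option I → R)) l =
      (Pi.single none 1 : Option I → R) l
    rw [Matrix.mulVec_single_one, Pi.single_apply]
    exact hs l
  unfold F
  apply Prod.ext
  · exact hy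
  · show Th (cw π D (lt (some i) (some j) h' r) (y0 π)) * g = x i j h r * g
    congr 1
    have : cw π D (lt (some i) (some j) h' r) (y0 π) = lt (some i) (some j) h' r := by
      unfold cw
      rw [hy, D.base, inv_one, one_mul, mul_one]
    rw [this, Th_eq hS (by omega) (t := t) (lt_mem h' r (Ne.symm ht)) hs, th_lt_some h' r hjt]

theorem stHom_base (hS : SURJ.{u, v} R) (hc : 9 ≤ Fintype.card I) (g g' : St I R) :
    stHom π D hS hc (mapI (Function.Embedding.some : I ↪ Option I) g) (y0 π, g') =
      (y0 π, g * g') := by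
  induction g using St.induction with
  | h1 => rw [map_one, map_one, one_mul]; rfl
  | hx i j h r g ih =>
    rw [map_mul, map_mul, Equiv.Perm.mul_apply, ih, mapI_x, stHom_x]
    have h' : (Function.Embedding.some i : Option I) ≠ Function.Embedding.some j :=
      (Function.Embedding.some : I ↪ Option I).injective.ne h
    rw [mul_assoc]
    exact F_base π D hS hc i j h h' r (g * g')

end Act

/-- **injective `K₂`-stability** from surjective stability -/
theorem stab_of_surj (hS : SURJ.{u, v} R) {k : Type w} [Ring k] [Nontrivial k] (π : R →+* k)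
    (hπ : ∀ r, π r ≠ 0 → IsUnit r) (hc : 9 ≤ Fintype.card I) :
    Function.Injective (mapI (R := R) (Function.Embedding.some : I ↪ Option I)) := by
  have : Nonempty I := Fintype.card_pos_iff.mp (by omega)
  obtain ⟨D⟩ := exists_secData (I := I) π hπ
  rw [injective_iff_map_eq_one]
  intro g hg
  have h := stHom_base π D hS hc g 1
  rw [hg, map_one, mul_one] at h
  exact (congrArg Prod.snd h).symm

end Crest.Agent.R176.Inj115
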