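import Crest.Agent.R176.Cut660
import Crest.Agent.R176.Dens660
import Crest.Agent.R176.Gen.Lin206
import Crest.Agent.R176.Machine.Sim291B
import Crest.Agent.R176.Machine.Key593Defs

/-!
# R176, blocks Q3 and the iteration (helper660)

* `Q Λ k n` : `1 - B` is a unit for all `B` of size `n` with entries in `A_1 + A_2` over `Λ`;
* `Q_step` : LEN and KEY for `Λ` give `Q (Λ × Λ) k (n * hh) → Q Λ k n`, `hh` independent of `Λ`;
* `qall` : base case + LEN + KEY for all `Λ` give `QAll`.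
-/

set_option autoImplicit false

namespace Crest.Agent.R176.Iter660

open Crest.Agent.R176.Gen Crest.Agent.R176.Machine Crest.Agent.R176.Machine.Key
open Crest.Agent.R176.Cut660 (cut_lemma Seg dens_lemma)
open Matrix Submodule

/-- `1 - B` is a unit for all matrices of size `n` with entries of degree one and two -/
def Q (Λ : Type) [DecidableEq Λ] [LabelSys Λ] (k : Type) [CommRing k] (n : ℕ) : Prop :=
  ∀ B : Matrix (Fin n) (Fin n) (A (step (Λ := Λ)) k),
    (∀ i j, B i j ∈ A.deg (step (Λ := Λ)) k 1 ⊔ A.deg (step (Λ := Λ)) k 2) → IsUnit (1 - B)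

section Q

variable {Λ : Type} [DecidableEq Λ] [LabelSys Λ] {k : Type} [CommRing k]

theorem Q.fintype {n : ℕ} (h : Q Λ k n) {ι : Type*} [Fintype ι] [DecidableEq ι]
    (hι : Fintype.card ι ≤ n) (B : Matrix ι ι (A (step (Λ := Λ)) k))
    (hB : ∀ i j, B i j ∈ A.deg (step (Λ := Λ)) k 1 ⊔ A.deg (step (Λ := Λ)) k 2) :
    IsUnit (1 - B) := by
  classical
  obtain ⟨p, hp⟩ : ∃ p, n = Fintype.card ι + p := Nat.exists_eq_add_of_le hι
  let e : ι ⊕ Fin p ≃ Fin n := Fintype.equivFinOfCardEq (by simp [hp])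
  have h1 : IsUnit (1 - (fromBlocks B 0 0 (0 : Matrix (Fin p) (Fin p) (A (step (Λ := Λ)) k)))) := by
    have h2 := h (Matrix.reindex e e (fromBlocks B 0 0 0)) (by
      intro i j
      rw [Matrix.reindex_apply, Matrix.submatrix_apply]
      rcases e.symm i with a | a <;> rcases e.symm j with b | b
      · exact hB a b
      · exact zero_mem _
      · exact zero_mem _
      · exact zero_mem _)
    have h3 : IsUnit (Matrix.reindexRingEquiv (A (step (Λ := Λ)) k) e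
        (1 - (fromBlocks B 0 0 (0 : Matrix (Fin p) (Fin p) (A (step (Λ := Λ)) k))))) := by
      rw [map_sub, map_one]
      exact h2
    exact (MulEquiv.isUnit_map (Matrix.reindexRingEquiv (A (step (Λ := Λ)) k) e)).1 h3
  have h2 : (1 : Matrix (ι ⊕ Fin p) (ι ⊕ Fin p) (A (step (Λ := Λ)) k)) - fromBlocks B 0 0 0 =
      fromBlocks (1 - B) 0 0 1 := by
    rw [← fromBlocks_one, sub_eq_add_neg, fromBlocks_neg, fromBlocks_add]
    simp [sub_eq_add_neg]
  rw [h2] at h1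
  exact isUnit_of_fromBlocks_one h1

end Q

/-- number of pending states (independent of `Λ`) -/
noncomputable def hh : ℕ := Nat.card (WK × Option KK) + 1

theorem le_hh {m : ℕ} (h : m ≤ Nat.card (WK × Option KK)) : 1 + m ≤ hh := by
  rw [add_comm]
  exact Nat.succ_le_succ h

section cut

variable (Λ : Type) [Fintype Λ] [DecidableEq Λ] [LabelSys Λ] (k : Type) [CommRing k]

open Classical in
/-- injection of the admissible unlocked walls into a set independent of `Λ` -/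
theorem card_Om : Fintype.card {x : Let Λ // Om x} ≤ Nat.card (WK × Option KK) := by
  have hwall : ∀ x : {x : Let Λ // Om x}, ∃ w : WK, x.1.1 = .W w := fun x => by
    obtain ⟨w, hw, -⟩ := x.2
    exact ⟨w, hw⟩
  choose f hf using hwall
  rw [← Nat.card_eq_fintype_card]
  refine Nat.card_le_card_of_injective (fun x => (f x, decode x.1.2)) ?_
  intro x y hxy
  rw [Prod.mk.injEq] at hxy
  obtain ⟨h1, h2⟩ := hxy
  have hadm : ∀ u v : {x : Let Λ // Om x}, decode u.1.2 = decode v.1.2 → u.1.2 = v.1.2 := by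
    intro u v huv
    obtain ⟨w, -, -, hu⟩ := u.2
    obtain ⟨w', -, -, hv⟩ := v.2
    rcases hu with hu | ⟨κ, hu⟩
    · rcases hv with hv | ⟨κ', hv⟩
      · rw [hu, hv]
      · rw [hu, hv, LabelSys.decode_z, LabelSys.decode_code] at huv
        exact absurd huv (by simp)
    · rw [hu, LabelSys.decode_code] at huv
      rw [hu]
      exact (LabelSys.code_decode _ _ huv.symm).symm
  refine Subtype.ext (Prod.ext ?_ (hadm x y h2))
  rw [hf x, hf y, h1]

/-- the letters of `A` -/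
noncomputable abbrev lt : Let Λ → A (step (Λ := Λ)) k := (A.model (step (Λ := Λ)) k).f

theorem ev_eq (w : List (Let Λ)) : Cut660.ev (lt Λ k) w = A.w (step (Λ := Λ)) k w := rfl

/-- (LEN) for the algebra -/
def LenA : Prop := ∃ N, ∀ w : List (Let Λ), N ≤ w.length → (∀ x ∈ w, ¬ Om x) →
  A.w (step (Λ := Λ)) k w = 0

/-- the homomorphism of the simulation -/
noncomputable def PhiA : A (step (Λ := Λ × Λ)) k →ₐ[k] A (step (Λ := Λ)) k :=
  A.lift (Sim.sq (A.model (step (Λ := Λ)) k))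

theorem PhiA_w (w : List (Let (Λ × Λ))) :
    PhiA Λ k (A.w (step (Λ := Λ × Λ)) k w) = A.w (step (Λ := Λ)) k (Sim.Phi w) := by
  unfold PhiA
  rw [A.lift_w, ← Sim.ev_Phi]
  rfl

/-- (KEY) for the algebra -/
def KeyA : Prop := ∀ (ω : Let Λ) (v : List (Let Λ)), Om ω → (∀ x ∈ v, ¬ Om x) →
  ∃ a' ∈ A.deg (step (Λ := Λ × Λ)) k 1 ⊔ A.deg (step (Λ := Λ × Λ)) k 2,
    ∀ (ω₁ : Let Λ) (v₁ : List (Let Λ)) (ω₂ : Let Λ) (v₂ : List (Let Λ)),
      Om ω₁ → (∀ x ∈ v₁, ¬ Om x) → Om ω₂ → (∀ x ∈ v₂, ¬ Om x) →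
        A.w (step (Λ := Λ)) k (ω₁ :: v₁) * A.w (step (Λ := Λ)) k (ω :: v) *
          A.w (step (Λ := Λ)) k (ω₂ :: v₂) =
        A.w (step (Λ := Λ)) k (ω₁ :: v₁) * PhiA Λ k a' * A.w (step (Λ := Λ)) k (ω₂ :: v₂)

variable {Λ k}

theorem phi_letter_mem (x : Let (Λ × Λ)) :
    A.w (step (Λ := Λ)) k (Sim.PhiL x) ∈ Seg k (lt Λ k) Om := by
  refine subset_span ⟨(.W .w0, z), (Sim.PhiL x).tail, ⟨.w0, rfl, rfl, Or.inl rfl⟩, ?_, ?_⟩
  · intro y hy
    rintro ⟨w, hw, -⟩
    simp only [Sim.PhiL, List.tail_cons, List.mem_cons, List.mem_map] at hy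
    rcases hy with rfl | ⟨p, -, rfl⟩
    · simp at hw
    · simp at hw
  · rfl

theorem phi_mem (a' : A (step (Λ := Λ × Λ)) k)
    (h : a' ∈ A.deg (step (Λ := Λ × Λ)) k 1 ⊔ A.deg (step (Λ := Λ × Λ)) k 2) :
    PhiA Λ k a' ∈ Seg k (lt Λ k) Om ⊔ Seg k (lt Λ k) Om * Seg k (lt Λ k) Om := by
  have hle : A.deg (step (Λ := Λ × Λ)) k 1 ⊔ A.deg (step (Λ := Λ × Λ)) k 2 ≤
      (Seg k (lt Λ k) Om ⊔ Seg k (lt Λ k) Om * Seg k (lt Λ k) Om).comap
        (PhiA Λ k).toLinearMap := by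
    refine sup_le ?_ ?_
    · refine span_le.2 ?_
      rintro _ ⟨w, hw, rfl⟩
      obtain ⟨x, rfl⟩ := List.length_eq_one_iff.1 hw
      refine mem_sup_left ?_
      show PhiA Λ k _ ∈ _
      rw [PhiA_w]
      have : Sim.Phi [x] = Sim.PhiL x := by simp [Sim.Phi]
      rw [this]
      exact phi_letter_mem x
    · refine span_le.2 ?_
      rintro _ ⟨w, hw, rfl⟩
      obtain ⟨x, y, rfl⟩ := List.length_eq_two.1 hw
      refine mem_sup_right ?_
      show PhiA Λ k _ ∈ _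
      rw [PhiA_w]
      have : Sim.Phi [x, y] = Sim.PhiL x ++ Sim.PhiL y := by simp [Sim.Phi]
      rw [this, A.w_append]
      exact mul_mem_mul (phi_letter_mem x) (phi_letter_mem y)
  exact hle h

theorem deg_le_span :
    A.deg (step (Λ := Λ)) k 1 ⊔ A.deg (step (Λ := Λ)) k 2 ≤
      span k (Set.range (lt Λ k)) ⊔ span k (Set.range (lt Λ k)) * span k (Set.range (lt Λ k)) := by
  refine sup_le ?_ ?_
  · refine span_le.2 ?_
    rintro _ ⟨w, hw, rfl⟩
    obtain ⟨x, rfl⟩ := List.length_eq_one_iff.1 hw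
    rw [A.w_singleton]
    exact mem_sup_left (subset_span ⟨x, rfl⟩)
  · refine span_le.2 ?_
    rintro _ ⟨w, hw, rfl⟩
    obtain ⟨x, y, rfl⟩ := List.length_eq_two.1 hw
    rw [A.w_cons, A.w_singleton]
    exact mem_sup_right (mul_mem_mul (subset_span ⟨x, rfl⟩) (subset_span ⟨y, rfl⟩))

/-- **Q3** : one level. -/
theorem Q_step (hlen : LenA Λ k) (hkey : KeyA Λ k) (n : ℕ) (hQ : Q (Λ × Λ) k (n * hh)) :
    Q Λ k n := by
  classical
  intro B hB
  refine cut_lemma (lt Λ k) Om (PhiA Λ k)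
    (A.deg (step (Λ := Λ × Λ)) k 1 ⊔ A.deg (step (Λ := Λ × Λ)) k 2) hlen phi_mem hkey ?_ B
    (fun i j => deg_le_span (hB i j))
  intro B' hB'
  refine hQ.fintype ?_ B' hB'
  have h1 := card_Om Λ
  have h2 : Fintype.card (Fin n ⊕ Fin n × {x : Let Λ // Om x}) =
      n * (1 + Fintype.card {x : Let Λ // Om x}) := by
    rw [Fintype.card_sum, Fintype.card_prod, Fintype.card_fin, Nat.mul_add, Nat.mul_one]
  have h3 : n * (1 + Fintype.card {x : Let Λ // Om x}) ≤ n * hh :=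
    Nat.mul_le_mul_left _ (le_hh h1)
  calc _ = n * (1 + Fintype.card {x : Let Λ // Om x}) := by convert h2
    _ ≤ n * hh := h3

end cut

/-- the tower -/
theorem Q_iter {k : Type} [CommRing k] (c : ℕ)
    (BASE : ∀ (Λ : Type) [Fintype Λ] [DecidableEq Λ] [LabelSys Λ] (n : ℕ),
      c * n + c ≤ Fintype.card Λ → Q Λ k n)
    (LEN : ∀ (Λ : Type) [Fintype Λ] [DecidableEq Λ] [LabelSys Λ], LenA Λ k)
    (KEY : ∀ (Λ : Type) [Fintype Λ] [DecidableEq Λ] [LabelSys Λ], KeyA Λ k) (r : ℕ) :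
    ∀ (Λ : Type) [Fintype Λ] [DecidableEq Λ] [LabelSys Λ] (n : ℕ),
      c * (n * hh ^ r) + c ≤ Fintype.card Λ ^ (2 ^ r) → Q Λ k n := by
  induction r with
  | zero =>
    intro Λ _ _ _ n h
    exact BASE Λ n (by simpa using h)
  | succ r ih =>
    intro Λ _ _ _ n h
    refine Q_step (LEN Λ) (KEY Λ) n (ih (Λ × Λ) (n * hh) ?_)
    rw [Fintype.card_prod, ← pow_two, ← pow_mul, ← pow_succ']
    rw [pow_succ'] at h
    rw [mul_assoc, ← mul_assoc]
    rw [← mul_assoc] at h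
    exact h

/-- exponentials are beaten by double exponentials -/
theorem growth (c n h : ℕ) (N : ℕ) (hN : 2 ≤ N) : ∃ r : ℕ, c * (n * h ^ r) + c ≤ N ^ (2 ^ r) := by
  -- `c (n h^r) + c ≤ (c n + c + h + 2) ^ (r + 1) ≤ 2 ^ (s (r+1))`
  obtain ⟨s, hs⟩ : ∃ s : ℕ, c * n + c + h + 2 ≤ 2 ^ s :=
    ⟨c * n + c + h + 2, Nat.lt_two_pow_self.le⟩
  obtain ⟨r, hr⟩ : ∃ r : ℕ, s * (r + 1) ≤ 2 ^ r := by
    refine ⟨3 * s + 3, ?_⟩
    have h1 : s + 1 < 2 ^ (s + 1) := Nat.lt_two_pow_self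
    have h2 : 2 ^ (3 * s + 3) = (2 ^ (s + 1)) ^ 3 := by rw [← pow_mul]; congr 1; omega
    rw [h2]
    have h3 : (s + 2) ^ 3 ≤ (2 ^ (s + 1)) ^ 3 := Nat.pow_le_pow_left h1 3
    refine le_trans ?_ h3
    nlinarith [sq_nonneg s, Nat.zero_le (s ^ 3)]
  refine ⟨r, ?_⟩
  calc c * (n * h ^ r) + c ≤ (c * n + c + h + 2) ^ (r + 1) := by
        have h1 : h ^ r ≤ (c * n + c + h + 2) ^ r := Nat.pow_le_pow_left (by omega) r
        have h2 : 1 ≤ (c * n + c + h + 2) ^ r := Nat.one_le_pow _ _ (by omega)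
        calc c * (n * h ^ r) + c = c * n * h ^ r + c * 1 := by ring
          _ ≤ c * n * (c * n + c + h + 2) ^ r + c * (c * n + c + h + 2) ^ r :=
            Nat.add_le_add (Nat.mul_le_mul_left _ h1) (Nat.mul_le_mul_left _ h2)
          _ = (c * n + c) * (c * n + c + h + 2) ^ r := by ring
          _ ≤ (c * n + c + h + 2) * (c * n + c + h + 2) ^ r := Nat.mul_le_mul_right _ (by omega)
          _ = (c * n + c + h + 2) ^ (r + 1) := by ring
    _ ≤ (2 ^ s) ^ (r + 1) := Nat.pow_le_pow_left hs _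
    _ = 2 ^ (s * (r + 1)) := by rw [← pow_mul]
    _ ≤ 2 ^ (2 ^ r) := Nat.pow_le_pow_right (by norm_num) hr
    _ ≤ N ^ (2 ^ r) := Nat.pow_le_pow_left hN _

/-- the final form -/
theorem qall (c : ℕ)
    (BASE : ∀ (k : Type) [CommRing k] [CharP k 2] (Λ : Type) [Fintype Λ] [DecidableEq Λ]
      [LabelSys Λ] (n : ℕ), c * n + c ≤ Fintype.card Λ → Q Λ k n)
    (LEN : ∀ (k : Type) [CommRing k] [CharP k 2] (Λ : Type) [Fintype Λ] [DecidableEq Λ]
      [LabelSys Λ], LenA Λ k)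
    (KEY : ∀ (k : Type) [CommRing k] [CharP k 2] (Λ : Type) [Fintype Λ] [DecidableEq Λ]
      [LabelSys Λ], KeyA Λ k)
    (Λ : Type) [Fintype Λ] [DecidableEq Λ] [LabelSys Λ] : QAll (step (Λ := Λ)) := by
  intro k _ _ n B hB
  have h2 : 2 ≤ Fintype.card Λ := by
    have : Function.Injective (fun b : Bool => if b then (z : Λ) else code (.W .w0)) := by
      have hne : (z : Λ) ≠ code (.W .w0) := by
        intro h
        have h1 := LabelSys.decode_z (Λ := Λ)
        rw [h, LabelSys.decode_code] at h1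
        exact absurd h1 (by simp)
      intro a b hab
      cases a <;> cases b <;> simp_all
    simpa using Fintype.card_le_of_injective _ this
  obtain ⟨r, hr⟩ := growth c n hh (Fintype.card Λ) h2
  exact Q_iter c (fun Λ _ _ _ n h => BASE k Λ n h) (fun Λ _ _ _ => LEN k Λ)
    (fun Λ _ _ _ => KEY k Λ) r Λ n hr B hB

end Crest.Agent.R176.Iter660
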