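import Crest.Agent.R176.Surj906
import Crest.Agent.R176.Inj115D

/-! Row 176, part B: STAB = surjective stability (906) + injectivity (115). -/

set_option autoImplicit false

universe u v w

namespace Crest.Agent.R176.Surj906

open Crest.Agent.R176.St

theorem surjR {R : Type v} [Ring R] {k : Type w} [DivisionRing k] (π : R →+* k)
    (hπ : ∀ r, π r ≠ 0 → IsUnit r) : Inj115.SURJ.{u, v} R := by
  intro K _ _ o hc g hg
  have h3 : ∀ i : K, ∃ j, j ≠ i ∧ j ≠ o := by
    intro i
    by_contra hne
    have : (Finset.univ : Finset K) ⊆ {i, o} := by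
      intro j _
      rw [Finset.mem_insert, Finset.mem_singleton]
      by_contra hj
      rw [not_or] at hj
      exact hne ⟨j, hj.1, hj.2⟩
    have h1 := Finset.card_le_card this
    rw [Finset.card_univ] at h1
    have h2 : ({i, o} : Finset K).card ≤ 2 := Finset.card_le_two
    omega
  exact surj (φ := π) hπ h3 g hg

/-- **STAB**: injective `K_2`-stability for local rings, `|I| ≥ 9`. -/
theorem stab {I : Type u} [Fintype I] [DecidableEq I] {R : Type v} [Ring R] {k : Type w}
    [DivisionRing k] (π : R →+* k) (hπ : ∀ r, π r ≠ 0 → IsUnit r) (hc : 9 ≤ Fintype.card I) :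
    Function.Injective (mapI (R := R) (Function.Embedding.some : I ↪ Option I)) :=
  Inj115.stab_of_surj (surjR π hπ) π hπ hc

end Crest.Agent.R176.Surj906
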