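import Crest.Agent.R176.StCol313

/-! Row 176, part B, STAB step 1: surjective stability.
`R` "local" via a ring hom `φ : R →+* K` to a division ring with `φ r ≠ 0 → IsUnit r`.
If `z : St I R` fixes the basis column `e_k` (on matrices) then `z` lies in the subgroup `Q k`
generated by all `x_ij(r)` with `j ≠ k`. -/

set_option autoImplicit false
set_option linter.unusedVariables false
set_option linter.unusedSectionVars false

namespace Crest.Agent.R176.Surj906

open scoped commutatorElement
open Crest.Agent.R176.St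

variable {I R K : Type*} [Ring R] [DivisionRing K] (φ : R →+* K)
  [Fintype I] [DecidableEq I] (k : I)

/-- the subgroup generated by all `x_ij(r)`, `j ≠ k` -/
def Q (R : Type*) [Ring R] (k : I) : Subgroup (St I R) :=
  Subgroup.closure {g | ∃ (i j : I) (h : i ≠ j) (r : R), j ≠ k ∧ g = x i j h r}

theorem x_mem_Q {i j : I} (h : i ≠ j) (r : R) (hj : j ≠ k) : x i j h r ∈ Q R k :=
  Subgroup.subset_closure ⟨i, j, h, r, hj, rfl⟩

theorem col_mem_Q {j : I} (hj : j ≠ k) (a : I → R) : col j a ∈ Q R k := by
  induction a using pi_induction with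
  | h0 => rw [col_zero]; exact one_mem _
  | hadd a b ha hb => rw [col_add]; exact mul_mem ha hb
  | hs i r =>
    by_cases hij : i = j
    · subst hij; rw [col_single_self]; exact one_mem _
    · rw [col_single j i hij]; exact x_mem_Q k hij r hj

theorem row_mem_Q (a : I → R) : row k a ∈ Q R k := by
  induction a using pi_induction with
  | h0 => rw [row_zero]; exact one_mem _
  | hadd a b ha hb => rw [row_add]; exact mul_mem ha hb
  | hs i r =>
    by_cases hij : k = i
    · subst hij; rw [row_single_self]; exact one_mem _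
    · rw [row_single k i hij]; exact x_mem_Q k hij r (Ne.symm hij)

/-- `∑_{i ≠ k} w_i y_i` -/
def dot (w y : I → R) : R := ∑ i ∈ Finset.univ.erase k, w i * y i

theorem dot_add_left (w w' y : I → R) : dot k (w + w') y = dot k w y + dot k w' y := by
  unfold dot
  rw [← Finset.sum_add_distrib]
  exact Finset.sum_congr rfl fun i _ => by rw [Pi.add_apply, add_mul]

theorem dot_add_right (w y y' : I → R) : dot k w (y + y') = dot k w y + dot k w y' := by
  unfold dot
  rw [← Finset.sum_add_distrib]
  exact Finset.sum_congr rfl fun i _ => by rw [Pi.add_apply, mul_add]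

theorem dot_zero_left (y : I → R) : dot k (0 : I → R) y = 0 := by
  unfold dot
  exact Finset.sum_eq_zero fun i _ => by rw [Pi.zero_apply, zero_mul]

theorem dot_neg_left (w y : I → R) : dot k (-w) y = -dot k w y := by
  unfold dot
  rw [← Finset.sum_neg_distrib]
  exact Finset.sum_congr rfl fun i _ => by rw [Pi.neg_apply, neg_mul]

theorem dot_sub_left (w w' y : I → R) : dot k (w - w') y = dot k w y - dot k w' y := by
  rw [sub_eq_add_neg, dot_add_left, dot_neg_left, sub_eq_add_neg]

theorem dot_single_left {i : I} (hi : i ≠ k) (c : R) (y : I → R) :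
    dot k (Pi.single i c) y = c * y i := by
  unfold dot
  rw [Finset.sum_eq_single i]
  · rw [Pi.single_eq_same]
  · intro j _ hj; rw [Pi.single_eq_of_ne hj, zero_mul]
  · intro h; exact absurd (Finset.mem_erase.mpr ⟨hi, Finset.mem_univ i⟩) h

theorem dot_single_left_self (c : R) (y : I → R) :
    dot k (Pi.single k c) y = 0 := by
  unfold dot
  apply Finset.sum_eq_zero
  intro j hj
  rw [Pi.single_eq_of_ne (Finset.ne_of_mem_erase hj), zero_mul]

theorem dot_single_right {i : I} (hi : i ≠ k) (c : R) (w : I → R) :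
    dot k w (Pi.single i c) = w i * c := by
  unfold dot
  rw [Finset.sum_eq_single i]
  · rw [Pi.single_eq_same]
  · intro j _ hj; rw [Pi.single_eq_of_ne hj, mul_zero]
  · intro h; exact absurd (Finset.mem_erase.mpr ⟨hi, Finset.mem_univ i⟩) h

theorem dot_single_right_self (c : R) (w : I → R) :
    dot k w (Pi.single k c) = 0 := by
  unfold dot
  apply Finset.sum_eq_zero
  intro j hj
  rw [Pi.single_eq_of_ne (Finset.ne_of_mem_erase hj), mul_zero]

/-- if `y_j = 0` then `col(y)⁻¹ x_kj(c) col(y) ∈ Q`. -/
theorem conj_x_mem {j : I} (h : k ≠ j) (c : R) (y : I → R) (hy : y j = 0) :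
    (col k y)⁻¹ * x k j h c * col k y ∈ Q R k := by
  have e : col k y = col k (Function.update y k 0) :=
    col_congr k fun i hi => by rw [Function.update_of_ne hi]
  rw [e, mul_assoc, x_row_mul_col k j h c (Function.update y k 0)
    (by rw [Function.update_of_ne h.symm, hy]) (Function.update_self _ _ _), ← mul_assoc,
    ← mul_assoc, inv_mul_cancel, one_mul]
  exact mul_mem (col_mem_Q k h.symm _) (x_mem_Q k h c h.symm)

/-- conjugating a row orthogonal to `y` by `col y` lands in `Q`. -/
theorem conj_row_mem {p : I} (hp : p ≠ k) (y : I → R) (v : R) (hv : y p * v = 1)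
    (hv' : v * y p = 1) (d : I → R) (hd : dot k d y = 0) :
    (col k y)⁻¹ * row k d * col k y ∈ Q R k := by
  have key : ∀ d : I → R,
      (col k y)⁻¹ * row k (d - Pi.single p (dot k d y * v)) * col k y ∈ Q R k := by
    intro d
    induction d using pi_induction with
    | h0 =>
      rw [dot_zero_left, zero_mul, Pi.single_zero, sub_zero, row_zero, mul_one, inv_mul_cancel]
      exact one_mem _
    | hadd a b ha hb =>
      have : a + b - Pi.single p (dot k (a + b) y * v) =
          (a - Pi.single p (dot k a y * v)) + (b - Pi.single p (dot k b y * v)) := by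
        rw [dot_add_left, add_mul, Pi.single_add]; abel
      rw [this, row_add]
      have e : (col k y)⁻¹ * (row k (a - Pi.single p (dot k a y * v)) *
          row k (b - Pi.single p (dot k b y * v))) * col k y =
          ((col k y)⁻¹ * row k (a - Pi.single p (dot k a y * v)) * col k y) *
          ((col k y)⁻¹ * row k (b - Pi.single p (dot k b y * v)) * col k y) := by group
      rw [e]
      exact mul_mem ha hb
    | hs j c =>
      by_cases hjk : j = k
      · subst hjk
        rw [dot_single_left_self, zero_mul, Pi.single_zero, sub_zero, row_single_self, mul_one,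
          inv_mul_cancel]
        exact one_mem _
      rw [dot_single_left k hjk]
      by_cases hjp : j = p
      · subst hjp
        rw [mul_assoc c (y j) v, hv, mul_one, sub_self, row_zero, mul_one, inv_mul_cancel]
        exact one_mem _
      -- the main case
      have h1 := x_mul_col k j p hjp hjk hp (-(y j * v)) y
      have h2 := x_mul_row k j p hjp hjk hp (-(y j * v))
        ((Pi.single j c : I → R) - Pi.single p (c * y j * v))
      have e1 : (-(y j * v)) * y p = - y j := by
        rw [neg_mul, mul_assoc, hv', mul_one]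
      have e2 : ((Pi.single j c : I → R) - Pi.single p (c * y j * v)) -
          Pi.single p ((Pi.single j c - Pi.single p (c * y j * v) : I → R) j * (-(y j * v))) =
          Pi.single j c := by
        rw [Pi.sub_apply, Pi.single_eq_same, Pi.single_eq_of_ne hjp, sub_zero, mul_neg,
          Pi.single_neg, ← mul_assoc]
        abel
      rw [e1] at h1
      rw [e2] at h2
      set g := x j p hjp (-(y j * v)) with hg
      have hgQ : g ∈ Q R k := x_mem_Q k hjp _ hp
      set y' : I → R := y + Pi.single j (- y j) with hy'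
      have h0 : y' j = 0 := by
        rw [hy', Pi.add_apply, Pi.single_eq_same, add_neg_cancel]
      have h3 := conj_x_mem k (Ne.symm hjk) c y' h0
      rw [← row_single k j (Ne.symm hjk)] at h3
      have e3 : col k y = g⁻¹ * (col k y' * g) := by rw [← h1]; group
      have e4 : row k ((Pi.single j c : I → R) - Pi.single p (c * y j * v)) =
          g⁻¹ * (row k (Pi.single j c) * g) := by rw [← h2]; group
      rw [e3, e4]
      have e5 : (g⁻¹ * (col k y' * g))⁻¹ * (g⁻¹ * (row k (Pi.single j c) * g)) *
          (g⁻¹ * (col k y' * g)) =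
          g⁻¹ * ((col k y')⁻¹ * row k (Pi.single j c) * col k y') * g := by group
      rw [e5]
      exact mul_mem (mul_mem (inv_mem hgQ) h3) hgQ
  have := key d
  rwa [hd, zero_mul, Pi.single_zero, sub_zero] at this

/-- `z` lies in the coset attached to the column `y` (big cell) -/
def Big (y : I → R) (z : St I R) : Prop :=
  ∃ (w : I → R) (q : St I R), q ∈ Q R k ∧ z = row k w * col k y * q ∧ 1 + dot k w y = y k

/-- `y` has a unit coordinate off `k` -/
def U (y : I → R) : Prop := ∃ p, p ≠ k ∧ φ (y p) ≠ 0

/-- `g y` for `g = x_ij(r)` -/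
def act (i j : I) (r : R) (y : I → R) : I → R := y + Pi.single i (r * y j)

variable {φ k}

theorem Big.row_indep (hu : ∀ r : R, φ r ≠ 0 → IsUnit r) {y : I → R} {z : St I R} (hy : U φ k y)
    (hz : Big k y z) (w : I → R) (hw : 1 + dot k w y = y k) :
    ∃ q ∈ Q R k, z = row k w * col k y * q := by
  obtain ⟨w', q, hq, rfl, hw'⟩ := hz
  obtain ⟨p, hp, hpu⟩ := hy
  obtain ⟨v, hv⟩ := hu _ hpu
  have hd : dot k (w' - w) y = 0 := by
    rw [dot_sub_left]
    have : dot k w' y = dot k w y := by
      have := hw'.trans hw.symm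
      exact add_left_cancel this
    rw [this, sub_self]
  have := conj_row_mem k hp y (↑v⁻¹) (by rw [← hv]; exact v.mul_inv) (by rw [← hv]; exact v.inv_mul)
    (w' - w) hd
  refine ⟨(col k y)⁻¹ * row k (w' - w) * col k y * q, mul_mem this hq, ?_⟩
  have e : row k w' = row k w * row k (w' - w) := by
    rw [← row_add]; congr 1; abel
  rw [e]
  group

theorem Big.unique (hu : ∀ r : R, φ r ≠ 0 → IsUnit r) {y : I → R} {z z' : St I R}
    (hy : U φ k y) (hz : Big k y z) (hz' : Big k y z') : z⁻¹ * z' ∈ Q R k := by
  obtain ⟨w, q, hq, rfl, hw⟩ := hz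
  obtain ⟨q', hq', rfl⟩ := Big.row_indep hu hy hz' w hw
  have : (row k w * col k y * q)⁻¹ * (row k w * col k y * q') = q⁻¹ * q' := by group
  rw [this]
  exact mul_mem (inv_mem hq) hq'

/-- step (L): `x_ij(r)`, `i, j ≠ k` -/
theorem Big.stepL {y : I → R} {z : St I R} (hz : Big k y z) {i j : I} (h : i ≠ j) (hi : i ≠ k)
    (hj : j ≠ k) (r : R) : Big k (act i j r y) (x i j h r * z) := by
  obtain ⟨w, q, hq, rfl, hw⟩ := hz
  refine ⟨w - Pi.single j (w i * r), x i j h r * q, mul_mem (x_mem_Q k h r hj) hq, ?_, ?_⟩
  · rw [← mul_assoc, ← mul_assoc, x_mul_row k i j h hi hj, mul_assoc (row k _), x_mul_col k i j h hi hj]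
    unfold act
    simp only [mul_assoc]
  · unfold act
    rw [dot_sub_left, dot_add_right, dot_single_right k hi, dot_single_left k hj, Pi.add_apply,
      Pi.add_apply, Pi.single_eq_of_ne (Ne.symm hi), Pi.single_eq_of_ne (Ne.symm h), add_zero,
      add_zero, ← hw]
    rw [mul_assoc]
    abel

/-- step (R): `x_kj(r)` -/
theorem Big.stepR {y : I → R} {z : St I R} (hz : Big k y z) {j : I} (h : k ≠ j)
    (r : R) : Big k (act k j r y) (x k j h r * z) := by
  obtain ⟨w, q, hq, rfl, hw⟩ := hz
  refine ⟨Pi.single j r + w, q, hq, ?_, ?_⟩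
  · have e : col k (act k j r y) = col k y := col_congr k fun i hi => by
      unfold act
      rw [Pi.add_apply, Pi.single_eq_of_ne hi, add_zero]
    rw [row_add, row_single k j h, e]
    simp only [mul_assoc]
  · unfold act
    rw [dot_add_left, dot_add_right, dot_add_right, dot_single_right_self, dot_single_right_self,
      dot_single_left k (Ne.symm h), add_zero, add_zero, Pi.add_apply, Pi.single_eq_same, ← hw]
    abel

/-- step (C): `x_ik(r)`, a unit off `i, k` -/
theorem Big.stepC (hu : ∀ r : R, φ r ≠ 0 → IsUnit r) {y : I → R} {z : St I R}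
    (hz : Big k y z) {i : I} (h : i ≠ k) (r : R) {p : I} (hp : p ≠ k) (hpi : p ≠ i)
    (hpu : φ (y p) ≠ 0) : Big k (act i k r y) (x i k h r * z) := by
  obtain ⟨v, hv⟩ := hu _ hpu
  have hv1 : y p * ↑v⁻¹ = 1 := by rw [← hv]; exact v.mul_inv
  have hv2 : ↑v⁻¹ * y p = 1 := by rw [← hv]; exact v.inv_mul
  have hdot : ∀ y' : I → R, y' p = y p →
      dot k (Pi.single p ((y k - 1) * ↑v⁻¹)) y' = y k - 1 := by
    intro y' h'
    rw [dot_single_left k hp, mul_assoc, h', hv2, mul_one]
  obtain ⟨q, hq, rfl⟩ := Big.row_indep hu ⟨p, hp, hpu⟩ hz (Pi.single p ((y k - 1) * ↑v⁻¹))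
    (by rw [hdot _ rfl, add_sub_cancel])
  set s := (y k - 1) * ↑v⁻¹ with hs
  refine ⟨Pi.single p s, x i p (Ne.symm hpi) (r * s) * q,
    mul_mem (x_mem_Q k _ _ hp) hq, ?_, ?_⟩
  · rw [row_single k p (Ne.symm hp)]
    have c1 := x_comm i k p h (Ne.symm hp) (Ne.symm hpi) r s
    have c2 := x_commute i p k p (Ne.symm hpi) (Ne.symm hp) hp (Ne.symm hpi) (r * s) s
    have c3 := x_mul_col k i p (Ne.symm hpi) h hp (r * s) (y + Pi.single i r)
    have c4 : x i k h r * col k y = col k (y + Pi.single i r) := by
      rw [add_comm y, col_add, col_single k i h]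
    have e1 : (y + Pi.single i r) + Pi.single i (r * s * (y + Pi.single i r : I → R) p) =
        act i k r y := by
      unfold act
      rw [Pi.add_apply, Pi.single_eq_of_ne hpi, add_zero, mul_assoc, hs, mul_assoc, hv2, mul_one,
        add_assoc, ← Pi.single_add]
      congr 2
      rw [mul_sub, mul_one, add_sub_cancel]
    rw [e1] at c3
    have c1' : x i k h r * x k p (Ne.symm hp) s =
        x k p (Ne.symm hp) s * x i p (Ne.symm hpi) (r * s) * x i k h r := by
      rw [← c2.eq, ← c1, commutatorElement_def]; group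
    calc x i k h r * (x k p (Ne.symm hp) s * col k y * q)
        = (x i k h r * x k p (Ne.symm hp) s) * col k y * q := by simp only [mul_assoc]
      _ = x k p (Ne.symm hp) s * (x i p (Ne.symm hpi) (r * s) * (x i k h r * col k y)) * q := by
          rw [c1']; simp only [mul_assoc]
      _ = x k p (Ne.symm hp) s * (col k (act i k r y) * x i p (Ne.symm hpi) (r * s)) * q := by
          rw [c4, c3]
      _ = x k p (Ne.symm hp) s * col k (act i k r y) * (x i p (Ne.symm hpi) (r * s) * q) := by
          simp only [mul_assoc]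
  · have e2 : act i k r y p = y p := by
      unfold act
      rw [Pi.add_apply, Pi.single_eq_of_ne hpi, add_zero]
    have e3 : act i k r y k = y k := by
      unfold act
      rw [Pi.add_apply, Pi.single_eq_of_ne (Ne.symm h), add_zero]
    rw [hdot _ e2, e3, add_sub_cancel]

/-- step (C''): `x_ik(r)`, both columns have a unit off `k` -/
theorem Big.stepC' (hu : ∀ r : R, φ r ≠ 0 → IsUnit r) (h3 : ∀ i : I, ∃ j, j ≠ i ∧ j ≠ k)
    {y : I → R} {z : St I R}
    (hz : Big k y z) {i : I} (h : i ≠ k) (r : R) (hy : U φ k y) (hy' : U φ k (act i k r y)) :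
    Big k (act i k r y) (x i k h r * z) := by
  by_cases hex : ∃ p, p ≠ k ∧ p ≠ i ∧ φ (y p) ≠ 0
  · obtain ⟨p, hp, hpi, hpu⟩ := hex
    exact hz.stepC hu h r hp hpi hpu
  have hall : ∀ p, p ≠ k → p ≠ i → φ (y p) = 0 := by
    intro p hp hpi
    by_contra hne
    exact hex ⟨p, hp, hpi, hne⟩
  have hyi : φ (y i) ≠ 0 := by
    obtain ⟨p, hp, hpu⟩ := hy
    by_cases hpi : p = i
    · rwa [hpi] at hpu
    · exact absurd (hall p hp hpi) hpu
  have hyi' : φ (y i + r * y k) ≠ 0 := by
    obtain ⟨p, hp, hpu⟩ := hy'
    unfold act at hpu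
    by_cases hpi : p = i
    · subst hpi
      rwa [Pi.add_apply, Pi.single_eq_same] at hpu
    · rw [Pi.add_apply, Pi.single_eq_of_ne hpi, add_zero] at hpu
      exact absurd (hall p hp hpi) hpu
  obtain ⟨j, hji, hjk⟩ := h3 i
  -- conjugate by x_ji(1)
  have s1 := hz.stepL hji hjk h 1
  have s2 := s1.stepC hu hjk r (p := i) h (Ne.symm hji) (by
    unfold act
    rw [Pi.add_apply, Pi.single_eq_of_ne (Ne.symm hji), add_zero]; exact hyi)
  have s3 := s2.stepC hu h r (p := j) hjk hji (by
    unfold act
    simp only [Pi.add_apply, Pi.single_eq_same, Pi.single_eq_of_ne (Ne.symm hji),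
      Pi.single_eq_of_ne (Ne.symm hjk), Pi.single_eq_of_ne (Ne.symm h), add_zero, one_mul]
    rw [add_assoc, map_add, hall j hjk hji, zero_add]
    exact hyi')
  have s4 := s3.stepL hji hjk h (-1)
  have ey : act j i (-1) (act i k r (act j k r (act j i 1 y))) = act i k r y := by
    unfold act
    simp only [Pi.add_apply, Pi.single_eq_same, Pi.single_eq_of_ne (Ne.symm hji),

      Pi.single_eq_of_ne (Ne.symm hjk), Pi.single_eq_of_ne (Ne.symm h), add_zero, one_mul,
      neg_mul, neg_add, Pi.single_add, Pi.single_neg]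
    abel
  have ez : x j i hji (-1) * (x i k h r * (x j k hjk r * (x j i hji 1 * z))) = x i k h r * z := by
    have c1 := x_comm j i k hji h hjk 1 r
    rw [one_mul] at c1
    have c2 := (x_commute i k j k h hjk (Ne.symm hjk) h r r).eq
    have e : x i k h r * (x j k hjk r * (x j i hji 1 * z)) =
        (x i k h r * x j k hjk r) * (x j i hji 1 * z) := by rw [mul_assoc]
    rw [x_neg, e, c2, ← c1, commutatorElement_def]
    group
  rw [ey, ez] at s4
  exact s4

/-- explicit values of `act` -/
theorem act_apply (i j : I) (r : R) (y : I → R) (p : I) :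
    act i j r y p = y p + if p = i then r * y j else 0 := by
  unfold act
  rw [Pi.add_apply]
  by_cases h : p = i
  · subst h; rw [Pi.single_eq_same, if_pos rfl]
  · rw [Pi.single_eq_of_ne h, if_neg h]

/-- the coset attached to a column whose only unit coordinate is the `k`-th -/
def Sm (φ : R →+* K) (k : I) (y : I → R) (z : St I R) : Prop :=
  ∀ (i : I) (h : i ≠ k) (c : R), φ c ≠ 0 → Big k (act i k c y) (x i k h c * z)

theorem U_act_of (φ : R →+* K) {y : I → R} (hk : φ (y k) ≠ 0) (hy : ¬ U φ k y) {i : I}
    (h : i ≠ k) {c : R} (hc : φ c ≠ 0) : U φ k (act i k c y) := by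
  refine ⟨i, h, ?_⟩
  have h0 : φ (y i) = 0 := by
    by_contra hne
    exact hy ⟨i, h, hne⟩
  rw [act_apply, if_pos rfl, map_add, map_mul, h0, zero_add]
  exact mul_ne_zero hc hk

theorem act_k_apply {i : I} (h : i ≠ k) (c : R) (y : I → R) : act i k c y k = y k := by
  rw [act_apply, if_neg (Ne.symm h), add_zero]

theorem Sm.of_one (hu : ∀ r : R, φ r ≠ 0 → IsUnit r) (h3 : ∀ i : I, ∃ j, j ≠ i ∧ j ≠ k)
    {y : I → R} {z : St I R} (hk : φ (y k) ≠ 0) (hy : ¬ U φ k y) {i₀ : I} (h₀ : i₀ ≠ k) {c₀ : R}
    (hc₀ : φ c₀ ≠ 0) (hz : Big k (act i₀ k c₀ y) (x i₀ k h₀ c₀ * z)) : Sm φ k y z := by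
  -- first: different index
  have step : ∀ (i₁ : I) (h₁ : i₁ ≠ k) (c₁ : R), φ c₁ ≠ 0 →
      Big k (act i₁ k c₁ y) (x i₁ k h₁ c₁ * z) →
      ∀ (i : I) (h : i ≠ k) (c : R), i ≠ i₁ → φ c ≠ 0 →
        Big k (act i k c y) (x i k h c * z) := by
    intro i₁ h₁ c₁ hc₁ hz₁ i h c hne hc
    have u1 : U φ k (act i₁ k c₁ y) := U_act_of φ hk hy h₁ hc₁
    have u2 : U φ k (act i k c (act i₁ k c₁ y)) := by
      refine ⟨i₁, h₁, ?_⟩
      rw [act_apply, if_neg (Ne.symm hne), add_zero]
      obtain ⟨p, hp, hpu⟩ := u1
      have h0 : φ (y i₁) = 0 := by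
        by_contra hne'
        exact hy ⟨i₁, h₁, hne'⟩
      rw [act_apply, if_pos rfl, map_add, map_mul, h0, zero_add]
      exact mul_ne_zero hc₁ hk
    have s1 := hz₁.stepC' hu h3 h c u1 u2
    have ey : act i₁ k (-c₁) (act i k c (act i₁ k c₁ y)) = act i k c y := by
      funext p
      rw [act_apply, act_k_apply h, act_k_apply h₁, act_apply, act_k_apply h₁, act_apply,
        act_apply]
      split_ifs with hp1 hp2
      · exact absurd (hp2.symm.trans hp1) hne
      · rw [add_zero, neg_mul, add_neg_cancel_right, add_zero]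
      · rw [add_zero, add_zero]
      · rw [add_zero, add_zero]
    have u3 : U φ k (act i₁ k (-c₁) (act i k c (act i₁ k c₁ y))) := by
      rw [ey]; exact U_act_of φ hk hy h hc
    have s2 := s1.stepC' hu h3 h₁ (-c₁) u2 u3
    have ez : x i₁ k h₁ (-c₁) * (x i k h c * (x i₁ k h₁ c₁ * z)) = x i k h c * z := by
      have c2 := (x_commute i k i₁ k h h₁ (Ne.symm h₁) h c c₁).eq
      rw [x_neg, ← mul_assoc (x i k h c), c2]
      group
    rw [ey, ez] at s2
    exact s2
  intro i h c hc
  by_cases hii : i = i₀
  · subst hii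
    obtain ⟨j, hji, hjk⟩ := h3 i
    have s1 := step i h₀ c₀ hc₀ hz j hjk 1 hji (by rw [map_one]; exact one_ne_zero)
    exact step j hjk 1 (by rw [map_one]; exact one_ne_zero) s1 i h c (Ne.symm hji) hc
  · exact step i₀ h₀ c₀ hc₀ hz i h c hii hc

/-- `z` lies in the coset attached to `y` -/
def Mem (φ : R →+* K) (k : I) (y : I → R) (z : St I R) : Prop :=
  (U φ k y ∧ Big k y z) ∨ (¬ U φ k y ∧ φ (y k) ≠ 0 ∧ Sm φ k y z)

theorem Mem.unique (hu : ∀ r : R, φ r ≠ 0 → IsUnit r) (h3 : ∀ i : I, ∃ j, j ≠ i ∧ j ≠ k)
    {y : I → R} {z z' : St I R} (hz : Mem φ k y z) (hz' : Mem φ k y z') : z⁻¹ * z' ∈ Q R k := by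
  rcases hz with ⟨hy, hz⟩ | ⟨hy, hk, hz⟩
  · rcases hz' with ⟨_, hz'⟩ | ⟨hy', _, _⟩
    · exact Big.unique hu hy hz hz'
    · exact absurd hy hy'
  · rcases hz' with ⟨hy', _⟩ | ⟨_, _, hz'⟩
    · exact absurd hy' hy
    · obtain ⟨i, hi, _⟩ := h3 k
      have h1 : φ (1 : R) ≠ 0 := by rw [map_one]; exact one_ne_zero
      have := Big.unique hu (U_act_of φ hk hy hi h1) (hz i hi 1 h1) (hz' i hi 1 h1)
      have e : (x i k hi 1 * z)⁻¹ * (x i k hi 1 * z') = z⁻¹ * z' := by group
      rwa [e] at this

theorem mem_one (h3 : ∀ i : I, ∃ j, j ≠ i ∧ j ≠ k) :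
    Mem φ k (Pi.single k (1 : R)) (1 : St I R) := by
  right
  refine ⟨?_, ?_, ?_⟩
  · rintro ⟨p, hp, hpu⟩
    rw [Pi.single_eq_of_ne hp, map_zero] at hpu
    exact hpu rfl
  · rw [Pi.single_eq_same, map_one]; exact one_ne_zero
  · intro i h c hc
    refine ⟨0, 1, one_mem _, ?_, ?_⟩
    · rw [row_zero, one_mul, mul_one, mul_one]
      unfold act
      rw [col_add, col_single_self, one_mul, Pi.single_eq_same, mul_one, col_single k i h]
    · rw [dot_zero_left, add_zero, act_k_apply h, Pi.single_eq_same]

theorem Mem.step (hu : ∀ r : R, φ r ≠ 0 → IsUnit r) (h3 : ∀ i : I, ∃ j, j ≠ i ∧ j ≠ k)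
    {y : I → R} {z : St I R} (hz : Mem φ k y z) {i j : I} (h : i ≠ j) (r : R) :
    Mem φ k (act i j r y) (x i j h r * z) := by
  have h1 : φ (1 : R) ≠ 0 := by rw [map_one]; exact one_ne_zero
  by_cases hjk : j = k
  · subst hjk
    -- `x_ik(r)`
    rcases hz with ⟨hy, hz⟩ | ⟨hy, hk, hz⟩
    · by_cases hy' : U φ j (act i j r y)
      · exact Or.inl ⟨hy', hz.stepC' hu h3 h r hy hy'⟩
      · right
        have hall : ∀ p, p ≠ j → p ≠ i → φ (y p) = 0 := by
          intro p hp hpi
          by_contra hne
          apply hy'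
          refine ⟨p, hp, ?_⟩
          rwa [act_apply, if_neg hpi, add_zero]
        have hyi : φ (y i) ≠ 0 := by
          obtain ⟨p, hp, hpu⟩ := hy
          by_cases hpi : p = i
          · rwa [hpi] at hpu
          · exact absurd (hall p hp hpi) hpu
        have hsum : φ (y i) + φ r * φ (y j) = 0 := by
          by_contra hne
          apply hy'
          refine ⟨i, h, ?_⟩
          rwa [act_apply, if_pos rfl, map_add, map_mul]
        have hr : φ r ≠ 0 := by
          intro h0
          rw [h0, zero_mul, add_zero] at hsum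
          exact hyi hsum
        have hyk : φ (y j) ≠ 0 := by
          intro h0
          rw [h0, mul_zero, add_zero] at hsum
          exact hyi hsum
        have hk' : φ (act i j r y j) ≠ 0 := by rwa [act_k_apply h]
        refine ⟨hy', hk', Sm.of_one hu h3 hk' hy' h (c₀ := -r) (by rwa [map_neg, neg_ne_zero]) ?_⟩
        have ey : act i j (-r) (act i j r y) = y := by
          funext p
          rw [act_apply, act_k_apply h, act_apply]
          split_ifs
          · rw [neg_mul, add_neg_cancel_right]
          · rw [add_zero, add_zero]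
        have ez : x i j h (-r) * (x i j h r * z) = z := by rw [x_neg]; group
        rw [ey, ez]
        exact hz
    · obtain ⟨j', hji, hjk'⟩ := h3 i
      have s1 := hz j' hjk' 1 h1
      have u1 : U φ j (act j' j 1 y) := U_act_of φ hk hy hjk' h1
      have hj' : φ (act j' j 1 y j') ≠ 0 := by
        rw [act_apply, if_pos rfl, map_add, map_mul, map_one, one_mul]
        have h0 : φ (y j') = 0 := by
          by_contra hne
          exact hy ⟨j', hjk', hne⟩
        rwa [h0, zero_add]
      have s2 := s1.stepC hu h r hjk' hji hj'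
      have ey : act i j r (act j' j 1 y) = act j' j 1 (act i j r y) := by
        funext p
        rw [act_apply, act_k_apply hjk', act_apply, act_apply, act_k_apply h, act_apply]
        abel
      have ez : x i j h r * (x j' j hjk' 1 * z) = x j' j hjk' 1 * (x i j h r * z) := by
        rw [← mul_assoc, (x_commute i j j' j h hjk' (Ne.symm hjk') h r 1).eq, mul_assoc]
      rw [ey, ez] at s2
      have hk' : φ (act i j r y j) ≠ 0 := by rwa [act_k_apply h]
      by_cases hy' : U φ j (act i j r y)
      · left
        refine ⟨hy', ?_⟩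
        have ey2 : act j' j (-1) (act j' j 1 (act i j r y)) = act i j r y := by
          funext p
          rw [act_apply, act_k_apply hjk', act_apply]
          split_ifs
          · rw [one_mul, neg_mul, one_mul, add_neg_cancel_right]
          · rw [add_zero, add_zero]
        have u2 : U φ j (act j' j 1 (act i j r y)) := by
          refine ⟨j', hjk', ?_⟩
          rw [← ey, act_apply, if_neg hji, add_zero]
          exact hj'
        have s3 := s2.stepC' hu h3 hjk' (-1) u2 (by rw [ey2]; exact hy')
        have ez2 : x j' j hjk' (-1) * (x j' j hjk' 1 * (x i j h r * z)) = x i j h r * z := by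
          rw [x_neg]; group
        rw [ey2, ez2] at s3
        exact s3
      · exact Or.inr ⟨hy', hk', Sm.of_one hu h3 hk' hy' hjk' h1 s2⟩
  · by_cases hik : i = k
    · subst hik
      -- `x_kj(r)`
      have hUU : U φ i (act i j r y) ↔ U φ i y := by
        constructor
        · rintro ⟨p, hp, hpu⟩
          refine ⟨p, hp, ?_⟩
          rwa [act_apply, if_neg hp, add_zero] at hpu
        · rintro ⟨p, hp, hpu⟩
          refine ⟨p, hp, ?_⟩
          rwa [act_apply, if_neg hp, add_zero]
      rcases hz with ⟨hy, hz⟩ | ⟨hy, hk, hz⟩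
      · exact Or.inl ⟨hUU.mpr hy, hz.stepR h r⟩
      · right
        have hy' : ¬ U φ i (act i j r y) := fun hh => hy (hUU.mp hh)
        have h0 : φ (y j) = 0 := by
          by_contra hne
          exact hy ⟨j, hjk, hne⟩
        have hk' : φ (act i j r y i) ≠ 0 := by
          rw [act_apply, if_pos rfl, map_add, map_mul, h0, mul_zero, add_zero]
          exact hk
        obtain ⟨i', hi'j, hi'k⟩ := h3 j
        refine ⟨hy', hk', Sm.of_one hu h3 hk' hy' hi'k h1 ?_⟩
        have s1 := ((hz i' hi'k 1 h1).stepR h r).stepL hi'j hi'k hjk r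
        have ey : act i' j r (act i j r (act i' i 1 y)) = act i' i 1 (act i j r y) := by
          funext p
          simp only [act_apply, if_neg hjk, if_neg (Ne.symm hi'j), if_neg (Ne.symm hi'k),
            add_zero, if_pos, one_mul]
          split_ifs with hp1 hp2
          · exact absurd (hp2.symm.trans hp1) (Ne.symm hi'k)
          · rw [add_zero]; abel
          · abel
          · abel
        have ez : x i' j hi'j r * (x i j h r * (x i' i hi'k 1 * z)) =
            x i' i hi'k 1 * (x i j h r * z) := by
          have c1 := x_comm i' i j hi'k h hi'j 1 r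
          rw [one_mul] at c1
          rw [← c1, commutatorElement_def]
          group
        rw [ey, ez] at s1
        exact s1
    · -- `x_ij(r)`, `i, j ≠ k`
      have hjj : act i j r y j = y j := by
        rw [act_apply, if_neg (Ne.symm h), add_zero]
      have hkk : act i j r y k = y k := by
        rw [act_apply, if_neg (Ne.symm hik), add_zero]
      have hUU : U φ k y → U φ k (act i j r y) := by
        rintro ⟨p, hp, hpu⟩
        by_cases h0 : φ (y j) = 0
        · refine ⟨p, hp, ?_⟩
          rw [act_apply]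
          split_ifs
          · rw [map_add, map_mul, h0, mul_zero, add_zero]; exact hpu
          · rw [add_zero]; exact hpu
        · exact ⟨j, hjk, by rw [hjj]; exact h0⟩
      rcases hz with ⟨hy, hz⟩ | ⟨hy, hk, hz⟩
      · exact Or.inl ⟨hUU hy, hz.stepL h hik hjk r⟩
      · right
        have hall : ∀ p, p ≠ k → φ (y p) = 0 := by
          intro p hp
          by_contra hne
          exact hy ⟨p, hp, hne⟩
        have hy' : ¬ U φ k (act i j r y) := by
          rintro ⟨p, hp, hpu⟩
          apply hpu
          rw [act_apply]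
          split_ifs
          · rw [map_add, map_mul, hall p hp, hall j hjk, mul_zero, add_zero]
          · rw [add_zero]; exact hall p hp
        have hk' : φ (act i j r y k) ≠ 0 := by rwa [hkk]
        obtain ⟨i', hi'j, hi'k⟩ := h3 j
        refine ⟨hy', hk', Sm.of_one hu h3 hk' hy' hi'k h1 ?_⟩
        have s1 := (hz i' hi'k 1 h1).stepL h hik hjk r
        have ey : act i j r (act i' k 1 y) = act i' k 1 (act i j r y) := by
          funext p
          simp only [act_apply, if_neg (Ne.symm hi'j), if_neg (Ne.symm hik), add_zero]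
          abel
        have ez : x i j h r * (x i' k hi'k 1 * z) = x i' k hi'k 1 * (x i j h r * z) := by
          rw [← mul_assoc, (x_commute i j i' k h hi'k (Ne.symm hi'j) hik r 1).eq, mul_assoc]
        rw [ey, ez] at s1
        exact s1

theorem mem_all (hu : ∀ r : R, φ r ≠ 0 → IsUnit r) (h3 : ∀ i : I, ∃ j, j ≠ i ∧ j ≠ k)
    (z : St I R) : Mem φ k (fun i => (toMat z).val i k) z := by
  induction z using St.induction with
  | h1 =>
    have : (fun i => (toMat (1 : St I R)).val i k) = Pi.single k (1 : R) := by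
      funext i
      rw [map_one, Units.val_one, Matrix.one_apply, Pi.single_apply]
    rw [this]
    exact mem_one h3
  | hx i j h r g ih =>
    have := ih.step hu h3 h r
    have e : act i j r (fun i => (toMat g).val i k) =
        (fun a => (toMat (x i j h r * g)).val a k) := by
      funext a
      rw [act_apply, map_mul, Units.val_mul, toMat_x, elem_val, add_mul, one_mul, Matrix.add_apply]
      congr 1
      split_ifs with hai
      · subst hai
        rw [Matrix.single_mul_apply_same]
      · rw [Matrix.single_mul_apply_of_ne _ _ _ _ _ hai]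
    rw [← e]
    exact this

/-- SURJECTIVE STABILITY: `z e_k = e_k` implies `z ∈ Q k`. -/
theorem surj (hu : ∀ r : R, φ r ≠ 0 → IsUnit r) (h3 : ∀ i : I, ∃ j, j ≠ i ∧ j ≠ k)
    (z : St I R) (hz : ∀ i, (toMat z).val i k = if i = k then 1 else 0) : z ∈ Q R k := by
  have h := mem_all hu h3 z (φ := φ)
  have e : (fun i => (toMat z).val i k) = Pi.single k (1 : R) := by
    funext i
    rw [hz, Pi.single_apply]
  rw [e] at h
  have := Mem.unique hu h3 (mem_one h3) h
  rwa [inv_one, one_mul] at this

end Crest.Agent.R176.Surj906
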