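import Crest.Agent.R176.Final313C
import Crest.Agent.R176.Exc275E

/-! Row 176, part B, X5 (helper313): no phantoms, from `exc` and `PhaseAll`. -/

set_option autoImplicit false

namespace Crest.Agent.R176.Final313

open Crest.Agent.R176 Crest.Agent.R176.St Crest.Agent.R176.QAlg206 Cover294

section blkmap

variable {I J N R : Type*} [Ring R] [Fintype N] [DecidableEq N]

/-- the block embedding -/
def pe (N : Type*) (e : I ↪ J) : I × N ↪ J × N := e.prodMap (Function.Embedding.refl N)

theorem mapI_blk (e : I ↪ J) (i j : I) (h : i ≠ j) (A : Matrix N N R) :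
    mapI (pe N e) (blk i j h A) = blk (e i) (e j) (e.injective.ne h) A := by
  induction A using blk_induction with
  | h0 => rw [blk_zero, blk_zero, map_one]
  | hadd A B ih ih' => rw [blk_add, map_mul, ih, ih', ← blk_add]
  | hs p q r => rw [blk_single, blk_single, mapI_x]; rfl

theorem Blk_mapI (e : I ↪ J) (g : St I (Matrix N N R)) :
    Blk J N R (mapI e g) = mapI (pe N e) (Blk I N R g) := by
  have key : (Blk J N R).comp (mapI (R := Matrix N N R) e) =
      (mapI (R := R) (pe N e)).comp (Blk I N R) := by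
    apply hom_ext
    intro i j h r
    simp only [MonoidHom.comp_apply, mapI_x, Blk_x, mapI_blk]
  exact DFunLike.congr_fun key g

end blkmap

variable {L : Type} {step : L → L → Option (L × L)}

/-- **X5**: there are no phantoms. -/
theorem noPhantom (hph : Ph396.PhaseAll step) {I : Type} [Fintype I] [DecidableEq I]
    (h4 : ∀ a b c : I, ∃ d, d ≠ a ∧ d ≠ b ∧ d ≠ c) (hI : 3 ≤ Fintype.card I) {c : ℕ}
    (hst : StabFor c (QA step (ZMod 2))) (hIc : c ≤ Fintype.card I)
    (g : St I (QA step (ZMod 2))) (h1 : toMat g = 1)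
    (hg : ∀ m, g ∈ Tits370.E I (Fpt396.J step m)) : g = 1 := by
  have : Nonempty I := Fintype.card_pos_iff.mp (by omega)
  have h0 := map_projZero_eq_one step hI g h1
  obtain ⟨D, hD⟩ := exists_HW (gr step (ZMod 2)) g
  refine eq_one_of_odd (gr step (ZMod 2)) g h1 h0 (fun n p => mapI_injective hst hIc _) ?_
  intro N₀
  obtain ⟨l, M, hl, hodd, ⟨p⟩⟩ := hph (max N₀ (2 * D))
  have hnz : NeZero l := ⟨by rintro rfl; exact absurd hodd (by decide)⟩
  refine ⟨l, hnz, (le_max_left _ _).trans hl, hodd, ?_⟩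
  obtain ⟨m, hm⟩ := Exc275.exc p h4 (I := I)
  have h2 := hm g h1 (hg m)
  have h3 := congrArg (Blk (I × Fin 2) (Fin l) (QA step (ZMod 2))) h2
  rw [Blk_mapI, Blk_mapI, Blk_cyc_eq_one (gr step (ZMod 2)) g h1 h0 hD l
    ((le_max_right _ _).trans hl), map_one] at h3
  rw [Blk_cyc_eq_one (gr step (ZMod 2)) g h1 h0 hD l ((le_max_right _ _).trans hl)]
  refine (mapI_injective (J := (I × Fin 2) × Fin l) hst ?_ _ (h3.symm.trans (map_one _).symm)).symm
  rw [Fintype.card_prod, Fintype.card_fin]
  exact hIc.trans (Nat.le_mul_of_pos_right _ (Nat.pos_of_neZero l))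

theorem four (a b c : Fin 9) : ∃ d : Fin 9, d ≠ a ∧ d ≠ b ∧ d ≠ c := by
  revert a b c; decide

/-- **S0265 from part A and PHASES.** -/
theorem s0265_of_phase [Fintype L]
    (hinf : ∀ n : ℕ, ∃ w : List L, n ≤ w.length ∧ ¬ IsZ step w)
    (hQ : Gen.QAll step) (hph : Ph396.PhaseAll step) :
    ∃ (G : Type) (_ : Group G),
      Infinite G ∧ Group.IsFinitelyPresented G ∧ Group.ResiduallyFinite G ∧ IsPGroup 2 G :=
  s0265_of_noPhantom step hinf hQ fun hst g h1 hg =>
    noPhantom hph four (by simp) hst (by simp) g h1 hg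

end Crest.Agent.R176.Final313
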